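/-
Row 258 (S0498), Sec. 8, layer (B).  Architect helper61.  File Graph.lean: ELEMENTARY FACTS ON THE FREQUENCY GRAPHS (22) of a `ModeSys`
(Sec. 8.4 "Two component graphs"): blocks and pre-cells, symmetry and monotonicity of the edge relation, components, path sums,
the slope oscillation bound, validity of the tower of block [S8c], far persistence.   NO paper needed (all definitions are in S8/Iface.lean).

LEAVES (auxiliary lemmas with prefix `s8g_`; do not change statements):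
  P-S8-GRAPH-A = sections `blocks`, `edges`     (arithmetic of `Cell.anc`, `s8Rel`; the edge relation)
  P-S8-GRAPH-B = sections `comp`, `path`        (`Relation.ReflTransGen`; simple paths)
  P-S8-GRAPH-C = sections `slope`, `tower`      (uses A, B as black boxes)
HINTS.
* blocks: `I ≤ R ↔ ∃ n, I.anc n = R`; for `I ≤ R`: `I.depth = R.depth + s8Rel R I` (`cell_depth_le_of_le`), `(I.anc n).depth = I.depth - n`, `cell_anc_anc`, `cell_le_iff_toNat`,
  `cell_chain_of_depth`.  With `r = s8Rel R I = K j + o` (`Nat.div_add_mod`), `j ≥ 4`: `o + 4K ≤ r`, so `s8Frz = I.anc (o+4K) ≤ R` and has relative depth `K (j-4)`.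
* `adj_succ`: replace the witness `n` by `6 n`: `dotv (6 n) / 6^(h+1) = dotv n / 6^h`, `6 A0^(h+1) ≤ A0^(h+2)`.
* `conn_equiv`: `ReflTransGen` of a symmetric relation (`Relation.ReflTransGen.symmetric`).
* `conn_path`: a `ReflTransGen` chain inside the finite set `lstJ` can be shortened to a chain with at most `card - 1` edges (e.g. `SimpleGraph.fromRel` on the subtype,
  `SimpleGraph.Reachable`, `SimpleGraph.Walk.toPath`, `SimpleGraph.Walk.IsPath.length_lt`; or induction on the cardinality of the set of allowed vertices).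
  Then add the witnesses along the chain (triangle inequality at each fixed `x`).
* `slope`: `om m x - om m x₀ = 2 λ_m (x - x₀)`, `|λ_m| ≤ Ds / |U|²`, `|U| = 2^(2K) |J|`, `|x - x₀| ≤ |J|`; `4 Ds 2^(-4K) ≤ Xi/2` is very generous.
* `tower_valid`: positions = retained pre-cells; `anc J J' := J' ≤ J`, `time = s8Rel root`.  `stab` holds by the DEFINITION of `exc`, `hbad`, `htGood`
  (an edge is a one-step chain).
-/
import Claimed.Agent.R258.Pack013

set_option autoImplicit false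
open MeasureTheory

namespace Claimed.Agent.R258

open scoped BigOperators
open Classical

noncomputable section

/-! ### blocks and pre-cells -/

section blocks

theorem s8g_depth_eq {R I : Cell} (h : I ≤ R) : I.depth = R.depth + (s8Rel R I : ℤ) := by
  have := cell_depth_le_of_le h
  unfold s8Rel
  omega

theorem s8g_rel_anc {R I : Cell} {n : ℕ} (h : I.anc n ≤ R) : s8Rel R I = s8Rel R (I.anc n) + n := by
  have := cell_depth_le_of_le h
  unfold s8Rel
  simp only [cell_depth_anc] at this ⊢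
  omega

theorem s8g_pre_anc (K : ℕ) (R I : Cell) : (s8Pre K R I).anc (2 * K) = s8Frz K R I := by
  unfold s8Pre s8Frz
  rw [cell_anc_anc]
  congr 1
  omega

theorem s8g_le_pre (K : ℕ) (R I : Cell) : I ≤ s8Pre K R I := cell_le_anc _ _

theorem s8g_le_frz (K : ℕ) (R I : Cell) : I ≤ s8Frz K R I := cell_le_anc _ _

theorem s8g_anc_le {R I : Cell} (h : I ≤ R) {n : ℕ} (hn : n ≤ s8Rel R I) : I.anc n ≤ R := by
  have h2 := (cell_le_iff_toNat.1 h).2
  refine ⟨s8Rel R I - n, ?_⟩
  rw [cell_anc_anc]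
  have : n + (s8Rel R I - n) = (I.depth - R.depth).toNat := by unfold s8Rel at hn ⊢; omega
  rw [this, h2]

theorem s8g_live_arith {K : ℕ} {R I : Cell} (h : s8Live K R I) :
    s8Rel R I = K * s8Blk K R I + s8Off K R I ∧ K * 4 ≤ K * s8Blk K R I :=
  ⟨(Nat.div_add_mod _ _).symm, Nat.mul_le_mul_left K h.2⟩

theorem s8g_frz_le {K : ℕ} {R I : Cell} (hK : 0 < K) (h : s8Live K R I) : s8Frz K R I ≤ R := by
  obtain ⟨h1, h2⟩ := s8g_live_arith h
  exact s8g_anc_le h.1 (by omega)

theorem s8g_pre_le {K : ℕ} {R I : Cell} (hK : 0 < K) (h : s8Live K R I) : s8Pre K R I ≤ R := by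
  obtain ⟨h1, h2⟩ := s8g_live_arith h
  exact s8g_anc_le h.1 (by omega)

/-- relative depth of the pre-cell: `K (j - 2)` -/
theorem s8g_rel_pre {K : ℕ} {R I : Cell} (hK : 0 < K) (h : s8Live K R I) :
    s8Rel R (s8Pre K R I) = K * (s8Blk K R I - 2) := by
  obtain ⟨h1, h2⟩ := s8g_live_arith h
  have h3 := s8g_rel_anc (s8g_pre_le hK h)
  have h4 : K * (s8Blk K R I - 2) = K * s8Blk K R I - K * 2 := Nat.mul_sub K _ _
  rw [h4]
  unfold s8Pre
  omega

/-- the cells of the block of the pre-cell `J = s8Pre K R I`: `|J| 2^{-3K} < |I| ≤ |J| 2^{-2K}` -/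
theorem s8g_len_block {K : ℕ} {R I : Cell} (hK : 0 < K) (h : s8Live K R I) :
    (s8Pre K R I).len < 2 ^ (3 * K) * I.len ∧ 2 ^ (2 * K) * I.len ≤ (s8Pre K R I).len := by
  have hoff : s8Off K R I < K := Nat.mod_lt _ hK
  have hlen := cell_len_pos I
  unfold s8Pre
  rw [cell_len_anc]
  constructor
  · refine mul_lt_mul_of_pos_right ?_ hlen
    exact pow_lt_pow_right₀ (by norm_num) (by omega)
  · refine mul_le_mul_of_nonneg_right ?_ hlen.le
    exact pow_le_pow_right₀ (by norm_num) (by omega)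

/-- comparable cells have comparable pre-cells -/
theorem s8g_pre_mono {K : ℕ} {R I I' : Cell} (hK : 0 < K) (h : s8Live K R I) (h' : s8Live K R I') (hle : I' ≤ I) :
    s8Pre K R I' ≤ s8Pre K R I := by
  refine cell_chain_of_depth (s8g_le_pre K R I') (hle.trans (s8g_le_pre K R I)) ?_
  rw [s8g_depth_eq (s8g_pre_le hK h), s8g_depth_eq (s8g_pre_le hK h'), s8g_rel_pre hK h, s8g_rel_pre hK h']
  have hd := cell_depth_le_of_le hle
  have hr : s8Rel R I ≤ s8Rel R I' := by
    have e1 := s8g_depth_eq h.1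
    have e2 := s8g_depth_eq h'.1
    omega
  have hb : s8Blk K R I ≤ s8Blk K R I' := Nat.div_le_div_right hr
  have : K * (s8Blk K R I - 2) ≤ K * (s8Blk K R I' - 2) := Nat.mul_le_mul_left K (by omega)
  have : ((K * (s8Blk K R I - 2) : ℕ) : ℤ) ≤ ((K * (s8Blk K R I' - 2) : ℕ) : ℤ) := by exact_mod_cast this
  omega

end blocks

namespace ModeSys

variable {d : ℕ} {M : ModeSys d} {p : S8Par} {G0 : ℝ}

section blocks

theorem mem_pres {G : ℕ} {J : Cell} :
    J ∈ M.pres p G ↔ ∃ I, (G, I) ∈ M.uses ∧ s8Live p.K M.root I ∧ s8Pre p.K M.root I = J := by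
  unfold pres
  rw [Finset.mem_image]
  constructor
  · rintro ⟨⟨G', I⟩, hu, rfl⟩
    rw [Finset.mem_filter] at hu
    obtain ⟨hu, hG, hl⟩ := hu
    simp only at hG hl
    subst hG
    exact ⟨I, hu, hl, rfl⟩
  · rintro ⟨I, hu, hl, rfl⟩
    exact ⟨(G, I), Finset.mem_filter.2 ⟨hu, rfl, hl⟩, rfl⟩

theorem pres_le (hK : 0 < p.K) {G : ℕ} {J : Cell} (hJ : J ∈ M.pres p G) : J ≤ M.root := by
  obtain ⟨I, -, hl, rfl⟩ := mem_pres.1 hJ
  exact s8g_pre_le hK hl

theorem cert_frz (hK : 0 < p.K) {G : ℕ} {I : Cell} (hu : (G, I) ∈ M.uses) (hl : s8Live p.K M.root I) :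
    M.cert G (s8Frz p.K M.root I) :=
  ⟨s8g_frz_le hK hl, (G, I), hu, rfl, s8g_le_frz _ _ _⟩

/-- the frozen cell of a retained pre-cell is certified -/
theorem pres_cert (hK : 0 < p.K) {G : ℕ} {J : Cell} (hJ : J ∈ M.pres p G) : M.cert G (J.anc (2 * p.K)) := by
  obtain ⟨I, hu, hl, rfl⟩ := mem_pres.1 hJ
  rw [s8g_pre_anc]
  exact cert_frz hK hu hl

theorem pres_dvd (hK : 0 < p.K) {G : ℕ} {J : Cell} (hJ : J ∈ M.pres p G) : p.K ∣ s8Rel M.root J := by
  obtain ⟨I, -, hl, rfl⟩ := mem_pres.1 hJ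
  rw [s8g_rel_pre hK hl]
  exact Dvd.intro _ rfl

theorem lstJ_pre (l : Fin 4) (G : ℕ) (I : Cell) :
    M.lstJ p l G (s8Pre p.K M.root I) = M.lst l G (s8Frz p.K M.root I) := by
  unfold lstJ
  rw [s8g_pre_anc]

theorem lstJ_mono (hV : M.Valid p G0) (hK : 0 < p.K) (l : Fin 4) {G : ℕ} {J J' : Cell} (hJ : J ∈ M.pres p G) (h : J' ≤ J) :
    M.lstJ p l G J ⊆ M.lstJ p l G J' :=
  hV.lst_mono l G _ _ (pres_cert hK hJ).1 (cell_anc_mono h _)

theorem lstJ_card (hV : M.Valid p G0) (hK : 0 < p.K) (l : Fin 4) {G : ℕ} {J : Cell} (hJ : J ∈ M.pres p G) :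
    (M.lstJ p l G J).card ≤ p.Ds := by
  obtain ⟨hle, u, hu, hG, huU⟩ := pres_cert hK hJ
  have hGg : G ∈ M.grps := hG ▸ (hV.uses_le u hu).1
  refine le_trans ?_ (hV.lst_count l (J.anc (2 * p.K)) ⟨hle, u, hu, huU⟩)
  exact Finset.single_le_sum (f := fun G => (M.lst l G (J.anc (2 * p.K))).card) (fun _ _ => Nat.zero_le _) hGg

end blocks

/-! ### the edge relation -/

section edges

variable {l : Fin 4} {G : ℕ} {thr thr' : ℝ} {J J' : Cell} {h : ℕ} {m m' : ℕ}

theorem adj_self (hthr : 0 ≤ thr) : M.adj p l G thr J h m m := by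
  refine ⟨0, fun i => by simp, fun x _ => ?_⟩
  simp [S8Gauge.dotv, hthr]

theorem adj_symm (ha : M.adj p l G thr J h m m') : M.adj p l G thr J h m' m := by
  obtain ⟨n, hn, hx⟩ := ha
  refine ⟨-n, fun i => by simpa using hn i, fun x hxJ => ?_⟩
  have e : (M.gauge l G).dotv (-n) = -(M.gauge l G).dotv n := by
    simp [S8Gauge.dotv, Finset.sum_neg_distrib]
  rw [e, ← abs_neg]
  refine le_trans (le_of_eq ?_) (hx x hxJ)
  congr 1
  ring

theorem adj_mono (hJ : J' ≤ J) (hthr : thr ≤ thr') (ha : M.adj p l G thr J h m m') : M.adj p l G thr' J' h m m' := by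
  obtain ⟨n, hn, hx⟩ := ha
  exact ⟨n, hn, fun x hxJ => (hx x (cell_set_subset hJ hxJ)).trans hthr⟩

theorem adj_succ (hA : 6 ≤ p.A0) (ha : M.adj p l G thr J h m m') : M.adj p l G thr J (h + 1) m m' := by
  obtain ⟨n, hn, hx⟩ := ha
  refine ⟨fun i => 6 * n i, fun i => ?_, fun x hxJ => ?_⟩
  · have h1 := hn i
    rw [abs_mul]
    have h6 : |(6 : ℤ)| = 6 := by norm_num
    rw [h6]
    have hA' : (6 : ℤ) ≤ p.A0 := by exact_mod_cast hA
    unfold S8Par.E at h1 ⊢
    push_cast at h1 ⊢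
    calc (6 : ℤ) * |n i| ≤ p.A0 * (p.A0 : ℤ) ^ (h + 1) :=
          mul_le_mul hA' h1 (abs_nonneg _) (by positivity)
      _ = (p.A0 : ℤ) ^ (h + 1 + 1) := by ring
  · have e : (M.gauge l G).dotv (fun i => 6 * n i) / 6 ^ (h + 1) = (M.gauge l G).dotv n / 6 ^ h := by
      have : (M.gauge l G).dotv (fun i => 6 * n i) = 6 * (M.gauge l G).dotv n := by
        unfold S8Gauge.dotv
        rw [Finset.mul_sum]
        refine Finset.sum_congr rfl fun i _ => ?_
        push_cast
        ring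
      rw [this, pow_succ]
      field_simp
    rw [e]
    exact hx x hxJ

theorem adj_mono_h (hA : 6 ≤ p.A0) {h' : ℕ} (hh : h ≤ h') (ha : M.adj p l G thr J h m m') : M.adj p l G thr J h' m m' := by
  induction h', hh using Nat.le_induction with
  | base => exact ha
  | succ k _ ih => exact adj_succ hA ih

end edges

/-! ### components -/

section comp

variable {l : Fin 4} {G : ℕ} {thr thr' : ℝ} {J J' : Cell} {h h' : ℕ} {m m' : ℕ}

theorem conn_equiv : Equivalence (M.conn p l G thr J h) where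
  refl := fun _ => Relation.ReflTransGen.refl
  symm := by
    intro a b hab
    induction hab with
    | refl => exact Relation.ReflTransGen.refl
    | tail _ hbc ih => exact Relation.ReflTransGen.head ⟨hbc.2.1, hbc.1, adj_symm hbc.2.2⟩ ih
  trans := fun hab hbc => Relation.ReflTransGen.trans hab hbc

theorem conn_of_adj (hm : m ∈ M.lstJ p l G J) (hm' : m' ∈ M.lstJ p l G J) (ha : M.adj p l G thr J h m m') :
    M.conn p l G thr J h m m' :=
  Relation.ReflTransGen.single ⟨hm, hm', ha⟩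

theorem conn_mem (hc : M.conn p l G thr J h m m') (hm : m ∈ M.lstJ p l G J) : m' ∈ M.lstJ p l G J := by
  induction hc with
  | refl => exact hm
  | tail _ hbc _ => exact hbc.2.1

theorem conn_mono (hA : 6 ≤ p.A0) (hl : M.lstJ p l G J ⊆ M.lstJ p l G J') (hJ : J' ≤ J) (hthr : thr ≤ thr') (hh : h ≤ h')
    (hc : M.conn p l G thr J h m m') : M.conn p l G thr' J' h' m m' := by
  induction hc with
  | refl => exact Relation.ReflTransGen.refl
  | tail _ hbc ih =>
    exact Relation.ReflTransGen.tail ih ⟨hl hbc.1, hl hbc.2.1, adj_mono_h hA hh (adj_mono hJ hthr hbc.2.2)⟩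

/-- a mode of the list that is adjacent to a member of a component belongs to it -/
theorem conn_adj_trans {a : ℕ} (hc : M.conn p l G thr J h m m') (hm' : m' ∈ M.lstJ p l G J) (ha : a ∈ M.lstJ p l G J)
    (hadj : M.adj p l G thr J h m' a) : M.conn p l G thr J h m a :=
  Relation.ReflTransGen.tail hc ⟨hm', ha, hadj⟩

end comp

end ModeSys

/-! ### path sums -/

section path

/-- leaving the starting point for the last time. -/
theorem s8g_last_exit {α : Type*} [DecidableEq α] (r : α → α → Prop) (S : Finset α) (a b : α)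
    (h : Relation.ReflTransGen (fun x y => x ∈ S ∧ y ∈ S ∧ r x y) a b) :
    b = a ∨ ∃ c, (a ∈ S ∧ c ∈ S ∧ r a c) ∧
      Relation.ReflTransGen (fun x y => x ∈ S.erase a ∧ y ∈ S.erase a ∧ r x y) c b := by
  induction h with
  | refl => exact Or.inl rfl
  | @tail b b' _ hbb' ih =>
    by_cases hb'a : b' = a
    · exact Or.inl hb'a
    · right
      by_cases hba : b = a
      · subst hba
        exact ⟨b', hbb', Relation.ReflTransGen.refl⟩
      · rcases ih with ih | ⟨c, hac, hcb⟩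
        · exact absurd ih hba
        · exact ⟨c, hac, hcb.tail ⟨Finset.mem_erase.2 ⟨hba, hbb'.1⟩, Finset.mem_erase.2 ⟨hb'a, hbb'.2.1⟩, hbb'.2.2⟩⟩

/-- a chain inside a finite set can be shortened to at most `card` steps. -/
theorem s8g_short_chain {α : Type*} [DecidableEq α] (r : α → α → Prop) (Q : ℕ → α → α → Prop) (Q0 : ∀ a, Q 0 a a)
    (Qs : ∀ k a c b, r a c → Q k c b → Q (k + 1) a b) :
    ∀ (n : ℕ) (S : Finset α), S.card = n → ∀ a b, Relation.ReflTransGen (fun x y => x ∈ S ∧ y ∈ S ∧ r x y) a b →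
      ∃ k ≤ n, Q k a b := by
  intro n
  induction n with
  | zero =>
    intro S hS a b h
    rcases s8g_last_exit r S a b h with rfl | ⟨c, hac, -⟩
    · exact ⟨0, le_rfl, Q0 _⟩
    · rw [Finset.card_eq_zero] at hS
      rw [hS] at hac
      simp at hac
  | succ n ih =>
    intro S hS a b h
    rcases s8g_last_exit r S a b h with rfl | ⟨c, hac, hcb⟩
    · exact ⟨0, Nat.zero_le _, Q0 _⟩
    · have hcard : (S.erase a).card = n := by rw [Finset.card_erase_of_mem hac.1, hS]; rfl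
      obtain ⟨k, hk, hQ⟩ := ih (S.erase a) hcard c b hcb
      exact ⟨k + 1, by omega, Qs k a c b hac.2.2 hQ⟩

end path

namespace ModeSys

variable {d : ℕ} {M : ModeSys d} {p : S8Par} {G0 : ℝ}

section path

/-- summing the edge witnesses along a simple path (`≤ card - 1 ≤ N` edges). -/
theorem conn_path {l : Fin 4} {G : ℕ} {thr : ℝ} {J : Cell} {h : ℕ} {m m' : ℕ} (N : ℕ)
    (hcard : (M.lstJ p l G J).card ≤ N) (hthr : 0 ≤ thr) (hc : M.conn p l G thr J h m m') :
    ∃ n : Fin d → ℤ, (∀ i, |n i| ≤ (N * p.E h : ℤ)) ∧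
      ∀ x ∈ J.set, |M.om m x - M.om m' x + (M.gauge l G).dotv n / 6 ^ h| ≤ N * thr := by
  obtain ⟨k, hk, n, hn, hx⟩ := s8g_short_chain (M.adj p l G thr J h)
    (fun k a b => ∃ n : Fin d → ℤ, (∀ i, |n i| ≤ (k * p.E h : ℤ)) ∧
      ∀ x ∈ J.set, |M.om a x - M.om b x + (M.gauge l G).dotv n / 6 ^ h| ≤ k * thr)
    (fun a => ⟨0, fun i => by simp, fun x _ => by simp [S8Gauge.dotv]⟩)
    (by
      rintro k a c b ⟨n₁, hn₁, hx₁⟩ ⟨n₂, hn₂, hx₂⟩
      refine ⟨n₁ + n₂, fun i => ?_, fun x hxJ => ?_⟩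
      · have := abs_add_le (n₁ i) (n₂ i)
        have a1 := hn₁ i
        have a2 := hn₂ i
        simp only [Pi.add_apply]
        push_cast
        linarith
      · have e : (M.gauge l G).dotv (n₁ + n₂) = (M.gauge l G).dotv n₁ + (M.gauge l G).dotv n₂ := by
          unfold S8Gauge.dotv
          rw [← Finset.sum_add_distrib]
          refine Finset.sum_congr rfl fun i _ => ?_
          simp only [Pi.add_apply]
          push_cast
          ring
        have e2 : M.om a x - M.om b x + (M.gauge l G).dotv (n₁ + n₂) / 6 ^ h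
            = (M.om a x - M.om c x + (M.gauge l G).dotv n₁ / 6 ^ h) +
              (M.om c x - M.om b x + (M.gauge l G).dotv n₂ / 6 ^ h) := by
          rw [e]; ring
        rw [e2]
        refine (abs_add_le _ _).trans ?_
        have a1 := hx₁ x hxJ
        have a2 := hx₂ x hxJ
        push_cast
        linarith)
    _ (M.lstJ p l G J) rfl m m' hc
  have hkN : k ≤ N := hk.trans hcard
  refine ⟨n, fun i => (hn i).trans ?_, fun x hxJ => (hx x hxJ).trans ?_⟩
  · have : (k : ℤ) ≤ N := by exact_mod_cast hkN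
    exact mul_le_mul_of_nonneg_right this (by positivity)
  · have : (k : ℝ) ≤ N := by exact_mod_cast hkN
    exact mul_le_mul_of_nonneg_right this hthr

end path

/-! ### the slope oscillation -/

section slope

/-- `r_{v_b} osc_J ω_m ≤ C D_* 2^{-4K}`, in the form used below (points of the CLOSED cell are allowed). -/
theorem slope (hV : M.Valid p G0) (hp : p.Ok d) {l : Fin 4} {G : ℕ} {J : Cell} (hJ : M.cert G (J.anc (2 * p.K)))
    {m m' : ℕ} (hm : m ∈ M.lstJ p l G J) (hm' : m' ∈ M.lstJ p l G J) {x x₀ : ℝ}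
    (hx : x ∈ Set.Icc J.left J.right) (hx₀ : x₀ ∈ Set.Icc J.left J.right) :
    |(M.om m x - M.om m' x) - (M.om m x₀ - M.om m' x₀)| ≤ p.thrPre J / 2 := by
  have hLpos : 0 < J.len := cell_len_pos J
  have hU : (J.anc (2 * p.K)).len = 2 ^ (2 * p.K) * J.len := cell_len_anc _ _
  have c1 := hV.curv l G _ hJ m hm
  have c2 := hV.curv l G _ hJ m' hm'
  rw [hU] at c1 c2
  have h2K : (1 : ℝ) ≤ 2 ^ (2 * p.K) := one_le_pow₀ (by norm_num)
  have hsq : J.len ^ 2 ≤ (2 ^ (2 * p.K) * J.len) ^ 2 := by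
    refine pow_le_pow_left₀ hLpos.le ?_ 2
    nlinarith
  have d1 : |M.lam m| * J.len ^ 2 ≤ p.Ds := le_trans (mul_le_mul_of_nonneg_left hsq (abs_nonneg _)) c1
  have d2 : |M.lam m'| * J.len ^ 2 ≤ p.Ds := le_trans (mul_le_mul_of_nonneg_left hsq (abs_nonneg _)) c2
  have hxx : |x - x₀| ≤ J.len := by
    have := cell_right_eq J
    rw [abs_le]
    constructor <;> linarith [hx.1, hx.2, hx₀.1, hx₀.2]
  have e : (M.om m x - M.om m' x) - (M.om m x₀ - M.om m' x₀) = 2 * (M.lam m - M.lam m') * (x - x₀) := by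
    unfold om; ring
  have hDs : (100 : ℝ) ≤ p.Ds := by exact_mod_cast hp.Ds_ge
  have hbig : 8 * (p.Ds : ℝ) ≤ (p.Ds : ℝ) ^ 1000 := by
    have h1 : (p.Ds : ℝ) ^ 2 ≤ (p.Ds : ℝ) ^ 1000 := pow_le_pow_right₀ (by linarith) (by norm_num)
    nlinarith
  rw [e, abs_mul, abs_mul]
  unfold S8Par.thrPre S8Par.Xi
  rw [le_div_iff₀ (by norm_num), le_div_iff₀ hLpos]
  have h2 : |(2 : ℝ)| = 2 := by norm_num
  rw [h2]
  have hl : |M.lam m - M.lam m'| ≤ |M.lam m| + |M.lam m'| := abs_sub _ _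
  calc 2 * |M.lam m - M.lam m'| * |x - x₀| * 2 * J.len
      ≤ 2 * (|M.lam m| + |M.lam m'|) * J.len * 2 * J.len := by
        have : |M.lam m - M.lam m'| * |x - x₀| ≤ (|M.lam m| + |M.lam m'|) * J.len :=
          mul_le_mul hl hxx (abs_nonneg _) (by positivity)
        nlinarith
    _ = 4 * (|M.lam m| * J.len ^ 2 + |M.lam m'| * J.len ^ 2) := by ring
    _ ≤ 8 * (p.Ds : ℝ) := by linarith
    _ ≤ (p.Ds : ℝ) ^ 1000 := hbig

/-- non-adjacency gives a lower bound for the phase derivative at EVERY point of the closed cell. -/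
theorem nonadj_lower (hV : M.Valid p G0) (hp : p.Ok d) {l : Fin 4} {G : ℕ} {J : Cell} (hJ : M.cert G (J.anc (2 * p.K)))
    {thr : ℝ} (hthr : p.thrPre J ≤ thr) {h : ℕ} {m m' : ℕ} (hm : m ∈ M.lstJ p l G J) (hm' : m' ∈ M.lstJ p l G J)
    (hn : ¬ M.adj p l G thr J h m m') (n : Fin d → ℤ) (hnb : ∀ i, |n i| ≤ (p.E h : ℤ)) {x : ℝ}
    (hx : x ∈ Set.Icc J.left J.right) :
    thr / 2 < |M.om m x - M.om m' x + (M.gauge l G).dotv n / 6 ^ h| := by
  have h1 : ∃ x₁ ∈ J.set, thr < |M.om m x₁ - M.om m' x₁ + (M.gauge l G).dotv n / 6 ^ h| := by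
    by_contra hcon
    refine hn ⟨n, hnb, fun y hy => ?_⟩
    by_contra hy2
    exact hcon ⟨y, hy, not_le.1 hy2⟩
  obtain ⟨x₁, hx₁, hlt⟩ := h1
  have hx₁' : x₁ ∈ Set.Icc J.left J.right := ⟨hx₁.1, hx₁.2.le⟩
  have hs := slope hV hp hJ hm hm' hx₁' hx
  have htri : |M.om m x₁ - M.om m' x₁ + (M.gauge l G).dotv n / 6 ^ h|
      ≤ |M.om m x - M.om m' x + (M.gauge l G).dotv n / 6 ^ h|
        + |(M.om m x₁ - M.om m' x₁) - (M.om m x - M.om m' x)| := by
    have e : M.om m x₁ - M.om m' x₁ + (M.gauge l G).dotv n / 6 ^ h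
        = (M.om m x - M.om m' x + (M.gauge l G).dotv n / 6 ^ h)
          + ((M.om m x₁ - M.om m' x₁) - (M.om m x - M.om m' x)) := by ring
    rw [e]
    exact abs_add_le _ _
  linarith

end slope

/-! ### the tower -/

section tower

/-- the tower restricted to the retained pre-cells -/
def towerR (M : ModeSys d) (p : S8Par) (l : Fin 4) (G : ℕ) : S8cTower {J : Cell // J ∈ M.pres p G} ℕ ℕ :=
  (M.tower p l G).comap Subtype.val

theorem s8g_Xi_nonneg (p : S8Par) : 0 ≤ p.Xi := by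
  unfold S8Par.Xi; positivity

theorem s8g_thrPre_le_cur (p : S8Par) (J : Cell) : p.thrPre J ≤ p.thrCur J := by
  unfold S8Par.thrPre S8Par.thrCur
  refine div_le_div_of_nonneg_right ?_ (cell_len_pos J).le
  have h1 : (1 : ℝ) ≤ 2 ^ (3 * p.K) := one_le_pow₀ (by norm_num)
  nlinarith [s8g_Xi_nonneg p]

theorem s8g_thrPre_mono (p : S8Par) {J J' : Cell} (h : J' ≤ J) : p.thrPre J ≤ p.thrPre J' := by
  unfold S8Par.thrPre
  exact div_le_div_of_nonneg_left (s8g_Xi_nonneg p) (cell_len_pos J') (cell_len_le_of_le h)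

theorem s8g_thrCur_mono (p : S8Par) {J J' : Cell} (h : J' ≤ J) : p.thrCur J ≤ p.thrCur J' := by
  unfold S8Par.thrCur
  exact div_le_div_of_nonneg_left (mul_nonneg (s8g_Xi_nonneg p) (by positivity)) (cell_len_pos J') (cell_len_le_of_le h)

/-- **the structural properties of the two graphs** (Sec. 8.4). -/
theorem tower_valid (hV : M.Valid p G0) (hp : p.Ok d) (l : Fin 4) (G : ℕ) : (M.towerR p l G).Valid 10 p.Js := by
  have hK := hp.K_pos
  have hA : 6 ≤ p.A0 := hp.stab.A0_ge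
  refine
    { anc_refl := fun q => le_refl q.1
      anc_trans := fun q q' q'' h1 h2 => le_trans (α := Cell) h2 h1
      anc_time := ?_
      anc_eq := ?_
      anc_tree := ?_
      pre_eqv := fun q h => conn_equiv
      cur_eqv := fun q h => conn_equiv
      pre_cur := fun q h m m' hc => conn_mono hA (Finset.Subset.refl _) le_rfl (s8g_thrPre_le_cur p q.1) le_rfl hc
      pre_mono := fun q h h' m m' hh hc => conn_mono hA (Finset.Subset.refl _) le_rfl le_rfl hh hc
      cur_mono := fun q h h' m m' hh hc => conn_mono hA (Finset.Subset.refl _) le_rfl le_rfl hh hc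
      lst_mono := fun q q' h => lstJ_mono hV hK l q.2 h
      pre_pers := fun q q' h m m' ha _ _ hc =>
        conn_mono hA (lstJ_mono hV hK l q.2 ha) ha (s8g_thrPre_mono p ha) le_rfl hc
      cur_pers := fun q q' h m m' ha _ _ hc =>
        conn_mono hA (lstJ_mono hV hK l q.2 ha) ha (s8g_thrCur_mono p ha) le_rfl hc
      stab := ?_ }
  · intro q q' (h : q'.1 ≤ q.1)
    have e1 := s8g_depth_eq (pres_le hK q.2)
    have e2 := s8g_depth_eq (pres_le hK q'.2)
    have := cell_depth_le_of_le h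
    show s8Rel M.root q.1 ≤ s8Rel M.root q'.1
    omega
  · intro q q' (h : q'.1 ≤ q.1) (ht : s8Rel M.root q.1 = s8Rel M.root q'.1)
    have e1 := s8g_depth_eq (pres_le hK q.2)
    have e2 := s8g_depth_eq (pres_le hK q'.2)
    exact Subtype.ext (cell_eq_of_le_of_depth h (by omega)).symm
  · intro q₁ q₂ q (h1 : q.1 ≤ q₁.1) (h2 : q.1 ≤ q₂.1) (ht : s8Rel M.root q₁.1 ≤ s8Rel M.root q₂.1)
    have e1 := s8g_depth_eq (pres_le hK q₁.2)
    have e2 := s8g_depth_eq (pres_le hK q₂.2)
    exact cell_chain_of_depth h2 h1 (by omega)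
  · intro q h m m' h10 _ (hm : m ∈ M.lstJ p l G q.1) (hm' : m' ∈ M.lstJ p l G q.1) (hpr : M.pr m = M.pr m')
      (hexc : M.pr m ∉ ((M.lstJ p l G q.1).image M.pr).filter fun π => ¬ M.nonexc p l G q.1 π)
      (hbad : M.pr m ∉ ((M.lstJ p l G q.1).image M.pr).filter
        fun π => M.nonexc p l G q.1 π ∧ ¬ M.htGood p l G q.1 h π)
      (hc : M.conn p l G (p.thrCur q.1) q.1 h m m')
    have himg : M.pr m ∈ (M.lstJ p l G q.1).image M.pr := Finset.mem_image_of_mem _ hm
    have hne : M.nonexc p l G q.1 (M.pr m) := by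
      by_contra hcon
      exact hexc (Finset.mem_filter.2 ⟨himg, hcon⟩)
    have hgood : M.htGood p l G q.1 h (M.pr m) := by
      by_contra hcon
      exact hbad (Finset.mem_filter.2 ⟨himg, hne, hcon⟩)
    exact conn_of_adj hm hm' (hgood.2 m hm m' hm' rfl hpr.symm hc)

/-- far persistence: if `v_later ≥ t_earlier`, every earlier CURRENT link persists as a later PRE link. -/
theorem cur_far (hV : M.Valid p G0) (hp : p.Ok d) {l : Fin 4} {G : ℕ} {J J' : Cell} (hJ : J ∈ M.pres p G) (hle : J' ≤ J)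
    (hd : J.depth + 3 * p.K ≤ J'.depth) {h : ℕ} {a a' : ℕ} (hc : M.conn p l G (p.thrCur J) J h a a') :
    M.conn p l G (p.thrPre J') J' h a a' := by
  refine conn_mono hp.stab.A0_ge (lstJ_mono hV hp.K_pos l hJ hle) hle ?_ le_rfl hc
  have h1 : J'.anc (3 * p.K) ≤ J := by
    refine cell_chain_of_depth (cell_le_anc _ _) hle ?_
    rw [cell_depth_anc]
    push_cast
    omega
  have h2 := cell_len_le_of_le h1
  rw [cell_len_anc] at h2
  unfold S8Par.thrCur S8Par.thrPre
  rw [div_le_div_iff₀ (cell_len_pos J) (cell_len_pos J')]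
  have := mul_le_mul_of_nonneg_left h2 (s8g_Xi_nonneg p)
  linarith

end tower

end ModeSys

end

end Claimed.Agent.R258
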