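/-
Row 258 (S0498), Sec. 8, layer (B).  Architect helper61.  File Ht.lean: Lemma 8.2 (exceptional blocks) and Lemma 8.3 (height stabilization) for a `ModeSys`,
from the abstract rational linear algebra of block [S8c].   NO paper needed.

LEAVES:  P-S8-HT-A = `s8t_height`, `hbad_count`      P-S8-HT-B = `gap_zpow`, `exc_count`, `horizontal_gap`      ALL PROVED (helper254).
(auxiliary lemmas with prefix `s8t_`; black boxes: S8/Graph.lean, S8c/Exc.lean, S8c/Stab.lean.)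
PLAN of `hbad_count`.  Fix `J`, `π`; `Θ = M.Th l G π`, `lo = p.gapLo J`, `hi = p.gapHi J`.  If `π` is not in the image of the list or is exceptional, `π ∈ hbad J h` never holds: count `0`.
 Otherwise `hgap : s8cGap Θ Hh lo hi`.  Let `Kr = s8cKrat Θ Hh lo`, `emb : (Fin d → ℚ) →ₗ (Fin d ⊕ Fin d → ℚ)`, `emb w = Sum.elim 0 w` (so `s8cEv (emb w) Θ = ∑ w_i ϑ_i`).
 `s8c_height_stab Kr emb Ds (Cs d) A0 10 (Rht d)` (parameters: `hp.stab`; `card (Fin d ⊕ Fin d) = 2 d`, `card (Fin d) = d`) gives `Bad`, `card Bad ≤ (2d + d + 1) Rht = Aht d`.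
 Claim: `h ≤ Js`, `h ∉ Bad` ⇒ `M.htGood p l G J h π`; so `{h ≤ Js | π ∈ hbad J h} ⊆ Bad`.
 Let `m, m'` be modes of `π` in the list with `conn (thrCur J) J h m m'`.  `a` from `hV.gam_prim`, `λ_m = λ_m'` (`hV.lam_prim`), so `om m x - om m' x = γ_m - γ_m' = s8cEv a Θ` for all `x`.
 `conn_path` with `N = Ds` (`lstJ_card`): `n`, `|n| ≤ Ds E_h`, `|s8cEv a Θ + dotv n / 6^h| ≤ Ds thrCur J < hi` (`hp.TT_big`; evaluate at the point `J.left ∈ J.set`).
 The vector `a + emb (n/6^h)` has height `≤ Hh` (`s8t_height`), its evaluation is the number above; by the gap it is `≤ lo`: it lies in `Kr` (`Submodule.subset_span`).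
 So `s8cReach Kr emb h (Ds * A0^(h+1)) a`; stability gives `n'`, `|n'| ≤ A0^(h-10+1) = E (h-10)`, `a + emb (n'/6^(h-10)) ∈ Kr`, of height `≤ Hh`; `s8c_tiny_closed`
 (`hpar` from `hp.TT_cr`: `2d Cr lo < hi`) gives `|s8cEv a Θ + dotv n'/6^(h-10)| ≤ lo ≤ thrPre J`: this is the edge `adj (thrPre J) J (h-10) m m'` with witness `n'`.
PLAN of `exc_count`: `gap_zpow` rewrites `nonexc` at a pre-cell of relative depth `K j` as the gap of `s8c_exceptional_le` with `v0 = root.depth`; the map `i ↦ j_i` is injective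
 (strictly decreasing cells have strictly increasing depths); `Set.encard` of the image `≤ 5 * card (Fin d ⊕ Fin d) = 10 d`.
-/
import Claimed.Agent.R258.S8.Graph
import Claimed.Agent.R258.S8c.Exc
import Claimed.Agent.R258.S8c.Stab

set_option autoImplicit false
open MeasureTheory

namespace Claimed.Agent.R258

open scoped BigOperators
open Classical

noncomputable section

/-- height of `a + n / 6^h`. -/
theorem s8t_height (D E h B : ℕ) (a : ℚ) (n : ℤ) (ha : s8cHt a ≤ D) (hn : |n| ≤ (E : ℤ))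
    (hB : D * 6 ^ h + D * E ≤ B) : s8cHt (a + (n : ℚ) / (6 : ℚ) ^ h) ≤ B := by
  have ha' : max a.num.natAbs a.den ≤ D := ha
  have h1 : a.num.natAbs ≤ D := (le_max_left _ _).trans ha'
  have h2 : a.den ≤ D := (le_max_right _ _).trans ha'
  have hden : (a.den : ℚ) ≠ 0 := by exact_mod_cast a.den_ne_zero
  have e : a + (n : ℚ) / (6 : ℚ) ^ h = ((a.num * 6 ^ h + n * a.den : ℤ) : ℚ) / ((a.den * 6 ^ h : ℕ) : ℚ) := by
    conv_lhs => rw [← Rat.num_div_den a]
    push_cast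
    field_simp
  rw [e]
  refine s8c_ht_div _ _ B (by have := a.den_pos; positivity) ?_ ?_
  · have h3 : (a.num * 6 ^ h + n * a.den : ℤ).natAbs ≤ a.num.natAbs * 6 ^ h + n.natAbs * a.den := by
      refine (Int.natAbs_add_le _ _).trans ?_
      rw [Int.natAbs_mul, Int.natAbs_mul, Int.natAbs_pow]
      simp
    have h4 : n.natAbs ≤ E := by
      have : ((n.natAbs : ℕ) : ℤ) ≤ (E : ℤ) := by rw [← Int.abs_eq_natAbs]; exact hn
      exact_mod_cast this
    calc _ ≤ a.num.natAbs * 6 ^ h + n.natAbs * a.den := h3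
      _ ≤ D * 6 ^ h + E * D := Nat.add_le_add (Nat.mul_le_mul_right _ h1) (Nat.mul_le_mul h4 h2)
      _ = D * 6 ^ h + D * E := by ring
      _ ≤ B := hB
  · calc a.den * 6 ^ h ≤ D * 6 ^ h := Nat.mul_le_mul_right _ h2
      _ ≤ D * 6 ^ h + D * E := Nat.le_add_right _ _
      _ ≤ B := hB

/-- the embedding `w ↦ (0, w)` of the horizontal coordinates -/
def s8tEmb (d : ℕ) : (Fin d → ℚ) →ₗ[ℚ] (Fin d ⊕ Fin d → ℚ) where
  toFun := fun w => Sum.elim 0 w
  map_add' := by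
    intro x y
    funext i
    cases i <;> simp
  map_smul' := by
    intro c x
    funext i
    cases i <;> simp

theorem s8t_ev_add {ι : Type*} [Fintype ι] (a b : ι → ℚ) (Θ : ι → ℝ) : s8cEv (a + b) Θ = s8cEv a Θ + s8cEv b Θ := by
  unfold s8cEv
  rw [← Finset.sum_add_distrib]
  refine Finset.sum_congr rfl fun i _ => ?_
  simp only [Pi.add_apply]
  push_cast
  ring

namespace ModeSys

variable {d : ℕ} {M : ModeSys d} {p : S8Par} {G0 : ℝ}

theorem s8t_ev_emb (l : Fin 4) (G π : ℕ) (n : Fin d → ℤ) (h : ℕ) :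
    s8cEv (s8tEmb d fun i => (n i : ℚ) / (6 : ℚ) ^ h) (M.Th l G π) = (M.gauge l G).dotv n / 6 ^ h := by
  unfold s8cEv S8Gauge.dotv
  rw [Fintype.sum_sum_type, Finset.sum_div]
  simp only [s8tEmb, LinearMap.coe_mk, AddHom.coe_mk, Sum.elim_inl, Sum.elim_inr, Pi.zero_apply, Rat.cast_zero, zero_mul,
    Finset.sum_const_zero, zero_add, Th]
  refine Finset.sum_congr rfl fun i _ => ?_
  push_cast
  ring

/-- height of `a + (0, n / 6^h)` -/
theorem s8t_height_vec (D E h B : ℕ) (a : Fin d ⊕ Fin d → ℚ) (n : Fin d → ℤ) (ha : s8cHtLe D a) (hn : ∀ i, |n i| ≤ (E : ℤ))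
    (hB : D * 6 ^ h + D * E ≤ B) : s8cHtLe B (a + s8tEmb d fun i => (n i : ℚ) / (6 : ℚ) ^ h) := by
  intro i
  cases i with
  | inl i =>
    have := s8t_height D E h B (a (Sum.inl i)) 0 (ha _) (by simp) hB
    simpa [s8tEmb] using this
  | inr i =>
    have := s8t_height D E h B (a (Sum.inr i)) (n i) (ha _) (hn i) hB
    simpa [s8tEmb] using this

/-- the two thresholds of (23) as powers of two. -/
theorem gap_zpow (J : Cell) :
    p.gapLo J = (2 : ℝ) ^ (J.depth - p.tau : ℤ) ∧ p.gapHi J = (2 : ℝ) ^ (J.depth + 3 * p.K + p.tau : ℤ) := by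
  have h2 : (2 : ℝ) ≠ 0 := by norm_num
  constructor
  · unfold S8Par.gapLo S8Par.TT Cell.len
    rw [zpow_sub₀ h2, zpow_neg, zpow_natCast]
    field_simp
  · unfold S8Par.gapHi S8Par.TT Cell.len
    rw [zpow_add₀ h2, zpow_add₀ h2, zpow_neg, zpow_natCast]
    have : (2 : ℝ) ^ (3 * (p.K : ℤ)) = (2 : ℝ) ^ (3 * p.K) := by
      rw [← zpow_natCast]; congr 1
    rw [this]
    field_simp

/-- (23) for the pure horizontal shifts at a nonexceptional primary (used in Sec. 9): for integral `n` with `|n| ≤ Hh` and `6^h ≤ Hh`. -/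
theorem horizontal_gap {l : Fin 4} {G : ℕ} {J : Cell} {π : ℕ} (hne : M.nonexc p l G J π) (h : ℕ) (hh : 6 ^ h ≤ p.Hh)
    (n : Fin d → ℤ) (hn : ∀ i, |n i| ≤ (p.Hh : ℤ)) :
    |(M.gauge l G).dotv n / 6 ^ h| ≤ p.gapLo J ∨ p.gapHi J ≤ |(M.gauge l G).dotv n / 6 ^ h| := by
  have hH1 : 1 ≤ p.Hh := le_trans (Nat.one_le_pow _ _ (by norm_num)) hh
  have hht : s8cHtLe p.Hh (s8tEmb d fun i => (n i : ℚ) / (6 : ℚ) ^ h) := by
    intro i
    cases i with
    | inl i =>
      show s8cHt 0 ≤ p.Hh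
      simpa [s8cHt] using hH1
    | inr i =>
      show s8cHt ((n i : ℚ) / (6 : ℚ) ^ h) ≤ p.Hh
      have h1 : (n i).natAbs ≤ p.Hh := by
        have : (((n i).natAbs : ℕ) : ℤ) ≤ (p.Hh : ℤ) := by rw [← Int.abs_eq_natAbs]; exact hn i
        exact_mod_cast this
      have := s8c_ht_div (n i) (6 ^ h) p.Hh (by positivity) h1 hh
      simpa using this
  have := hne _ hht
  rwa [s8t_ev_emb] at this

theorem s8t_par_basic (hp : p.Ok d) : 1 ≤ p.Hh ∧ 6 ≤ p.A0 ∧ (1 : ℝ) ≤ p.Xi ∧ (1 : ℝ) ≤ p.TT := by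
  have hDs : 100 ≤ p.Ds := hp.Ds_ge
  have hDsR : (1 : ℝ) ≤ (p.Ds : ℝ) := by
    have : (100 : ℝ) ≤ (p.Ds : ℝ) := by exact_mod_cast hDs
    linarith
  refine ⟨?_, hp.stab.A0_ge, one_le_pow₀ hDsR, one_le_pow₀ (by norm_num)⟩
  have h1 : 1 ≤ p.Ds * 6 ^ p.Js := Nat.one_le_iff_ne_zero.2 (by positivity)
  exact h1.trans ((Nat.le_add_right _ _).trans hp.Hh_big)

/-- the core of Lemma 8.3 for a mode system: outside the exceptional set of heights of `s8c_height_stab` a nonexceptional primary is height-good -/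
theorem s8t_htGood (hV : M.Valid p G0) (hp : p.Ok d) (l : Fin 4) {G : ℕ} {J : Cell} (hJ : J ∈ M.pres p G) (π : ℕ)
    (hgap : M.nonexc p l G J π) {h : ℕ} (hh : h ≤ p.Js)
    (hst : 10 ≤ h ∧ ∀ a : Fin d ⊕ Fin d → ℚ, s8cHtLe p.Ds a →
      s8cReach (s8cKrat (M.Th l G π) p.Hh (p.gapLo J)) (s8tEmb d) h (p.Ds * p.A0 ^ (h + 1)) a →
      s8cReach (s8cKrat (M.Th l G π) p.Hh (p.gapLo J)) (s8tEmb d) (h - 10) (p.A0 ^ (h - 10 + 1)) a) :
    M.htGood p l G J h π := by
  obtain ⟨hH1, hA0, hXi, hTT⟩ := s8t_par_basic hp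
  refine ⟨hst.1, fun m hm m' hm' hπ hπ' hc => ?_⟩
  have hlen : 0 < J.len := cell_len_pos J
  have hDs0 : (0 : ℝ) ≤ (p.Ds : ℝ) := Nat.cast_nonneg _
  have hthr : 0 ≤ p.thrCur J := by
    unfold S8Par.thrCur
    have : 0 ≤ p.Xi := by linarith
    positivity
  obtain ⟨a, ha, hgam⟩ := hV.gam_prim l G (J.anc (2 * p.K)) m hm m' hm' (hπ.trans hπ'.symm)
  rw [hπ] at hgam
  have hlam := hV.lam_prim l G (J.anc (2 * p.K)) m hm m' hm' (hπ.trans hπ'.symm)
  have hom : ∀ x, M.om m x - M.om m' x = s8cEv a (M.Th l G π) := by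
    intro x
    unfold om
    rw [hlam, ← hgam]
    ring
  obtain ⟨n, hn, hnx⟩ := conn_path p.Ds (lstJ_card hV hp.K_pos l hJ) hthr hc
  have hn' : ∀ i, |n i| ≤ ((p.Ds * p.A0 ^ (h + 1) : ℕ) : ℤ) := by
    intro i
    have := hn i
    unfold S8Par.E at this
    push_cast at this ⊢
    exact this
  -- heights
  have hpow1 : 6 ^ h ≤ 6 ^ p.Js := Nat.pow_le_pow_right (by norm_num) hh
  have hpow2 : p.A0 ^ (h + 1) ≤ p.A0 ^ (p.Js + 1) := Nat.pow_le_pow_right (by omega) (by omega)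
  have hB1 : p.Ds * 6 ^ h + p.Ds * (p.Ds * p.A0 ^ (h + 1)) ≤ p.Hh := by
    refine le_trans ?_ hp.Hh_big
    refine Nat.add_le_add (Nat.mul_le_mul_left _ hpow1) ?_
    calc p.Ds * (p.Ds * p.A0 ^ (h + 1)) = p.Ds ^ 2 * p.A0 ^ (h + 1) := by ring
      _ ≤ p.Ds ^ 2 * p.A0 ^ (p.Js + 1) := Nat.mul_le_mul_left _ hpow2
  have hB2 : p.Ds * 6 ^ (h - 10) + p.Ds * p.A0 ^ (h - 10 + 1) ≤ p.Hh := by
    refine le_trans ?_ hp.Hh_big
    refine Nat.add_le_add (Nat.mul_le_mul_left _ (Nat.pow_le_pow_right (by norm_num) (by omega))) ?_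
    have h1 : p.A0 ^ (h - 10 + 1) ≤ p.A0 ^ (p.Js + 1) := Nat.pow_le_pow_right (by omega) (by omega)
    have h2 : p.Ds ≤ p.Ds ^ 2 := by
      have := hp.Ds_ge
      nlinarith
    exact Nat.mul_le_mul h2 h1
  have hht1 := s8t_height_vec p.Ds (p.Ds * p.A0 ^ (h + 1)) h p.Hh a n ha hn' hB1
  -- the evaluation is below the huge threshold, hence tiny
  have hev1 : s8cEv (a + s8tEmb d fun i => (n i : ℚ) / (6 : ℚ) ^ h) (M.Th l G π)
      = s8cEv a (M.Th l G π) + (M.gauge l G).dotv n / 6 ^ h := by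
    rw [s8t_ev_add, s8t_ev_emb]
  have hlt : |s8cEv (a + s8tEmb d fun i => (n i : ℚ) / (6 : ℚ) ^ h) (M.Th l G π)| < p.gapHi J := by
    have h1 := hnx J.left (cell_left_mem J)
    rw [hom] at h1
    rw [hev1]
    refine lt_of_le_of_lt h1 ?_
    unfold S8Par.thrCur S8Par.gapHi
    rw [← mul_div_assoc, ← mul_assoc]
    exact div_lt_div_of_pos_right (mul_lt_mul_of_pos_right hp.TT_big (by positivity)) hlen
  have htiny : |s8cEv (a + s8tEmb d fun i => (n i : ℚ) / (6 : ℚ) ^ h) (M.Th l G π)| ≤ p.gapLo J := by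
    rcases hgap _ hht1 with h1 | h1
    · exact h1
    · exact absurd hlt (not_lt.2 h1)
  have hreach : s8cReach (s8cKrat (M.Th l G π) p.Hh (p.gapLo J)) (s8tEmb d) h (p.Ds * p.A0 ^ (h + 1)) a :=
    ⟨n, hn', Submodule.subset_span ⟨hht1, htiny⟩⟩
  obtain ⟨n', hn'b, hn'K⟩ := hst.2 a ha hreach
  have hht2 := s8t_height_vec p.Ds (p.A0 ^ (h - 10 + 1)) (h - 10) p.Hh a n' ha hn'b hB2
  have hlo0 : 0 ≤ p.gapLo J := by
    unfold S8Par.gapLo
    have : 0 < p.TT := by linarith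
    positivity
  have hcard : Fintype.card (Fin d ⊕ Fin d) = 2 * d := by simp [two_mul]
  have hpar : (Fintype.card (Fin d ⊕ Fin d) : ℝ) * (s8cCr (Fintype.card (Fin d ⊕ Fin d)) p.Hh : ℝ) * p.gapLo J < p.gapHi J := by
    rw [hcard]
    have hTT0 : 0 < p.TT := by linarith
    have h1 : ((2 * d : ℕ) : ℝ) * (s8cCr (2 * d) p.Hh : ℝ) * p.gapLo J < p.TT * p.gapLo J := by
      refine mul_lt_mul_of_pos_right hp.TT_cr ?_
      unfold S8Par.gapLo
      positivity
    have h2 : p.TT * p.gapLo J = 1 / J.len := by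
      unfold S8Par.gapLo
      field_simp
    have h3 : 1 / J.len ≤ p.gapHi J := by
      unfold S8Par.gapHi
      refine div_le_div_of_nonneg_right ?_ hlen.le
      have : (1 : ℝ) ≤ 2 ^ (3 * p.K) := one_le_pow₀ (by norm_num)
      nlinarith
    linarith
  have hfin := s8c_tiny_closed (M.Th l G π) p.Hh hH1 (p.gapLo J) (p.gapHi J) hlo0 hgap hpar _ hht2 hn'K
  rw [s8t_ev_add, s8t_ev_emb] at hfin
  refine ⟨n', hn'b, fun x _ => ?_⟩
  rw [hom]
  refine hfin.trans ?_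
  unfold S8Par.gapLo S8Par.thrPre
  refine div_le_div_of_nonneg_right ?_ hlen.le
  have : p.TT⁻¹ ≤ 1 := inv_le_one_of_one_le₀ hTT
  linarith

/-- **Lemma 8.3**: a nonexceptional primary is height-bad at at most `C d R_*^{ht}` heights. -/
theorem hbad_count (hV : M.Valid p G0) (hp : p.Ok d) (l : Fin 4) {G : ℕ} {J : Cell} (hJ : J ∈ M.pres p G) (π : ℕ) :
    ((Finset.range (p.Js + 1)).filter fun h => π ∈ (M.tower p l G).hbad J h).card ≤ p.Aht d := by
  by_cases hgap : M.nonexc p l G J π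
  · have hcard1 : Fintype.card (Fin d ⊕ Fin d) = 2 * d := by simp [two_mul]
    have hcard2 : Fintype.card (Fin d) = d := by simp
    have hpar : S8cStabPar (Fintype.card (Fin d ⊕ Fin d)) (Fintype.card (Fin d)) p.Ds (p.Cs d) p.A0 10 (p.Rht d) := by
      rw [hcard1, hcard2]
      exact hp.stab
    obtain ⟨Bad, hBad, hst⟩ := s8c_height_stab (s8cKrat (M.Th l G π) p.Hh (p.gapLo J)) (s8tEmb d) p.Ds (p.Cs d) p.A0 10 (p.Rht d) hpar
    rw [hcard1, hcard2] at hBad
    have hsub : ((Finset.range (p.Js + 1)).filter fun h => π ∈ (M.tower p l G).hbad J h) ⊆ Bad := by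
      intro h hh
      obtain ⟨h1, h2⟩ := Finset.mem_filter.1 hh
      by_contra hnb
      have hgood := s8t_htGood hV hp l hJ π hgap (Nat.lt_succ_iff.1 (Finset.mem_range.1 h1)) (hst h hnb)
      have h3 : π ∈ ((M.lstJ p l G J).image M.pr).filter fun π => M.nonexc p l G J π ∧ ¬ M.htGood p l G J h π := h2
      exact (Finset.mem_filter.1 h3).2.2 hgood
    calc _ ≤ Bad.card := Finset.card_le_card hsub
      _ ≤ (2 * d + d + 1) * p.Rht d := hBad
      _ = p.Aht d := by unfold S8Par.Aht; ring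
  · have : ((Finset.range (p.Js + 1)).filter fun h => π ∈ (M.tower p l G).hbad J h) = ∅ := by
      refine Finset.filter_eq_empty_iff.2 fun h _ h2 => ?_
      have h3 : π ∈ ((M.lstJ p l G J).image M.pr).filter fun π => M.nonexc p l G J π ∧ ¬ M.htGood p l G J h π := h2
      exact hgap (Finset.mem_filter.1 h3).2.1
    rw [this]
    simp

/-- **Lemma 8.2**: a primary is exceptional in at most `10 d` blocks on a path. -/
theorem exc_count (hV : M.Valid p G0) (hp : p.Ok d) (l : Fin 4) {G : ℕ} (N : ℕ) (Jf : ℕ → Cell)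
    (hJ : ∀ i < N, Jf i ∈ M.pres p G) (hmono : ∀ i j, i < j → j < N → Jf j < Jf i) (π : ℕ) :
    ((Finset.range N).filter fun i => π ∈ (M.tower p l G).exc (Jf i)).card ≤ 10 * d := by
  obtain ⟨hH1, -, -, -⟩ := s8t_par_basic hp
  have hcard1 : Fintype.card (Fin d ⊕ Fin d) = 2 * d := by simp [two_mul]
  have hK : Nat.clog 2 (Fintype.card (Fin d ⊕ Fin d) * s8cCr (Fintype.card (Fin d ⊕ Fin d)) p.Hh + 1) + 2 * p.tau ≤ p.K := by
    rw [hcard1]
    exact hp.K_big
  have key := s8c_exceptional_le (M.Th l G π) p.Hh hH1 p.tau p.K hp.K_pos hK M.root.depth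
  rw [hcard1] at key
  set S : Set ℤ := {j : ℤ | ¬ s8cGap (M.Th l G π) p.Hh ((2 : ℝ) ^ (M.root.depth + p.K * j - p.tau : ℤ))
    ((2 : ℝ) ^ (M.root.depth + p.K * j + 3 * p.K + p.tau : ℤ))} with hS
  have key' : S.encard ≤ ((10 * d : ℕ) : ℕ∞) := by
    refine key.trans (le_of_eq ?_)
    push_cast
    ring
  have hfin : S.Finite := Set.finite_of_encard_le_coe key'
  have hcardS : hfin.toFinset.card ≤ 10 * d := by
    rw [hfin.encard_eq_coe_toFinset_card] at key'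
    exact_mod_cast key'
  set jf : ℕ → ℤ := fun i => ((s8Rel M.root (Jf i) / p.K : ℕ) : ℤ) with hjf
  have hdepth : ∀ i < N, (Jf i).depth = M.root.depth + p.K * jf i := by
    intro i hi
    have h1 := s8g_depth_eq (pres_le hp.K_pos (hJ i hi))
    obtain ⟨c, hc⟩ := pres_dvd hp.K_pos (hJ i hi)
    rw [h1, hjf]
    simp only
    rw [hc, Nat.mul_div_cancel_left _ hp.K_pos]
    push_cast
    ring
  refine le_trans (Finset.card_le_card_of_injOn jf ?_ ?_) hcardS
  · intro i hi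
    obtain ⟨h1, h2⟩ := Finset.mem_filter.1 (Finset.mem_coe.1 hi)
    have hiN := Finset.mem_range.1 h1
    have h3 : π ∈ ((M.lstJ p l G (Jf i)).image M.pr).filter fun π => ¬ M.nonexc p l G (Jf i) π := h2
    have h4 := (Finset.mem_filter.1 h3).2
    rw [Finset.mem_coe, hfin.mem_toFinset, hS, Set.mem_ofPred_eq]
    unfold nonexc at h4
    rw [(gap_zpow (p := p) (Jf i)).1, (gap_zpow (p := p) (Jf i)).2, hdepth i hiN] at h4
    exact h4
  · intro i hi j hj hij
    have hiN := Finset.mem_range.1 (Finset.mem_filter.1 (Finset.mem_coe.1 hi)).1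
    have hjN := Finset.mem_range.1 (Finset.mem_filter.1 (Finset.mem_coe.1 hj)).1
    have hd : (Jf i).depth = (Jf j).depth := by rw [hdepth i hiN, hdepth j hjN, hij]
    by_contra hne
    rcases lt_or_gt_of_ne hne with h | h
    · have := cell_depth_lt_of_lt (hmono i j h hjN)
      omega
    · have := cell_depth_lt_of_lt (hmono j i h hiN)
      omega

end ModeSys

end

end Claimed.Agent.R258
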