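/-
Row 258 (S0498), Sec. 8, layer (B).  Architect helper61.  File Atom.lean: KIT FOR `XV = L²(ℝ;HV)`, `restr`, `Col.vec`, `cproj` of `R258/Defs.lean`
(restriction = multiplication by the indicator, inner products of restricted columns, the private-coordinate lower bound, locality of `cproj`).
Measure-theoretic boilerplate; NO paper needed.  Useful for every section that works with concrete columns.

LEAVES: P-S8-ATOM-A = section `restr`;  P-S8-ATOM-B = sections `vec`, `cproj`  (auxiliary lemmas with prefix `s8a_`; do not change statements).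
HINTS.
* `restr E` is the `starProjection` onto the closure of the span of `W = {F | F = 0 a.e. off E}`.  `W` is already a closed subspace.  For measurable `E` and `x : XV` let
  `x_E = (MemLp.indicator hE (Lp.memLp x)).toLp _`; then `x_E ∈ W` and `x - x_E ⟂ W` (`MeasureTheory.L2.inner_def`, the integrand vanishes a.e.), so
  `restr E x = x_E` (`Submodule.eq_starProjection_of_mem_of_inner_eq_zero` or the analogous lemma for `orthogonalProjection`).  Everything else in section `restr`
  follows from `s8a_restr_ae` by `Lp.ext` and `L2.inner_def` / `L2` norm as an integral (`MeasureTheory.L2.integral_inner_eq_sq_eLpNorm`, `norm_sq_eq_re_inner`).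
* `Col.vec Φ I = toXV (I.set.indicator Φ.fn)`; for a nice column `I.set.indicator Φ.fn` is measurable (`Φ.fn y = ofPhys (φ y) + const`; `ofPhys = lp.single 2 0` is a
  continuous linear (isometric) map: `lp.singleContinuousLinearMap`/`lp.norm_single`), bounded by `2`, supported on a set of finite measure: `MemLp`, so `dif_pos`.
* pointwise: `⟪Φ.fn y, Φ'.fn y⟫ = conj (φ y) φ' y + [lab = lab'] √ε √ε'` (`lp.inner_single_left/right`, or `lp.inner_eq_tsum`).
* `s8a_lower`: pointwise `‖∑ β_m ψ_m.fn y‖² ≥ ∑_m |β_m|² ε_m` (the coordinates `m+1` are distinct: `‖z‖² ≥ ∑_{m ∈ A} |z (m+1)|²`, `lp.norm_sq_eq_tsum`-type lemma /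
  `lp.sum_rpow_le_norm_rpow`), integrate over `I`.
* `cproj A I = (colSpan A I).starProjection`, `colSpan A I = span (image (·.vec I))`; every element of the span is fixed by `restr I.set` and `restr` is self-adjoint.
-/
import Claimed.Agent.R258.S5.Base
import Claimed.Agent.R258.CellApi.Pack
import Claimed.Agent.R258.Pack017

set_option autoImplicit false
open MeasureTheory

namespace Claimed.Agent.R258

open scoped BigOperators ComplexConjugate
open Classical

noncomputable section

/-! ### restriction -/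

section restr

theorem s8a_restr_ae (E : Set ℝ) (hE : MeasurableSet E) (x : XV) :
    (restr E x : ℝ → HV) =ᵐ[volume] E.indicator (x : ℝ → HV) := by
  exact xv_restr_ae hE x

theorem s8a_restr_comp (E E' : Set ℝ) (hE : MeasurableSet E) (hE' : MeasurableSet E') (x : XV) :
    restr E (restr E' x) = restr (E ∩ E') x := by
  exact xv_restr_restr hE hE' x

theorem s8a_restr_idem (E : Set ℝ) (x : XV) : restr E (restr E x) = restr E x := by
  exact xv_restr_idem E x

theorem s8a_restr_inner (E : Set ℝ) (x y : XV) : inner ℂ (restr E x) y = inner ℂ x (restr E y) := by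
  exact xv_restr_inner E x y

theorem s8a_norm_restr_le (E : Set ℝ) (x : XV) : ‖restr E x‖ ≤ ‖x‖ := by
  exact xv_norm_restr_le E x

theorem s8a_norm_restr_mono {E E' : Set ℝ} (hE : MeasurableSet E) (hE' : MeasurableSet E') (h : E ⊆ E') (x : XV) :
    ‖restr E x‖ ≤ ‖restr E' x‖ := by
  exact xv_norm_restr_mono hE hE' h x

/-- cells: restriction to a smaller cell -/
theorem s8a_restr_cell {I J : Cell} (h : I ≤ J) (x : XV) : restr I.set (restr J.set x) = restr I.set x := by
  exact xv_restr_cell_le h x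

theorem s8a_restr_cell_disj {I J : Cell} (h : Disjoint I.set J.set) (x : XV) : restr I.set (restr J.set x) = 0 := by
  exact xv_restr_disjoint (cell_measurableSet I) (cell_measurableSet J) h x

/-- disjoint cells -/
theorem s8a_sum_restr_antichain {A : Finset Cell} (hA : IsAntichain (· ≤ ·) (A : Set Cell)) (x : XV) :
    ∑ I ∈ A, ‖restr I.set x‖ ^ 2 ≤ ‖x‖ ^ 2 := by
  have h1 : ∀ I ∈ A, ‖restr I.set x‖ ^ 2 = ∫ y in I.set, ‖(x : ℝ → HV) y‖ ^ 2 := fun I _ =>
    xv_normsq_restr (cell_measurableSet I) x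
  rw [Finset.sum_congr rfl h1, ← integral_biUnion_finset A (fun I _ => cell_measurableSet I) ?_
    (fun I _ => (xv_integrable_normsq x).integrableOn), xv_normsq_eq_integral]
  · exact setIntegral_le_integral (xv_integrable_normsq x) (Filter.Eventually.of_forall fun y => by positivity)
  · intro I hI J hJ hne
    exact cell_disjoint_iff.2 ⟨hA hI hJ hne, hA hJ hI hne.symm⟩

/-- vectors supported on disjoint cells are orthogonal -/
theorem s8a_inner_disj {I J : Cell} (h : Disjoint I.set J.set) (x y : XV) :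
    inner ℂ (restr I.set x) (restr J.set y) = 0 := by
  exact xv_inner_restr_disjoint (cell_measurableSet I) (cell_measurableSet J) h x y

theorem s8a_n2_of_supp (I : Cell) (z : XV) (hz : restr I.set z = z) : n2 I z = ‖z‖ / Real.sqrt I.len := by
  unfold n2; rw [hz]

theorem s8a_n2_sq (I : Cell) (z : XV) : n2 I z ^ 2 * I.len = ‖restr I.set z‖ ^ 2 := by
  exact (xv_normsq_restr_eq I z).symm

end restr

/-! ### restricted columns -/

section vec

/-- admissible atoms: measurable, bounded by one, private weight in `[0,1]` -/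
structure Col.Nice (Φ : Col) : Prop where
  meas : Measurable Φ.phi
  bdd : ∀ y, ‖Φ.phi y‖ ≤ 1
  eps_nonneg : 0 ≤ Φ.eps
  eps_le : Φ.eps ≤ 1

theorem s8a_reg {Φ : Col} (hΦ : Φ.Nice) (I : Cell) : Φ.Reg I := xv_reg_of_measurable ⟨hΦ.meas, hΦ.bdd⟩ I

theorem s8a_vec_ae (Φ : Col) (hΦ : Φ.Nice) (I : Cell) : (Φ.vec I : ℝ → HV) =ᵐ[volume] I.set.indicator Φ.fn := by
  exact xv_vec_ae (s8a_reg hΦ I)

theorem s8a_restr_vec (Φ : Col) (hΦ : Φ.Nice) {I J : Cell} (h : I ≤ J) : restr I.set (Φ.vec J) = Φ.vec I := by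
  exact xv_restr_vec (s8a_reg hΦ J) h

theorem s8a_restr_vec_disj (Φ : Col) (hΦ : Φ.Nice) {I J : Cell} (h : Disjoint I.set J.set) :
    restr I.set (Φ.vec J) = 0 := by
  rw [← xv_restr_vec_self Φ J]
  exact xv_restr_disjoint (cell_measurableSet I) (cell_measurableSet J) h _

/-- the inner product of two columns on one cell -/
theorem s8a_inner_vec (Φ Φ' : Col) (hΦ : Φ.Nice) (hΦ' : Φ'.Nice) (I : Cell) :
    inner ℂ (Φ.vec I) (Φ'.vec I) = (∫ y in I.set, conj (Φ.phi y) * Φ'.phi y)
      + (if Φ.lab = Φ'.lab then ((Real.sqrt Φ.eps * Real.sqrt Φ'.eps * I.len : ℝ) : ℂ) else 0) := by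
  rw [xv_inner_vec (s8a_reg hΦ I), mom, ← mul_assoc, ← Complex.ofReal_mul, mul_inv_cancel₀ (cell_len_ne_zero I),
    Complex.ofReal_one, one_mul]
  congr 1
  · apply setIntegral_congr_ae (cell_measurableSet I)
    filter_upwards [xv_physFn_vec (s8a_reg hΦ' I)] with y hy hyI
    rw [hy, Set.indicator_of_mem hyI, mul_comm]
  · have h1 : ∫ y in I.set, xvCoord (Φ.lab + 1) (Φ'.vec I) y
        = ∫ _ in I.set, (if Φ.lab = Φ'.lab then (Real.sqrt Φ'.eps : ℂ) else 0) := by
      apply setIntegral_congr_ae (cell_measurableSet I)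
      filter_upwards [xv_coord_congr (k := Φ.lab + 1) (xv_vec_ae (s8a_reg hΦ' I))] with y hy hyI
      rw [hy, Set.indicator_of_mem hyI]
      split_ifs with hl
      · rw [hl, xv_fn_lab]
      · exact xv_fn_ne Φ' y (Nat.succ_ne_zero _) (fun h => hl (by omega))
    rw [h1, setIntegral_const, Measure.real, cell_volume_real]
    split_ifs with hl
    · rw [Complex.real_smul]; push_cast; ring
    · simp

theorem s8a_inner_vec_of_le (Φ Φ' : Col) (hΦ : Φ.Nice) (hΦ' : Φ'.Nice) {I J : Cell} (h : I ≤ J) :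
    inner ℂ (Φ.vec I) (Φ'.vec J) = inner ℂ (Φ.vec I) (Φ'.vec I) := by
  conv_lhs => rw [← xv_restr_vec_self Φ I, xv_restr_inner, xv_restr_vec (s8a_reg hΦ' J) h]

theorem s8a_inner_vec_disj (Φ Φ' : Col) (hΦ : Φ.Nice) (hΦ' : Φ'.Nice) {I J : Cell} (h : Disjoint I.set J.set) :
    inner ℂ (Φ.vec I) (Φ'.vec J) = 0 := by
  rw [← xv_restr_vec_self Φ I, ← xv_restr_vec_self Φ' J]
  exact xv_inner_restr_disjoint (cell_measurableSet I) (cell_measurableSet J) h _ _

theorem s8a_norm_vec_sq_le (Φ : Col) (hΦ : Φ.Nice) (I : Cell) : ‖Φ.vec I‖ ^ 2 ≤ 2 * I.len := by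
  have h := xv_normsq_vec_le (Φ := Φ) (I := I) hΦ.eps_nonneg (B := 1) (fun y _ => hΦ.bdd y)
  have h1 := hΦ.eps_le
  have h2 := cell_len_pos I
  nlinarith

/-- **private coordinates**: the coefficient lower bound (columns with pairwise distinct labels) -/
theorem s8a_lower (A : Finset ℕ) (ψ : ℕ → Col) (hψ : ∀ m ∈ A, (ψ m).Nice)
    (hlab : ∀ m ∈ A, ∀ m' ∈ A, (ψ m).lab = (ψ m').lab → m = m') (ε : ℝ) (hε : ∀ m ∈ A, ε ≤ (ψ m).eps)
    (I : Cell) (β : ℕ → ℂ) :
    ε * I.len * ∑ m ∈ A, ‖β m‖ ^ 2 ≤ ‖∑ m ∈ A, β m • (ψ m).vec I‖ ^ 2 := by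
  have hinj : Set.InjOn ψ (A : Set ℕ) := fun m hm m' hm' h => hlab m hm m' hm' (by rw [h])
  -- transport the coefficients to the columns
  set c : Col → ℂ := fun Φ => if h : ∃ m ∈ A, ψ m = Φ then β h.choose else 0 with hc
  have hcψ : ∀ m ∈ A, c (ψ m) = β m := by
    intro m hm
    have h : ∃ m' ∈ A, ψ m' = ψ m := ⟨m, hm, rfl⟩
    simp only [hc, dif_pos h]
    rw [hinj h.choose_spec.1 hm h.choose_spec.2]
  have h1 := xv_lower (A := A.image ψ) (I := I)
    (fun Φ hΦ => by
      obtain ⟨m, hm, rfl⟩ := Finset.mem_image.1 hΦ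
      exact s8a_reg (hψ m hm) I)
    (fun Φ hΦ Φ' hΦ' h => by
      obtain ⟨m, hm, rfl⟩ := Finset.mem_image.1 hΦ
      obtain ⟨m', hm', rfl⟩ := Finset.mem_image.1 hΦ'
      rw [hlab m hm m' hm' h])
    (fun Φ hΦ => by
      obtain ⟨m, hm, rfl⟩ := Finset.mem_image.1 hΦ
      exact (hψ m hm).eps_nonneg) c
  rw [Finset.sum_image hinj, Finset.sum_image hinj] at h1
  have h2 : ∑ m ∈ A, c (ψ m) • (ψ m).vec I = ∑ m ∈ A, β m • (ψ m).vec I :=
    Finset.sum_congr rfl fun m hm => by rw [hcψ m hm]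
  rw [h2] at h1
  refine le_trans ?_ h1
  rw [mul_comm ε, mul_assoc]
  refine mul_le_mul_of_nonneg_left ?_ (cell_len_nonneg I)
  rw [Finset.mul_sum]
  refine Finset.sum_le_sum fun m hm => ?_
  rw [hcψ m hm]
  exact mul_le_mul_of_nonneg_right (hε m hm) (by positivity)

/-- physical component of a combination of columns -/
theorem s8a_phys_sum (A : Finset ℕ) (ψ : ℕ → Col) (hψ : ∀ m ∈ A, (ψ m).Nice) (I : Cell) (β : ℕ → ℂ) :
    physFn (∑ m ∈ A, β m • (ψ m).vec I) =ᵐ[volume] I.set.indicator fun y => ∑ m ∈ A, β m * (ψ m).phi y := by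
  have h1 := xv_physFn_sum A (fun m => β m • (ψ m).vec I)
  have h2 : ∀ m ∈ A, physFn (β m • (ψ m).vec I) =ᵐ[volume] I.set.indicator fun y => β m * (ψ m).phi y := by
    intro m hm
    filter_upwards [xv_physFn_smul (β m) ((ψ m).vec I), xv_physFn_vec (s8a_reg (hψ m hm) I)] with y h3 h4
    rw [h3, h4]
    by_cases hy : y ∈ I.set
    · rw [Set.indicator_of_mem hy, Set.indicator_of_mem hy]
    · rw [Set.indicator_of_notMem hy, Set.indicator_of_notMem hy, mul_zero]
  have h3 : ∀ᵐ y ∂(volume : Measure ℝ), ∀ m ∈ A,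
      physFn (β m • (ψ m).vec I) y = I.set.indicator (fun y => β m * (ψ m).phi y) y :=
    (Finset.eventually_all A).2 h2
  filter_upwards [h1, h3] with y h4 h5
  rw [h4, Finset.sum_congr rfl h5]
  by_cases hy : y ∈ I.set
  · simp only [Set.indicator_of_mem hy]
  · simp only [Set.indicator_of_notMem hy, Finset.sum_const_zero]

end vec

/-! ### the projections `cproj` -/

section cproj

theorem s8a_cproj_mem (A : Finset Col) (I : Cell) (F : XV) :
    ∃ β : Col → ℂ, cproj A I F = ∑ Φ ∈ A, β Φ • Φ.vec I := by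
  exact xv_cproj_exists_coef A I F

theorem s8a_mem_colSpan_iff (A : Finset Col) (I : Cell) (g : XV) :
    g ∈ colSpan A I ↔ ∃ β : Col → ℂ, g = ∑ Φ ∈ A, β Φ • Φ.vec I := by
  exact xv_mem_colSpan_iff

theorem s8a_cproj_of_mem (A : Finset Col) (I : Cell) (g : XV) (hg : g ∈ colSpan A I) : cproj A I g = g := by
  exact xv_cproj_of_mem hg

theorem s8a_norm_cproj_le (A : Finset Col) (I : Cell) (F : XV) : ‖cproj A I F‖ ≤ ‖F‖ := by
  exact xv_norm_cproj_le A I F

/-- locality of the input -/
theorem s8a_cproj_restr (A : Finset Col) (hA : ∀ Φ ∈ A, Φ.Nice) {I U : Cell} (h : I ≤ U) (F : XV) :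
    cproj A I (restr U.set F) = cproj A I F := by
  exact xv_cproj_restr_le A h F

/-- locality of the output -/
theorem s8a_restr_cproj (A : Finset Col) (hA : ∀ Φ ∈ A, Φ.Nice) (I : Cell) (F : XV) :
    restr I.set (cproj A I F) = cproj A I F := by
  exact xv_restr_cproj A I F

end cproj

end

end Claimed.Agent.R258
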