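/-
Row 258 (S0498), Sec. 8, layer (B).  Architect helper61.  File Osc.lean: the elementary first-derivative oscillatory estimate for quadratic phases
(used in Lemma 8.7).  Only Mathlib and `ee t = exp (2π i t)` (S5/Base.lean).  NO paper needed.

LEAF P-S8-OSC = all `sorry`s of this file (auxiliary lemmas with prefix `s8o_`).
PLANS.
* `s8o_quad`: `φ(y) = a y² + b y`, `g(y) = φ'(y) = 2 a y + b` is affine, continuous and `|g| ≥ Λ > 0` on `[α,β]`, so it has constant sign there (IVT).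
  `ee(φ) = (1/(2π i g)) · d/dy ee(φ)`.  Integrate by parts (`intervalIntegral.integral_mul_deriv_eq_deriv_mul`):
  `∫ ee φ = [ee φ/(2π i g)]_α^β + ∫ ee φ · g'/(2π i g²)`, `g' = 2a`;  boundary terms `≤ 2/(2πΛ)`;
  `∫_α^β |2a|/g² = |1/g(α) - 1/g(β)| ≤ 1/Λ` (same sign), so the last integral is `≤ 1/(2πΛ)`.  Total `3/(2πΛ) ≤ 1/Λ`.
  (If `a = 0` the last term vanishes.)
* `s8o_trig`: `u2 = ∑_{n ∈ box} c n ee((n·v) y) + r`, `‖r‖ ≤ tail`; `ee(s y) ee(a y² + b y) = ee(a y² + (b+s) y)` (`Complex.exp_add`); `s8o_quad` for each `n`;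
  the remainder is `≤ tail (β-α)` (`intervalIntegral.norm_integral_le_of_norm_le_const`); measurability of `u2` gives interval integrability (it is bounded).
-/
import Claimed.Agent.R258.S5.Base

set_option autoImplicit false
open MeasureTheory

namespace Claimed.Agent.R258

open scoped BigOperators

theorem s8o_norm_ee (t : ℝ) : ‖ee t‖ = 1 := by
  unfold ee
  have : (2 * (Real.pi : ℂ) * (t : ℂ) * Complex.I) = ((2 * Real.pi * t : ℝ) : ℂ) * Complex.I := by
    push_cast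
    ring
  rw [this, Complex.norm_exp_ofReal_mul_I]

theorem s8o_ee_add (s t : ℝ) : ee (s + t) = ee s * ee t := by
  unfold ee
  rw [← Complex.exp_add]
  congr 1
  push_cast
  ring

theorem s8o_hasDerivAt_ee (a b y : ℝ) :
    HasDerivAt (fun y : ℝ => ee (a * y ^ 2 + b * y))
      (2 * (Real.pi : ℂ) * Complex.I * ((2 * a * y + b : ℝ) : ℂ) * ee (a * y ^ 2 + b * y)) y := by
  have h1 : HasDerivAt (fun y : ℝ => a * y ^ 2 + b * y) (2 * a * y + b) y := by
    have h := ((hasDerivAt_pow 2 y).const_mul a).fun_add ((hasDerivAt_id' y).const_mul b)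
    have e : a * (((2 : ℕ) : ℝ) * y ^ (2 - 1)) + b * 1 = 2 * a * y + b := by
      norm_num
      ring
    rw [e] at h
    exact h
  have h2 : HasDerivAt (fun y : ℝ => 2 * (Real.pi : ℂ) * ((a * y ^ 2 + b * y : ℝ) : ℂ) * Complex.I)
      (2 * (Real.pi : ℂ) * ((2 * a * y + b : ℝ) : ℂ) * Complex.I) y :=
    (h1.ofReal_comp.const_mul (2 * (Real.pi : ℂ))).mul_const Complex.I
  have h3 := h2.cexp
  unfold ee
  convert h3 using 1
  ring

theorem s8o_continuous_ee : Continuous ee := by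
  unfold ee
  fun_prop

/-- first-derivative test for a quadratic phase. -/
theorem s8o_quad (a b α β Λ : ℝ) (hαβ : α ≤ β) (hΛ : 0 < Λ)
    (hder : ∀ y ∈ Set.Icc α β, Λ ≤ |2 * a * y + b|) :
    ‖∫ y in α..β, ee (a * y ^ 2 + b * y)‖ ≤ 1 / Λ := by
  have hπ : (0 : ℝ) < Real.pi := Real.pi_pos
  have hg0 : ∀ y ∈ Set.uIcc α β, 2 * a * y + b ≠ 0 := by
    intro y hy
    rw [Set.uIcc_of_le hαβ] at hy
    intro h0
    have := hder y hy
    rw [h0, abs_zero] at this
    linarith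
  have hc0 : (2 * (Real.pi : ℂ) * Complex.I) ≠ 0 := by
    simp [Real.pi_ne_zero]
  -- the functions
  obtain ⟨F, hF⟩ : ∃ F : ℝ → ℂ, F = fun y => ee (a * y ^ 2 + b * y) := ⟨_, rfl⟩
  obtain ⟨u, hu⟩ : ∃ u : ℝ → ℂ,
      u = fun y => (2 * (Real.pi : ℂ) * Complex.I * ((2 * a * y + b : ℝ) : ℂ))⁻¹ := ⟨_, rfl⟩
  obtain ⟨u', hu'⟩ : ∃ u' : ℝ → ℂ,
      u' = fun y => -(2 * (Real.pi : ℂ) * Complex.I * ((2 * a : ℝ) : ℂ))
        / (2 * (Real.pi : ℂ) * Complex.I * ((2 * a * y + b : ℝ) : ℂ)) ^ 2 := ⟨_, rfl⟩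
  obtain ⟨F', hF'⟩ : ∃ F' : ℝ → ℂ,
      F' = fun y => 2 * (Real.pi : ℂ) * Complex.I * ((2 * a * y + b : ℝ) : ℂ) * F y := ⟨_, rfl⟩
  have hFn : ∀ y, ‖F y‖ = 1 := by
    intro y
    rw [hF]
    exact s8o_norm_ee _
  have hFd : ∀ y, HasDerivAt F (F' y) y := by
    intro y
    rw [hF', hF]
    exact s8o_hasDerivAt_ee a b y
  have hFc : Continuous F := continuous_iff_continuousAt.2 fun y => (hFd y).continuousAt
  have hud : ∀ y ∈ Set.uIcc α β, HasDerivAt u (u' y) y := by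
    intro y hy
    rw [hu, hu']
    have h1 : HasDerivAt (fun y : ℝ => 2 * a * y + b) (2 * a) y := by
      simpa using ((hasDerivAt_id y).const_mul (2 * a)).add_const b
    have h2 : HasDerivAt (fun y : ℝ => 2 * (Real.pi : ℂ) * Complex.I * ((2 * a * y + b : ℝ) : ℂ))
        (2 * (Real.pi : ℂ) * Complex.I * ((2 * a : ℝ) : ℂ)) y :=
      h1.ofReal_comp.const_mul _
    exact h2.fun_inv (mul_ne_zero hc0 (Complex.ofReal_ne_zero.2 (hg0 y hy)))
  have hu'c : ContinuousOn u' (Set.uIcc α β) := by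
    rw [hu']
    refine ContinuousOn.div continuousOn_const ?_ ?_
    · exact (Continuous.continuousOn (by fun_prop))
    · intro y hy
      exact pow_ne_zero _ (mul_ne_zero hc0 (Complex.ofReal_ne_zero.2 (hg0 y hy)))
  have hF'c : Continuous F' := by
    rw [hF']
    exact (by fun_prop : Continuous fun y : ℝ =>
      2 * (Real.pi : ℂ) * Complex.I * ((2 * a * y + b : ℝ) : ℂ)).mul hFc
  have hparts := intervalIntegral.integral_mul_deriv_eq_deriv_mul (a := α) (b := β)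
    hud (fun y _ => hFd y) hu'c.intervalIntegrable (hF'c.intervalIntegrable _ _)
  have e1 : ∫ y in α..β, ee (a * y ^ 2 + b * y) = ∫ y in α..β, u y * F' y := by
    refine intervalIntegral.integral_congr fun y hy => ?_
    have h3 : 2 * (Real.pi : ℂ) * Complex.I * ((2 * a * y + b : ℝ) : ℂ) ≠ 0 :=
      mul_ne_zero hc0 (Complex.ofReal_ne_zero.2 (hg0 y hy))
    show ee (a * y ^ 2 + b * y) = u y * F' y
    rw [hu, hF', hF]
    show _ = (2 * (Real.pi : ℂ) * Complex.I * ((2 * a * y + b : ℝ) : ℂ))⁻¹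
      * (2 * (Real.pi : ℂ) * Complex.I * ((2 * a * y + b : ℝ) : ℂ) * ee (a * y ^ 2 + b * y))
    rw [← mul_assoc, inv_mul_cancel₀ h3, one_mul]
  rw [e1, hparts]
  -- norms
  have hcn : ‖(2 * (Real.pi : ℂ) * Complex.I)‖ = 2 * Real.pi := by
    rw [norm_mul, norm_mul, Complex.norm_I, Complex.norm_real, Real.norm_of_nonneg hπ.le]
    simp
  have hcn1 : ∀ x : ℝ, ‖2 * (Real.pi : ℂ) * Complex.I * (x : ℂ)‖ = 2 * Real.pi * |x| := by
    intro x
    rw [norm_mul, hcn, Complex.norm_real, Real.norm_eq_abs]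
  have hun : ∀ y ∈ Set.Icc α β, ‖u y‖ ≤ 1 / (2 * Real.pi * Λ) := by
    intro y hy
    rw [hu]
    show ‖(2 * (Real.pi : ℂ) * Complex.I * ((2 * a * y + b : ℝ) : ℂ))⁻¹‖ ≤ _
    rw [norm_inv, norm_mul, hcn, Complex.norm_real, Real.norm_eq_abs, one_div]
    exact inv_anti₀ (by positivity) (mul_le_mul_of_nonneg_left (hder y hy) (by positivity))
  have hb1 : ‖u β * F β‖ ≤ 1 / (2 * Real.pi * Λ) := by
    rw [norm_mul, hFn, mul_one]
    exact hun β (Set.right_mem_Icc.2 hαβ)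
  have hb2 : ‖u α * F α‖ ≤ 1 / (2 * Real.pi * Λ) := by
    rw [norm_mul, hFn, mul_one]
    exact hun α (Set.left_mem_Icc.2 hαβ)
  -- the remaining integral
  obtain ⟨ε, hε, hεa⟩ : ∃ ε : ℝ, |ε| = 1 ∧ |2 * a| = ε * (2 * a) := by
    rcases le_total 0 (2 * a) with h | h
    · exact ⟨1, abs_one, by rw [abs_of_nonneg h, one_mul]⟩
    · exact ⟨-1, by simp, by rw [abs_of_nonpos h]; ring⟩
  have hnu' : ∀ y, ‖u' y * F y‖ = ε / (2 * Real.pi) * (2 * a / (2 * a * y + b) ^ 2) := by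
    intro y
    rw [norm_mul, hFn, mul_one, hu']
    show ‖-(2 * (Real.pi : ℂ) * Complex.I * ((2 * a : ℝ) : ℂ))
        / (2 * (Real.pi : ℂ) * Complex.I * ((2 * a * y + b : ℝ) : ℂ)) ^ 2‖ = _
    rw [norm_div, norm_neg, norm_pow, hcn1, hcn1, hεa, mul_pow, sq_abs]
    by_cases h0 : 2 * a * y + b = 0
    · simp [h0]
    · field_simp
  have hh : ∀ y ∈ Set.uIcc α β, HasDerivAt (fun y : ℝ => -(2 * a * y + b)⁻¹)
      (2 * a / (2 * a * y + b) ^ 2) y := by
    intro y hy
    have h1 : HasDerivAt (fun y : ℝ => 2 * a * y + b) (2 * a) y := by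
      simpa using ((hasDerivAt_id y).const_mul (2 * a)).add_const b
    have h2 := (h1.fun_inv (hg0 y hy)).fun_neg
    have e : -(-(2 * a) / (2 * a * y + b) ^ 2) = 2 * a / (2 * a * y + b) ^ 2 := by ring
    rw [e] at h2
    exact h2
  have hh'c : ContinuousOn (fun y : ℝ => 2 * a / (2 * a * y + b) ^ 2) (Set.uIcc α β) := by
    refine ContinuousOn.div continuousOn_const (Continuous.continuousOn (by fun_prop)) ?_
    intro y hy
    exact pow_ne_zero _ (hg0 y hy)
  have hint : ∫ y in α..β, 2 * a / (2 * a * y + b) ^ 2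
      = -(2 * a * β + b)⁻¹ - -(2 * a * α + b)⁻¹ :=
    intervalIntegral.integral_eq_sub_of_hasDerivAt hh hh'c.intervalIntegrable
  have hinv : ∀ y ∈ Set.Icc α β, |(2 * a * y + b)⁻¹| ≤ 1 / Λ := by
    intro y hy
    rw [abs_inv, one_div]
    exact inv_anti₀ hΛ (hder y hy)
  have hb3 : ‖∫ y in α..β, u' y * F y‖ ≤ 2 / (2 * Real.pi * Λ) := by
    refine (intervalIntegral.norm_integral_le_integral_norm hαβ).trans ?_
    simp_rw [hnu']
    rw [intervalIntegral.integral_const_mul, hint]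
    have h5 := hinv β (Set.right_mem_Icc.2 hαβ)
    have h6 := hinv α (Set.left_mem_Icc.2 hαβ)
    have h7 : |-(2 * a * β + b)⁻¹ - -(2 * a * α + b)⁻¹| ≤ 2 / Λ := by
      have := abs_sub (-(2 * a * β + b)⁻¹) (-(2 * a * α + b)⁻¹)
      rw [abs_neg, abs_neg] at this
      have e : 2 / Λ = 1 / Λ + 1 / Λ := by ring
      rw [e]
      linarith
    calc ε / (2 * Real.pi) * (-(2 * a * β + b)⁻¹ - -(2 * a * α + b)⁻¹)
        ≤ |ε / (2 * Real.pi) * (-(2 * a * β + b)⁻¹ - -(2 * a * α + b)⁻¹)| := le_abs_self _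
      _ = 1 / (2 * Real.pi) * |-(2 * a * β + b)⁻¹ - -(2 * a * α + b)⁻¹| := by
          rw [abs_mul, abs_div, hε, abs_of_pos (by positivity : (0 : ℝ) < 2 * Real.pi)]
      _ ≤ 1 / (2 * Real.pi) * (2 / Λ) := mul_le_mul_of_nonneg_left h7 (by positivity)
      _ = 2 / (2 * Real.pi * Λ) := by field_simp
  calc ‖u β * F β - u α * F α - ∫ y in α..β, u' y * F y‖
      ≤ ‖u β * F β‖ + ‖u α * F α‖ + ‖∫ y in α..β, u' y * F y‖ :=
        (norm_sub_le _ _).trans (add_le_add (norm_sub_le _ _) le_rfl)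
    _ ≤ 1 / (2 * Real.pi * Λ) + 1 / (2 * Real.pi * Λ) + 2 / (2 * Real.pi * Λ) :=
        add_le_add (add_le_add hb1 hb2) hb3
    _ = 2 / Real.pi * (1 / Λ) := by field_simp; ring
    _ ≤ 1 * (1 / Λ) := by
        refine mul_le_mul_of_nonneg_right ?_ (by positivity)
        rw [div_le_one hπ]
        linarith [Real.pi_gt_three]
    _ = 1 / Λ := one_mul _

/-- the same with an amplitude which is a trigonometric polynomial up to a uniform error. -/
theorem s8o_trig {κ : Type*} [Fintype κ] (box : Finset (κ → ℤ)) (c : (κ → ℤ) → ℂ) (v : κ → ℝ) (u2 : ℝ → ℂ)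
    (tail : ℝ) (hmeas : Measurable u2)
    (hu : ∀ y, ‖u2 y - ∑ n ∈ box, c n * ee ((∑ i, (n i : ℝ) * v i) * y)‖ ≤ tail)
    (a b α β Λ : ℝ) (hαβ : α ≤ β) (hΛ : 0 < Λ)
    (hder : ∀ n ∈ box, ∀ y ∈ Set.Icc α β, Λ ≤ |2 * a * y + b + ∑ i, (n i : ℝ) * v i|) :
    ‖∫ y in α..β, u2 y * ee (a * y ^ 2 + b * y)‖ ≤ (∑ n ∈ box, ‖c n‖) / Λ + tail * (β - α) := by
  classical
  obtain ⟨E, hE⟩ : ∃ E : ℝ → ℂ, E = fun y => ee (a * y ^ 2 + b * y) := ⟨_, rfl⟩
  obtain ⟨sN, hsN⟩ : ∃ sN : (κ → ℤ) → ℝ, sN = fun n => ∑ i, (n i : ℝ) * v i := ⟨_, rfl⟩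
  obtain ⟨Tp, hTp⟩ : ∃ Tp : ℝ → ℂ, Tp = fun y => ∑ n ∈ box, c n * ee (sN n * y) := ⟨_, rfl⟩
  have hEc : Continuous E := by
    rw [hE]
    exact s8o_continuous_ee.comp (by fun_prop)
  have hEn : ∀ y, ‖E y‖ = 1 := by
    intro y
    rw [hE]
    exact s8o_norm_ee _
  have hTc : Continuous Tp := by
    rw [hTp]
    refine continuous_finsetSum _ fun n _ => continuous_const.mul ?_
    exact s8o_continuous_ee.comp (by fun_prop)
  have hu' : ∀ y, ‖u2 y - Tp y‖ ≤ tail := by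
    intro y
    rw [hTp, hsN]
    exact hu y
  -- integrability
  have hTE : IntervalIntegrable (fun y => Tp y * E y) volume α β :=
    (hTc.mul hEc).intervalIntegrable _ _
  have hrE : IntervalIntegrable (fun y => (u2 y - Tp y) * E y) volume α β := by
    have hm : Measurable fun y => (u2 y - Tp y) * E y :=
      (hmeas.sub hTc.measurable).mul hEc.measurable
    rw [intervalIntegrable_iff]
    refine Measure.integrableOn_of_bounded (M := tail) ?_ hm.aestronglyMeasurable ?_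
    · exact (measure_mono Set.uIoc_subset_uIcc).trans_lt isCompact_uIcc.measure_lt_top |>.ne
    · refine Filter.Eventually.of_forall fun y => ?_
      rw [norm_mul, hEn, mul_one]
      exact hu' y
  have e0 : ∫ y in α..β, u2 y * ee (a * y ^ 2 + b * y)
      = (∫ y in α..β, Tp y * E y) + ∫ y in α..β, (u2 y - Tp y) * E y := by
    rw [← intervalIntegral.integral_add hTE hrE]
    refine intervalIntegral.integral_congr fun y _ => ?_
    show u2 y * ee (a * y ^ 2 + b * y) = Tp y * E y + (u2 y - Tp y) * E y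
    rw [hE]
    ring
  have e1 : ∫ y in α..β, Tp y * E y
      = ∑ n ∈ box, c n * ∫ y in α..β, ee (a * y ^ 2 + (b + sN n) * y) := by
    have e2 : ∀ y, Tp y * E y = ∑ n ∈ box, c n * ee (a * y ^ 2 + (b + sN n) * y) := by
      intro y
      rw [hTp, hE]
      show (∑ n ∈ box, c n * ee (sN n * y)) * ee (a * y ^ 2 + b * y) = _
      rw [Finset.sum_mul]
      refine Finset.sum_congr rfl fun n _ => ?_
      rw [mul_assoc, ← s8o_ee_add]
      congr 2
      ring
    simp_rw [e2]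
    rw [intervalIntegral.integral_finsetSum]
    · refine Finset.sum_congr rfl fun n _ => ?_
      rw [intervalIntegral.integral_const_mul]
    · intro n _
      refine Continuous.intervalIntegrable ?_ _ _
      exact continuous_const.mul (s8o_continuous_ee.comp (by fun_prop))
  have b1 : ‖∫ y in α..β, Tp y * E y‖ ≤ (∑ n ∈ box, ‖c n‖) / Λ := by
    rw [e1, Finset.sum_div]
    refine (norm_sum_le _ _).trans (Finset.sum_le_sum fun n hn => ?_)
    rw [norm_mul, div_eq_mul_one_div]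
    refine mul_le_mul_of_nonneg_left ?_ (norm_nonneg _)
    refine s8o_quad a (b + sN n) α β Λ hαβ hΛ fun y hy => ?_
    have := hder n hn y hy
    rw [hsN]
    rwa [add_assoc] at this
  have b2 : ‖∫ y in α..β, (u2 y - Tp y) * E y‖ ≤ tail * (β - α) := by
    have := intervalIntegral.norm_integral_le_of_norm_le_const (a := α) (b := β)
      (f := fun y => (u2 y - Tp y) * E y) (C := tail) (fun y _ => by
        rw [norm_mul, hEn, mul_one]
        exact hu' y)
    rwa [abs_of_nonneg (by linarith : (0 : ℝ) ≤ β - α)] at this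
  rw [e0]
  exact (norm_add_le _ _).trans (add_le_add b1 b2)

end Claimed.Agent.R258
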