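/-
Row 258 (S0498), Sec. 8, layer (B).  Architect helper61.  File Rows.lean: Lemma 8.7 (separated mode rows) for a `ModeSys`:
the oscillatory cross-pair bound from graph non-adjacency, the row Bessel bound, single-cell almost orthogonality, projection versus exact coefficient subtotal.
NO paper needed.   Black boxes: S8/{Hilb,Osc,Atom,Graph}.lean, CellApi.

LEAVES:  P-S8-PAIR = section `pair`;   P-S8-ROWS = section `rows`   (auxiliary lemmas with prefix `s8r_`).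
PLANS.
* `psi_nice`: from `hV.cut_meas`, `hV.pph_meas`, `hV.cut_range`, `hV.eps_lo` (so `0 ≤ epsm`... note `√epsm ≥ 1/Ds > 0` forces `epsm > 0`), `hV.eps_le`; `‖ee t‖ = 1`, `ee` is continuous.
* `pair_small`: by `s8a_inner_vec` (labels `m ≠ m'`) the inner product is `∫_I conj(g e(φ_m)) g e(φ_m') = ∫_I cut² · ee((λ_m' - λ_m) y² + (γ_m' - γ_m) y)` (`‖ee‖ = 1`, `conj (ee t) = ee (-t)`).
  Apply `s8o_trig` with `u2 = cut²`, the box and coefficients of `hV.cut_fourier`, `v = vth`, `tail = Ds^(-300)`, `[α,β] = [I.left, I.right]`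
  (`∫ over I.set = Set.Ico` equals the interval integral), `Λ = thr/2`.  For `n` in the box put `n' = -6^h n`:  `|n'| ≤ 6^h Bs ≤ A0^(h+1) = E h` (`hp.Bs_le`, `6 ≤ A0`) and
  `dotv n' / 6^h = -dotv n`, so `nonadj_lower` gives `thr/2 < |om m x - om m' x - dotv n| = |2 (λ_m'-λ_m) x + (γ_m'-γ_m) + dotv n|` on the closed cell `I ⊆ J`.
  Result `≤ Ds/(thr/2) + Ds^(-300) |I| ≤ (2 Ds/Xi + Ds^(-300)) |I| ≤ Ds^(-200) |I|` using `Xi ≤ thr |I|`, `Xi = Ds^1000`, `Ds ≥ 100`.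
* `sep_rows`: `s8h_synth` with `x e m = (psi m).vec (Je e)`, `w e = |Je e|`, `ov e f = |Je e|` if `Je e ≤ Je f`, `|Je f|` if `Je f < Je e`, `0` otherwise; `c = epsm ≥ Ds^(-2)`
  (`s8a_lower`), `τ = Ds^(-200)`, `D = N = Ds`.  Cross terms: `s8a_inner_vec_of_le`, `s8a_inner_vec_disj`, conjugate symmetry.  `∑_f ov e f ≤ Ds |Je e|`: the rows `f` with `Je e ≤ Je f` are at most
  `Ds` minus ...; cleanest: `∑_f ov e f = ∑_f |Je e ∩ Je f|` and every point lies in at most `Ds` cells `Je f` (each `Me f` is nonempty, `hcount` at the smallest row through the point);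
  use `cell_chain_bound` for the rows strictly below `Je e` together with the rows above: apply it to the family `{Je f ⊓ Je e}`.  Then `θ = τ D N / c ≤ Ds^(-196) ≤ 1`; `s8h_bessel` with `Cb = 2`,
  `S e = colSpan ((Me e).image psi) (Je e)` (`s8a_mem_colSpan_iff`).
* `cell_orth`: `s8h_synth` on the single cell (`ι` = the finset `parts` as a type, `w = ov = |I|`, `N = D = Ds`; at most `Ds` nonempty parts, empty parts contribute `0`: remove them first).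
* `proj_sub`: `Ztil` restricted to `I` is `sub 𝒟 + sub (lst \ 𝒟)`; `proj (sub 𝒟) = sub 𝒟` (`s8a_cproj_of_mem`), `‖proj (sub (lst \ 𝒟))‖ ≤ τ √(|I| card 𝒟/epsm) ∑‖α‖ ≤ Ds^(-200) √|I| Ds^(3/2) Ds`
  by `s8h_proj_small`, `hV.alpha_sum`.  (`proj l G I 𝒟 (Ztil l G U) = proj l G I 𝒟 (restr I (Ztil l G U))` by `s8a_cproj_restr`, `restr I ((psi m).vec U) = (psi m).vec I` by `s8a_restr_vec`.)
-/
import Claimed.Agent.R258.S8.Graph
import Claimed.Agent.R258.S8.Hilb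
import Claimed.Agent.R258.S8.Osc
import Claimed.Agent.R258.S8.Atom

set_option autoImplicit false
open MeasureTheory

namespace Claimed.Agent.R258

open scoped BigOperators
open Classical

noncomputable section

namespace ModeSys

variable {d : ℕ} {M : ModeSys d} {p : S8Par} {G0 : ℝ}

/-- the cross-pair bound of Lemma 8.7 on the cell `I` -/
def Cross (M : ModeSys d) (p : S8Par) (l : Fin 4) (G : ℕ) (I : Cell) (m m' : ℕ) : Prop :=
  ‖inner ℂ ((M.psi l G m).vec I) ((M.psi l G m').vec I)‖ ≤ ((p.Ds : ℝ) ^ 200)⁻¹ * I.len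

section pair

theorem s8r_Ds (hp : p.Ok d) : (100 : ℝ) ≤ (p.Ds : ℝ) := by exact_mod_cast hp.Ds_ge

theorem s8r_eps (hV : M.Valid p G0) (hp : p.Ok d) : ((p.Ds : ℝ) ^ 2)⁻¹ ≤ M.epsm ∧ 0 < M.epsm := by
  have hDs := s8r_Ds hp
  have h0 : 0 < ((p.Ds : ℝ))⁻¹ := by positivity
  have h1 : 0 < Real.sqrt M.epsm := lt_of_lt_of_le h0 hV.eps_lo
  have h2 : 0 < M.epsm := Real.sqrt_pos.1 h1
  refine ⟨?_, h2⟩
  have h3 : (((p.Ds : ℝ))⁻¹) ^ 2 ≤ Real.sqrt M.epsm ^ 2 := pow_le_pow_left₀ h0.le hV.eps_lo 2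
  rw [Real.sq_sqrt h2.le, inv_pow] at h3
  exact h3

theorem psi_nice (hV : M.Valid p G0) (hp : p.Ok d) (l : Fin 4) (G m : ℕ) : (M.psi l G m).Nice := by
  refine ⟨?_, ?_, (s8r_eps hV hp).2.le, hV.eps_le⟩
  · show Measurable fun y => (M.gauge l G).gau (s8c4 l) y * ee (M.lam m * y ^ 2 + M.gam m * y)
    unfold S8Gauge.gau
    have h1 : Measurable fun y => (((M.gauge l G).cut y : ℝ) : ℂ) := Complex.measurable_ofReal.comp (hV.cut_meas l G)
    have h2 : Measurable fun y => ee (s8c4 l * (M.gauge l G).pph y) :=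
      s8o_continuous_ee.measurable.comp ((hV.pph_meas l G).const_mul _)
    have h3 : Measurable fun y : ℝ => ee (M.lam m * y ^ 2 + M.gam m * y) :=
      (s8o_continuous_ee.comp (by fun_prop)).measurable
    exact (h1.mul h2).mul h3
  · intro y
    show ‖(M.gauge l G).gau (s8c4 l) y * ee (M.lam m * y ^ 2 + M.gam m * y)‖ ≤ 1
    unfold S8Gauge.gau
    rw [norm_mul, norm_mul, s8o_norm_ee, s8o_norm_ee, mul_one, mul_one, Complex.norm_real, Real.norm_eq_abs,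
      abs_of_nonneg (hV.cut_range l G y).1]
    exact (hV.cut_range l G y).2

theorem cross_symm {l : Fin 4} {G : ℕ} {I : Cell} {m m' : ℕ} (h : M.Cross p l G I m m') : M.Cross p l G I m' m := by
  unfold Cross at h ⊢
  rwa [norm_inner_symm]

theorem s8r_conj_ee (t : ℝ) : (starRingEnd ℂ) (ee t) = ee (-t) := by
  unfold ee
  rw [← Complex.exp_conj]
  congr 1
  simp only [map_mul, Complex.conj_ofReal, Complex.conj_I, map_ofNat]
  push_cast
  ring

/-- the integrand of the cross inner product -/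
theorem s8r_integrand (l : Fin 4) (G m m' : ℕ) (y : ℝ) :
    (starRingEnd ℂ) ((M.psi l G m).phi y) * (M.psi l G m').phi y
      = (((M.gauge l G).cut y ^ 2 : ℝ) : ℂ) * ee ((M.lam m' - M.lam m) * y ^ 2 + (M.gam m' - M.gam m) * y) := by
  show (starRingEnd ℂ) ((M.gauge l G).gau (s8c4 l) y * ee (M.lam m * y ^ 2 + M.gam m * y))
      * ((M.gauge l G).gau (s8c4 l) y * ee (M.lam m' * y ^ 2 + M.gam m' * y)) = _
  unfold S8Gauge.gau
  have e1 : ee ((M.lam m' - M.lam m) * y ^ 2 + (M.gam m' - M.gam m) * y)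
      = ee (-(M.lam m * y ^ 2 + M.gam m * y)) * ee (M.lam m' * y ^ 2 + M.gam m' * y) := by
    rw [← s8o_ee_add]; congr 1; ring
  have e2 : ee (-(s8c4 l * (M.gauge l G).pph y)) * ee (s8c4 l * (M.gauge l G).pph y) = 1 := by
    rw [← s8o_ee_add, neg_add_cancel]
    simp [ee]
  rw [map_mul, map_mul, s8r_conj_ee, s8r_conj_ee, Complex.conj_ofReal, e1]
  push_cast
  linear_combination (((M.gauge l G).cut y : ℂ) ^ 2 * ee (-(M.lam m * y ^ 2 + M.gam m * y)) * ee (M.lam m' * y ^ 2 + M.gam m' * y)) * e2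


theorem s8r_num (D : ℝ) (hD : 100 ≤ D) : 2 * D / D ^ 1000 + (D ^ 300)⁻¹ ≤ (D ^ 200)⁻¹ := by
  have hD0 : 0 < D := by linarith
  have hD1 : 1 ≤ D := by linarith
  have h699 : 2 ≤ D ^ 699 := by
    have : D ^ 1 ≤ D ^ 699 := pow_le_pow_right₀ hD1 (by norm_num)
    rw [pow_one] at this
    linarith
  have h100 : 2 ≤ D ^ 100 := by
    have : D ^ 1 ≤ D ^ 100 := pow_le_pow_right₀ hD1 (by norm_num)
    rw [pow_one] at this
    linarith
  have h1 : 2 * D / D ^ 1000 ≤ (D ^ 300)⁻¹ := by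
    rw [div_le_iff₀ (by positivity)]
    have e : (D ^ 300)⁻¹ * D ^ 1000 = D * D ^ 699 := by
      have : D ^ 1000 = D ^ 300 * (D * D ^ 699) := by ring
      rw [this, ← mul_assoc, inv_mul_cancel₀ (by positivity), one_mul]
    rw [e]
    nlinarith
  have h2 : 2 * (D ^ 300)⁻¹ ≤ (D ^ 200)⁻¹ := by
    have e : (D ^ 200)⁻¹ = D ^ 100 * (D ^ 300)⁻¹ := by
      have : D ^ 300 = D ^ 100 * D ^ 200 := by ring
      rw [this, mul_inv, ← mul_assoc, mul_inv_cancel₀ (by positivity), one_mul]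
    rw [e]
    exact mul_le_mul_of_nonneg_right h100 (by positivity)
  linarith

theorem pair_small (hV : M.Valid p G0) (hp : p.Ok d) {l : Fin 4} {G : ℕ} {J I : Cell} (hJ : M.cert G (J.anc (2 * p.K)))
    (hIJ : I ≤ J) {thr : ℝ} (h1 : p.thrPre J ≤ thr) (h2 : p.Xi ≤ thr * I.len) {h : ℕ} {m m' : ℕ}
    (hm : m ∈ M.lstJ p l G J) (hm' : m' ∈ M.lstJ p l G J) (hne : m ≠ m') (hn : ¬ M.adj p l G thr J h m m') :
    M.Cross p l G I m m' := by
  unfold Cross
  have hDs := s8r_Ds hp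
  have hDs0 : (0 : ℝ) < p.Ds := by linarith
  have hlen := cell_len_pos I
  rw [s8a_inner_vec _ _ (psi_nice hV hp l G m) (psi_nice hV hp l G m') I]
  have hlab : ¬ ((M.psi l G m).lab = (M.psi l G m').lab) := hne
  rw [if_neg hlab, add_zero]
  simp_rw [s8r_integrand]
  obtain ⟨c, hc1, hc2⟩ := hV.cut_fourier l G
  have hXi : 0 < p.Xi := by unfold S8Par.Xi; positivity
  have hthr : 0 < thr := by
    by_contra hcon
    push Not at hcon
    nlinarith
  have e : ∫ y in I.set, (((M.gauge l G).cut y ^ 2 : ℝ) : ℂ) * ee ((M.lam m' - M.lam m) * y ^ 2 + (M.gam m' - M.gam m) * y)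
      = ∫ y in I.left..I.right, (((M.gauge l G).cut y ^ 2 : ℝ) : ℂ) * ee ((M.lam m' - M.lam m) * y ^ 2 + (M.gam m' - M.gam m) * y) := by
    rw [intervalIntegral.integral_of_le (cell_left_lt_right I).le]
    exact integral_Ico_eq_integral_Ioc
  rw [e]
  have hmeas : Measurable fun y => ((((M.gauge l G).cut y ^ 2 : ℝ)) : ℂ) :=
    Complex.measurable_ofReal.comp ((hV.cut_meas l G).pow_const 2)
  have hsub : Set.Icc I.left I.right ⊆ Set.Icc J.left J.right := by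
    have := (Set.Ico_subset_Ico_iff (cell_left_lt_right I)).1 (cell_set_subset hIJ)
    exact Set.Icc_subset_Icc this.1 this.2
  have key := s8o_trig (Fintype.piFinset (fun _ : Fin d => Finset.Icc (-(p.Bs : ℤ)) p.Bs)) c (M.gauge l G).vth
    (fun y => (((M.gauge l G).cut y ^ 2 : ℝ) : ℂ)) ((p.Ds : ℝ) ^ 300)⁻¹ hmeas hc2 (M.lam m' - M.lam m) (M.gam m' - M.gam m)
    I.left I.right (thr / 2) (cell_left_lt_right I).le (half_pos hthr) (by
      intro n hnb y hy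
      rw [Fintype.mem_piFinset] at hnb
      have hb : ∀ i, |(-(6 : ℤ) ^ h * n i)| ≤ (p.E h : ℤ) := by
        intro i
        have h3 := Finset.mem_Icc.1 (hnb i)
        have h4 : |n i| ≤ (p.Bs : ℤ) := abs_le.2 h3
        rw [abs_mul, abs_neg, abs_of_nonneg (by positivity : (0 : ℤ) ≤ 6 ^ h)]
        have h5 : (6 : ℤ) ^ h ≤ (p.A0 : ℤ) ^ h := pow_le_pow_left₀ (by norm_num) (by exact_mod_cast hp.stab.A0_ge) h
        have h6 : (p.Bs : ℤ) ≤ (p.A0 : ℤ) := by exact_mod_cast hp.Bs_le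
        calc (6 : ℤ) ^ h * |n i| ≤ (p.A0 : ℤ) ^ h * (p.A0 : ℤ) :=
              mul_le_mul h5 (h4.trans h6) (abs_nonneg _) (by positivity)
          _ = (p.E h : ℤ) := by unfold S8Par.E; push_cast; ring
      have h7 := nonadj_lower hV hp hJ h1 hm hm' hn (fun i => -(6 : ℤ) ^ h * n i) hb (hsub hy)
      refine le_trans h7.le (le_of_eq ?_)
      have e1 : (M.gauge l G).dotv (fun i => -(6 : ℤ) ^ h * n i) / 6 ^ h = - ∑ i, (n i : ℝ) * (M.gauge l G).vth i := by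
        unfold S8Gauge.dotv
        rw [div_eq_iff (by positivity), neg_mul, Finset.sum_mul, ← Finset.sum_neg_distrib]
        refine Finset.sum_congr rfl fun i _ => ?_
        push_cast
        ring
      rw [e1, ← abs_neg]
      congr 1
      unfold om
      ring)
  refine key.trans ?_
  have hrl : I.right - I.left = I.len := by rw [cell_right_eq]; ring
  rw [hrl]
  have h8 : (∑ n ∈ Fintype.piFinset (fun _ : Fin d => Finset.Icc (-(p.Bs : ℤ)) p.Bs), ‖c n‖) / (thr / 2)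
      ≤ 2 * p.Ds / p.Xi * I.len := by
    rw [div_le_iff₀ (half_pos hthr)]
    refine hc1.trans ?_
    have : 2 * (p.Ds : ℝ) / p.Xi * I.len * (thr / 2) = p.Ds * ((thr * I.len) / p.Xi) := by ring
    rw [this]
    have h9 : 1 ≤ (thr * I.len) / p.Xi := by rwa [one_le_div hXi]
    nlinarith
  have h10 := s8r_num p.Ds hDs
  have h11 : (2 * (p.Ds : ℝ) / p.Xi + ((p.Ds : ℝ) ^ 300)⁻¹) * I.len ≤ ((p.Ds : ℝ) ^ 200)⁻¹ * I.len :=
    mul_le_mul_of_nonneg_right h10 hlen.le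
  linarith

/-- PRE form -/
theorem pair_small_pre (hV : M.Valid p G0) (hp : p.Ok d) {l : Fin 4} {G : ℕ} {J : Cell} (hJ : J ∈ M.pres p G) {h : ℕ}
    {m m' : ℕ} (hm : m ∈ M.lstJ p l G J) (hm' : m' ∈ M.lstJ p l G J) (hn : ¬ M.conn p l G (p.thrPre J) J h m m') :
    M.Cross p l G J m m' := by
  refine pair_small hV hp (pres_cert hp.K_pos hJ) le_rfl le_rfl ?_ hm hm' ?_ (fun ha => hn (conn_of_adj hm hm' ha)) (h := h)
  · unfold S8Par.thrPre
    rw [div_mul_cancel₀ _ (cell_len_ne_zero J)]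
  · rintro rfl
    exact hn Relation.ReflTransGen.refl

/-- CURRENT form, at a live actual use -/
theorem pair_small_cur (hV : M.Valid p G0) (hp : p.Ok d) {l : Fin 4} {G : ℕ} {I : Cell} (hu : (G, I) ∈ M.uses)
    (hl : s8Live p.K M.root I) {h : ℕ} {m m' : ℕ} (hm : m ∈ M.lstJ p l G (s8Pre p.K M.root I))
    (hm' : m' ∈ M.lstJ p l G (s8Pre p.K M.root I))
    (hn : ¬ M.conn p l G (p.thrCur (s8Pre p.K M.root I)) (s8Pre p.K M.root I) h m m') :
    M.Cross p l G I m m' := by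
  have hJ : s8Pre p.K M.root I ∈ M.pres p G := mem_pres.2 ⟨I, hu, hl, rfl⟩
  refine pair_small hV hp (pres_cert hp.K_pos hJ) (s8g_le_pre _ _ _) (s8g_thrPre_le_cur p _) ?_ hm hm' ?_
    (fun ha => hn (conn_of_adj hm hm' ha)) (h := h)
  · have h1 := (s8g_len_block hp.K_pos hl).1
    unfold S8Par.thrCur
    have hpos := cell_len_pos (s8Pre p.K M.root I)
    rw [div_mul_eq_mul_div, le_div_iff₀ hpos]
    have := s8g_Xi_nonneg p
    nlinarith
  · rintro rfl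
    exact hn Relation.ReflTransGen.refl

end pair

section rows

theorem s8r_psi_inj (M : ModeSys d) (l : Fin 4) (G : ℕ) : Function.Injective (M.psi l G) := by
  intro m m' h
  have : (M.psi l G m).lab = (M.psi l G m').lab := by rw [h]
  exact this

theorem s8r_sum_image (M : ModeSys d) (l : Fin 4) (G : ℕ) (𝒟 : Finset ℕ) (I : Cell) (β : ℕ → ℂ) :
    ∑ Φ ∈ 𝒟.image (M.psi l G), β Φ.lab • Φ.vec I = ∑ m ∈ 𝒟, β m • (M.psi l G m).vec I := by
  rw [Finset.sum_image (fun a _ b _ h => s8r_psi_inj M l G h)]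
  rfl

theorem s8r_mem_span (M : ModeSys d) (l : Fin 4) (G : ℕ) (𝒟 : Finset ℕ) (I : Cell) (g : XV) :
    g ∈ colSpan (𝒟.image (M.psi l G)) I ↔ ∃ β : ℕ → ℂ, g = ∑ m ∈ 𝒟, β m • (M.psi l G m).vec I := by
  rw [s8a_mem_colSpan_iff]
  constructor
  · rintro ⟨β, rfl⟩
    refine ⟨fun m => β (M.psi l G m), ?_⟩
    rw [Finset.sum_image (fun a _ b _ h => s8r_psi_inj M l G h)]
  · rintro ⟨β, rfl⟩
    exact ⟨fun Φ => β Φ.lab, (s8r_sum_image M l G 𝒟 I β).symm⟩

theorem s8r_lower (hV : M.Valid p G0) (hp : p.Ok d) (l : Fin 4) (G : ℕ) (𝒟 : Finset ℕ) (I : Cell) (β : ℕ → ℂ) :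
    M.epsm * I.len * ∑ m ∈ 𝒟, ‖β m‖ ^ 2 ≤ ‖∑ m ∈ 𝒟, β m • (M.psi l G m).vec I‖ ^ 2 :=
  s8a_lower 𝒟 (M.psi l G) (fun m _ => psi_nice hV hp l G m) (fun _ _ _ _ h => h) M.epsm (fun _ _ => le_rfl) I β

theorem s8r_lst_card (hV : M.Valid p G0) (l : Fin 4) {G : ℕ} {U : Cell} (hU : M.cert G U) : (M.lst l G U).card ≤ p.Ds := by
  obtain ⟨hle, u, hu, hG, huU⟩ := hU
  have hGg : G ∈ M.grps := hG ▸ (hV.uses_le u hu).1
  refine le_trans ?_ (hV.lst_count l U ⟨hle, u, hu, huU⟩)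
  exact Finset.single_le_sum (f := fun G => (M.lst l G U).card) (fun _ _ => Nat.zero_le _) hGg

theorem restr_sub (hV : M.Valid p G0) (hp : p.Ok d) (l : Fin 4) (G : ℕ) (U : Cell) {I I' : Cell} (h : I' ≤ I) (𝒟 : Finset ℕ) :
    restr I'.set (M.sub l G U I 𝒟) = M.sub l G U I' 𝒟 := by
  unfold sub
  rw [map_sum]
  refine Finset.sum_congr rfl fun m _ => ?_
  rw [map_smul, s8a_restr_vec _ (psi_nice hV hp l G m) h]

/-- crude bound for a coefficient subtotal -/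
theorem norm_sub_le (hV : M.Valid p G0) (hp : p.Ok d) (l : Fin 4) {G : ℕ} {U I : Cell} (hU : M.cert G U)
    (𝒟 : Finset ℕ) (h𝒟 : 𝒟 ⊆ M.lst l G U) : ‖M.sub l G U I 𝒟‖ ≤ 2 * p.Ds * Real.sqrt I.len := by
  unfold sub
  have hlen := cell_len_pos I
  have h1 : ∀ m, ‖(M.psi l G m).vec I‖ ≤ 2 * Real.sqrt I.len := by
    intro m
    have h2 := s8a_norm_vec_sq_le _ (psi_nice hV hp l G m) I
    have h3 : (2 * Real.sqrt I.len) ^ 2 = 4 * I.len := by
      rw [mul_pow, Real.sq_sqrt hlen.le]; norm_num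
    refine abs_le_of_sq_le_sq' ?_ (by positivity) |>.2
    rw [h3]
    linarith
  calc ‖∑ m ∈ 𝒟, M.alpha l G U m • (M.psi l G m).vec I‖
      ≤ ∑ m ∈ 𝒟, ‖M.alpha l G U m‖ * (2 * Real.sqrt I.len) := by
        refine (norm_sum_le _ _).trans (Finset.sum_le_sum fun m _ => ?_)
        rw [norm_smul]
        exact mul_le_mul_of_nonneg_left (h1 m) (norm_nonneg _)
    _ = (∑ m ∈ 𝒟, ‖M.alpha l G U m‖) * (2 * Real.sqrt I.len) := by rw [Finset.sum_mul]
    _ ≤ p.Ds * (2 * Real.sqrt I.len) := by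
        refine mul_le_mul_of_nonneg_right ?_ (by positivity)
        exact (Finset.sum_le_sum_of_subset_of_nonneg h𝒟 fun _ _ _ => norm_nonneg _).trans (hV.alpha_sum l G U hU)
    _ = 2 * p.Ds * Real.sqrt I.len := by ring

theorem s8r_num2 (D : ℝ) (hD : 100 ≤ D) : (D ^ 200)⁻¹ * D ^ 5 ≤ (D ^ 190)⁻¹ := by
  have hD0 : 0 < D := by linarith
  have hD1 : 1 ≤ D := by linarith
  have e : (D ^ 200)⁻¹ * D ^ 5 = (D ^ 190)⁻¹ * (D ^ 5)⁻¹ := by
    have : D ^ 200 = D ^ 190 * D ^ 5 * D ^ 5 := by ring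
    rw [this, mul_inv, mul_inv, mul_assoc, inv_mul_cancel₀ (by positivity), mul_one]
  rw [e]
  have h1 : (D ^ 5)⁻¹ ≤ 1 := inv_le_one_of_one_le₀ (one_le_pow₀ hD1)
  have h2 : 0 ≤ (D ^ 190)⁻¹ := by positivity
  nlinarith

/-- **projection versus exact coefficient subtotal.** -/
theorem proj_sub (hV : M.Valid p G0) (hp : p.Ok d) (l : Fin 4) {G : ℕ} {U I : Cell} (hU : M.cert G U) (hIU : I ≤ U)
    (𝒟 : Finset ℕ) (h𝒟 : 𝒟 ⊆ M.lst l G U)
    (hcross : ∀ m ∈ 𝒟, ∀ m' ∈ M.lst l G U \ 𝒟, M.Cross p l G I m m') :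
    ‖M.proj l G I 𝒟 (M.Ztil l G U) - M.sub l G U I 𝒟‖ ≤ ((p.Ds : ℝ) ^ 190)⁻¹ * Real.sqrt I.len := by
  have hDs := s8r_Ds hp
  have hDs0 : (0 : ℝ) < p.Ds := by linarith
  have hDs1 : (1 : ℝ) ≤ p.Ds := by linarith
  have hlen := cell_len_pos I
  obtain ⟨heps, heps0⟩ := s8r_eps hV hp
  have hnice : ∀ Φ ∈ 𝒟.image (M.psi l G), Φ.Nice := by
    intro Φ hΦ
    obtain ⟨m, -, rfl⟩ := Finset.mem_image.1 hΦ
    exact psi_nice hV hp l G m
  have e1 : M.proj l G I 𝒟 (M.Ztil l G U) = M.proj l G I 𝒟 (M.sub l G U I (M.lst l G U)) := by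
    unfold proj Ztil
    rw [← restr_sub hV hp l G U hIU, s8a_cproj_restr _ hnice le_rfl]
  have e2 : M.sub l G U I (M.lst l G U) = M.sub l G U I (M.lst l G U \ 𝒟) + M.sub l G U I 𝒟 := by
    unfold sub
    rw [Finset.sum_sdiff h𝒟]
  have e3 : M.proj l G I 𝒟 (M.sub l G U I 𝒟) = M.sub l G U I 𝒟 := by
    unfold proj
    exact s8a_cproj_of_mem _ _ _ ((s8r_mem_span M l G 𝒟 I _).2 ⟨M.alpha l G U, rfl⟩)
  rw [e1, e2, map_add, e3, add_sub_cancel_right]
  have key := s8h_proj_small (colSpan (𝒟.image (M.psi l G)) I) 𝒟 (M.lst l G U \ 𝒟) (fun m => (M.psi l G m).vec I)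
    (fun m => (M.psi l G m).vec I) (M.alpha l G U) I.len M.epsm ((p.Ds : ℝ) ^ 200)⁻¹ heps0 hlen (by positivity)
    (fun g hg => (s8r_mem_span M l G 𝒟 I g).1 hg) (fun β => s8r_lower hV hp l G 𝒟 I β) hcross
  refine le_trans key ?_
  have hcard : ((𝒟.card : ℕ) : ℝ) ≤ p.Ds := by
    exact_mod_cast (Finset.card_le_card h𝒟).trans (s8r_lst_card hV l hU)
  have hsum : ∑ m' ∈ M.lst l G U \ 𝒟, ‖M.alpha l G U m'‖ ≤ p.Ds :=
    (Finset.sum_le_sum_of_subset_of_nonneg Finset.sdiff_subset fun _ _ _ => norm_nonneg _).trans (hV.alpha_sum l G U hU)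
  have hinv : M.epsm⁻¹ ≤ (p.Ds : ℝ) ^ 2 := by
    rw [inv_le_comm₀ heps0 (by positivity)]
    exact heps
  have hsq : Real.sqrt (I.len * 𝒟.card / M.epsm) ≤ (p.Ds : ℝ) ^ 2 * Real.sqrt I.len := by
    have h1 : I.len * 𝒟.card / M.epsm ≤ ((p.Ds : ℝ) ^ 2) ^ 2 * I.len := by
      rw [div_eq_mul_inv]
      calc I.len * 𝒟.card * M.epsm⁻¹ ≤ I.len * p.Ds * (p.Ds : ℝ) ^ 2 := by
            refine mul_le_mul (mul_le_mul_of_nonneg_left hcard hlen.le) hinv (by positivity) (by positivity)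
        _ ≤ ((p.Ds : ℝ) ^ 2) ^ 2 * I.len := by
            have : (p.Ds : ℝ) * (p.Ds : ℝ) ^ 2 ≤ ((p.Ds : ℝ) ^ 2) ^ 2 := by
              have h3 : (0 : ℝ) ≤ (p.Ds : ℝ) ^ 3 := by positivity
              nlinarith
            nlinarith
    calc Real.sqrt (I.len * 𝒟.card / M.epsm) ≤ Real.sqrt (((p.Ds : ℝ) ^ 2) ^ 2 * I.len) := Real.sqrt_le_sqrt h1
      _ = (p.Ds : ℝ) ^ 2 * Real.sqrt I.len := by
          rw [Real.sqrt_mul (by positivity), Real.sqrt_sq (by positivity)]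
  have hs0 := Real.sqrt_nonneg I.len
  calc ((p.Ds : ℝ) ^ 200)⁻¹ * Real.sqrt (I.len * 𝒟.card / M.epsm) * ∑ m' ∈ M.lst l G U \ 𝒟, ‖M.alpha l G U m'‖
      ≤ ((p.Ds : ℝ) ^ 200)⁻¹ * ((p.Ds : ℝ) ^ 2 * Real.sqrt I.len) * p.Ds := by
        refine mul_le_mul (mul_le_mul_of_nonneg_left hsq (by positivity)) hsum
          (Finset.sum_nonneg fun _ _ => norm_nonneg _) (by positivity)
    _ = (((p.Ds : ℝ) ^ 200)⁻¹ * (p.Ds : ℝ) ^ 3) * Real.sqrt I.len := by ring
    _ ≤ (((p.Ds : ℝ) ^ 200)⁻¹ * (p.Ds : ℝ) ^ 5) * Real.sqrt I.len := by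
        refine mul_le_mul_of_nonneg_right (mul_le_mul_of_nonneg_left ?_ (by positivity)) hs0
        exact pow_le_pow_right₀ hDs1 (by norm_num)
    _ ≤ ((p.Ds : ℝ) ^ 190)⁻¹ * Real.sqrt I.len := mul_le_mul_of_nonneg_right (s8r_num2 _ hDs) hs0

/-- **single-cell two-sided almost orthogonality** of arbitrary coefficient subtotals over separated label sets. -/
theorem cell_orth (hV : M.Valid p G0) (hp : p.Ok d) (l : Fin 4) (G : ℕ) (I : Cell) (parts : Finset (Finset ℕ))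
    (hdisj : ∀ 𝒟 ∈ parts, ∀ 𝒟' ∈ parts, 𝒟 ≠ 𝒟' → Disjoint 𝒟 𝒟') (hcount : ∑ 𝒟 ∈ parts, 𝒟.card ≤ p.Ds)
    (hcross : ∀ 𝒟 ∈ parts, ∀ 𝒟' ∈ parts, 𝒟 ≠ 𝒟' → ∀ m ∈ 𝒟, ∀ m' ∈ 𝒟', M.Cross p l G I m m') (β : ℕ → ℂ) :
    |‖∑ 𝒟 ∈ parts, ∑ m ∈ 𝒟, β m • (M.psi l G m).vec I‖ ^ 2 - ∑ 𝒟 ∈ parts, ‖∑ m ∈ 𝒟, β m • (M.psi l G m).vec I‖ ^ 2|
      ≤ ((p.Ds : ℝ) ^ 190)⁻¹ * ∑ 𝒟 ∈ parts, ‖∑ m ∈ 𝒟, β m • (M.psi l G m).vec I‖ ^ 2 := by
  have hDs := s8r_Ds hp
  have hDs0 : (0 : ℝ) < p.Ds := by linarith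
  have hDs1 : (1 : ℝ) ≤ p.Ds := by linarith
  have hlen := cell_len_pos I
  obtain ⟨heps, heps0⟩ := s8r_eps hV hp
  have hinv : M.epsm⁻¹ ≤ (p.Ds : ℝ) ^ 2 := by
    rw [inv_le_comm₀ heps0 (by positivity)]
    exact heps
  have hparts : parts.card ≤ p.Ds + 1 := by
    have h1 : (parts.erase ∅).card ≤ ∑ 𝒟 ∈ parts.erase ∅, 𝒟.card := by
      rw [Finset.card_eq_sum_ones]
      refine Finset.sum_le_sum fun 𝒟 h𝒟 => ?_
      exact Finset.card_pos.2 (Finset.nonempty_iff_ne_empty.2 (Finset.ne_of_mem_erase h𝒟))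
    have h2 : ∑ 𝒟 ∈ parts.erase ∅, 𝒟.card ≤ ∑ 𝒟 ∈ parts, 𝒟.card :=
      Finset.sum_le_sum_of_subset (Finset.erase_subset _ _)
    have h3 := Finset.pred_card_le_card_erase (s := parts) (a := ∅)
    omega
  have key := s8h_synth (ι := ↥parts) (fun e => e.1) (fun _ m => (M.psi l G m).vec I) (fun _ => I.len) (fun _ _ => I.len)
    M.epsm ((p.Ds : ℝ) ^ 200)⁻¹ p.Ds ((p.Ds : ℝ) + 1) heps0 (by positivity) (by positivity) (fun _ => hlen.le)
    (fun _ _ => hlen.le) (fun _ _ => rfl) (fun e β => s8r_lower hV hp l G e.1 I β)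
    (fun e f hef m hm m' hm' => hcross e.1 e.2 f.1 f.2 (fun h => hef (Subtype.ext h)) m hm m' hm')
    (fun e => by
      have := Finset.single_le_sum (f := fun 𝒟 : Finset ℕ => 𝒟.card) (fun _ _ => Nat.zero_le _) e.2
      exact_mod_cast this.trans hcount)
    (fun e => by
      rw [Finset.sum_const, nsmul_eq_mul, Finset.card_univ, Fintype.card_coe]
      refine mul_le_mul_of_nonneg_right ?_ hlen.le
      exact_mod_cast hparts)
    (fun _ => β)
  rw [Finset.sum_coe_sort parts (fun 𝒟 => ∑ m ∈ 𝒟, β m • (M.psi l G m).vec I),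
    Finset.sum_coe_sort parts (fun 𝒟 => ‖∑ m ∈ 𝒟, β m • (M.psi l G m).vec I‖ ^ 2)] at key
  refine key.trans (mul_le_mul_of_nonneg_right ?_ (Finset.sum_nonneg fun _ _ => by positivity))
  refine le_trans ?_ (s8r_num2 _ hDs)
  rw [div_eq_mul_inv]
  calc ((p.Ds : ℝ) ^ 200)⁻¹ * p.Ds * ((p.Ds : ℝ) + 1) * M.epsm⁻¹
      ≤ ((p.Ds : ℝ) ^ 200)⁻¹ * p.Ds * ((p.Ds : ℝ) ^ 2) * (p.Ds : ℝ) ^ 2 := by
        refine mul_le_mul (mul_le_mul_of_nonneg_left ?_ (by positivity)) hinv (by positivity) (by positivity)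
        nlinarith
    _ = ((p.Ds : ℝ) ^ 200)⁻¹ * (p.Ds : ℝ) ^ 5 := by ring

/-- indexed form of the chain bound -/
theorem s8r_chain_idx {ι : Type*} (T : Finset ι) (c : ι → Cell) (J : Cell) (hc : ∀ f ∈ T, c f ≤ J) (A : ℝ) (hA : 0 ≤ A)
    (h : ∀ g ∈ T, (((T.filter fun f => c g ≤ c f).card : ℕ) : ℝ) ≤ A) : ∑ f ∈ T, (c f).len ≤ A * J.len := by
  have h1 : ∑ f ∈ T, (c f).len = ∑ I ∈ T.image c, I.len * (((T.filter fun f => c f = I).card : ℕ) : ℝ) := by
    rw [← Finset.sum_fiberwise_of_maps_to (s := T) (t := T.image c) (g := c) (fun f hf => Finset.mem_image_of_mem c hf)]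
    refine Finset.sum_congr rfl fun I _ => ?_
    rw [Finset.sum_congr rfl (fun f hf => by rw [(Finset.mem_filter.1 hf).2] : ∀ f ∈ T.filter (fun f => c f = I), (c f).len = I.len),
      Finset.sum_const, nsmul_eq_mul, mul_comm]
  rw [h1]
  refine cell_chain_bound (fun I hI => ?_) _ hA (fun L hL => ?_)
  · obtain ⟨f, hf, rfl⟩ := Finset.mem_image.1 hI
    exact hc f hf
  · obtain ⟨g, hg, rfl⟩ := Finset.mem_image.1 hL
    refine le_trans (le_of_eq ?_) (h g hg)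
    rw [← Nat.cast_sum]
    congr 1
    rw [Finset.card_eq_sum_card_fiberwise (s := T.filter fun f => c g ≤ c f) (t := (T.image c).filter fun I => c g ≤ I) (f := c)
      (fun f hf => by
        have hf' := Finset.mem_filter.1 (Finset.mem_coe.1 hf)
        exact Finset.mem_coe.2 (Finset.mem_filter.2 ⟨Finset.mem_image_of_mem c hf'.1, hf'.2⟩))]
    refine Finset.sum_congr rfl fun I hI => ?_
    congr 1
    ext f
    simp only [Finset.mem_filter]
    constructor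
    · rintro ⟨hf, rfl⟩
      exact ⟨⟨hf, (Finset.mem_filter.1 hI).2⟩, rfl⟩
    · rintro ⟨⟨hf, -⟩, h2⟩
      exact ⟨hf, h2⟩

/-- **Lemma 8.7** (row Bessel bound). -/
theorem sep_rows (hV : M.Valid p G0) (hp : p.Ok d) (l : Fin 4) (G : ℕ) {ι : Type} [Fintype ι] (Je : ι → Cell)
    (Me : ι → Finset ℕ) (hne : ∀ e, (Me e).Nonempty)
    (hcount : ∀ e, ∑ f with Je e ≤ Je f, (Me f).card ≤ p.Ds)
    (hcross : ∀ e f, e ≠ f → Je e ≤ Je f → ∀ m ∈ Me e, ∀ m' ∈ Me f, M.Cross p l G (Je e) m m') (F : XV) :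
    ∑ e, ‖M.proj l G (Je e) (Me e) F‖ ^ 2 ≤ 2 * ‖F‖ ^ 2 := by
  have hDs := s8r_Ds hp
  have hDs0 : (0 : ℝ) < p.Ds := by linarith
  have hDs1 : (1 : ℝ) ≤ p.Ds := by linarith
  obtain ⟨heps, heps0⟩ := s8r_eps hV hp
  have hinv : M.epsm⁻¹ ≤ (p.Ds : ℝ) ^ 2 := by
    rw [inv_le_comm₀ heps0 (by positivity)]
    exact heps
  have hnum : ∀ e, (Finset.univ.filter fun f => Je e ≤ Je f).card ≤ p.Ds := by
    intro e
    refine le_trans ?_ (hcount e)
    rw [Finset.card_eq_sum_ones]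
    exact Finset.sum_le_sum fun f _ => Finset.card_pos.2 (hne f)
  have hcard : ∀ e, (((Me e).card : ℕ) : ℝ) ≤ p.Ds := by
    intro e
    have := Finset.single_le_sum (s := Finset.univ.filter fun f => Je e ≤ Je f) (f := fun f => (Me f).card)
      (fun _ _ => Nat.zero_le _) (Finset.mem_filter.2 ⟨Finset.mem_univ e, le_rfl⟩)
    exact_mod_cast this.trans (hcount e)
  obtain ⟨ov, hov⟩ : ∃ ov : ι → ι → ℝ,
      ov = fun e f => if Je e ≤ Je f then (Je e).len else if Je f ≤ Je e then (Je f).len else 0 := ⟨_, rfl⟩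
  have hov0 : ∀ e f, 0 ≤ ov e f := by
    intro e f
    rw [hov]
    dsimp only
    split_ifs
    exacts [cell_len_nonneg _, cell_len_nonneg _, le_rfl]
  have hovs : ∀ e f, ov e f = ov f e := by
    intro e f
    rw [hov]
    dsimp only
    by_cases h1 : Je e ≤ Je f
    · by_cases h2 : Je f ≤ Je e
      · rw [if_pos h1, if_pos h2, le_antisymm h1 h2]
      · rw [if_pos h1, if_neg h2, if_pos h1]
    · rw [if_neg h1]
      by_cases h2 : Je f ≤ Je e
      · rw [if_pos h2, if_pos h2]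
      · rw [if_neg h2, if_neg h2, if_neg h1]
  have hsum : ∀ e, ∑ f, ov e f ≤ p.Ds * (Je e).len := by
    intro e
    obtain ⟨c, hc⟩ : ∃ c : ι → Cell, c = fun f => if Je e ≤ Je f then Je e else Je f := ⟨_, rfl⟩
    obtain ⟨T, hT⟩ : ∃ T : Finset ι, T = Finset.univ.filter fun f => Je e ≤ Je f ∨ Je f ≤ Je e := ⟨_, rfl⟩
    have h1 : ∑ f, ov e f = ∑ f ∈ T, (c f).len := by
      rw [hT, Finset.sum_filter]
      refine Finset.sum_congr rfl fun f _ => ?_
      rw [hov, hc]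
      dsimp only
      by_cases h1 : Je e ≤ Je f
      · simp [h1]
      · by_cases h2 : Je f ≤ Je e
        · simp [h1, h2]
        · simp [h1, h2]
    rw [h1]
    have hcf : ∀ f, c f ≤ Je f := by
      intro f
      rw [hc]
      dsimp only
      split_ifs with h1
      exacts [h1, le_rfl]
    refine s8r_chain_idx T c (Je e) ?_ _ hDs0.le ?_
    · intro f hf
      rw [hT] at hf
      rw [hc]
      dsimp only
      split_ifs with h1
      · exact le_rfl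
      · exact ((Finset.mem_filter.1 hf).2).resolve_left h1
    · intro g _
      obtain ⟨g', hg'⟩ : ∃ g', c g = Je g' := by
        rw [hc]
        dsimp only
        split_ifs
        exacts [⟨e, rfl⟩, ⟨g, rfl⟩]
      have : (T.filter fun f => c g ≤ c f).card ≤ (Finset.univ.filter fun f => Je g' ≤ Je f).card := by
        refine Finset.card_le_card fun f hf => ?_
        rw [Finset.mem_filter] at hf ⊢
        exact ⟨Finset.mem_univ _, hg' ▸ hf.2.trans (hcf f)⟩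
      exact_mod_cast this.trans (hnum g')
  have hcr : ∀ e f, e ≠ f → ∀ m ∈ Me e, ∀ m' ∈ Me f,
      ‖inner ℂ ((M.psi l G m).vec (Je e)) ((M.psi l G m').vec (Je f))‖ ≤ ((p.Ds : ℝ) ^ 200)⁻¹ * ov e f := by
    intro e f hef m hm m' hm'
    rw [hov]
    dsimp only
    by_cases h1 : Je e ≤ Je f
    · rw [if_pos h1, s8a_inner_vec_of_le _ _ (psi_nice hV hp l G m) (psi_nice hV hp l G m') h1]
      exact hcross e f hef h1 m hm m' hm'
    · rw [if_neg h1]
      by_cases h2 : Je f ≤ Je e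
      · rw [if_pos h2, norm_inner_symm, s8a_inner_vec_of_le _ _ (psi_nice hV hp l G m') (psi_nice hV hp l G m) h2]
        exact hcross f e (Ne.symm hef) h2 m' hm' m hm
      · rw [if_neg h2, s8a_inner_vec_disj _ _ (psi_nice hV hp l G m) (psi_nice hV hp l G m') (cell_disjoint_iff.2 ⟨h1, h2⟩)]
        simp
  have hθ : ((p.Ds : ℝ) ^ 200)⁻¹ * p.Ds * p.Ds / M.epsm ≤ 1 := by
    have h190 : ((p.Ds : ℝ) ^ 190)⁻¹ ≤ 1 := inv_le_one_of_one_le₀ (one_le_pow₀ hDs1)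
    refine le_trans ?_ ((s8r_num2 _ hDs).trans h190)
    rw [div_eq_mul_inv]
    calc ((p.Ds : ℝ) ^ 200)⁻¹ * p.Ds * p.Ds * M.epsm⁻¹
        ≤ ((p.Ds : ℝ) ^ 200)⁻¹ * p.Ds * ((p.Ds : ℝ) ^ 2) * (p.Ds : ℝ) ^ 2 := by
          refine mul_le_mul (mul_le_mul_of_nonneg_left ?_ (by positivity)) hinv (by positivity) (by positivity)
          nlinarith
      _ = ((p.Ds : ℝ) ^ 200)⁻¹ * (p.Ds : ℝ) ^ 5 := by ring
  have hsyn : ∀ f : ι → XV, (∀ e, f e ∈ colSpan ((Me e).image (M.psi l G)) (Je e)) →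
      ‖∑ e, f e‖ ^ 2 ≤ 2 * ∑ e, ‖f e‖ ^ 2 := by
    intro f hf
    choose β hβ using fun e => (s8r_mem_span M l G (Me e) (Je e) (f e)).1 (hf e)
    have key := s8h_synth Me (fun e m => (M.psi l G m).vec (Je e)) (fun e => (Je e).len) ov M.epsm ((p.Ds : ℝ) ^ 200)⁻¹
      p.Ds p.Ds heps0 (by positivity) hDs0.le (fun e => cell_len_nonneg _) hov0 hovs
      (fun e β => s8r_lower hV hp l G (Me e) (Je e) β) hcr hcard hsum β
    simp_rw [← hβ] at key
    have h1 := (abs_le.1 key).2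
    have h2 : 0 ≤ ∑ e, ‖f e‖ ^ 2 := Finset.sum_nonneg fun _ _ => by positivity
    nlinarith
  exact s8h_bessel (fun e => colSpan ((Me e).image (M.psi l G)) (Je e)) 2 (by norm_num) hsyn F

/-- the same for rows coloured with `n` colours such that rows of one colour are separated. -/
theorem sep_rows_col (hV : M.Valid p G0) (hp : p.Ok d) (l : Fin 4) (G : ℕ) {ι : Type} [Fintype ι] (Je : ι → Cell)
    (Me : ι → Finset ℕ) (n : ℕ) (col : ι → ℕ) (hcol : ∀ e, col e < n) (hne : ∀ e, (Me e).Nonempty)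
    (hcount : ∀ e, ∑ f with (col f = col e ∧ Je e ≤ Je f), (Me f).card ≤ p.Ds)
    (hcross : ∀ e f, e ≠ f → col e = col f → Je e ≤ Je f → ∀ m ∈ Me e, ∀ m' ∈ Me f, M.Cross p l G (Je e) m m')
    (F : XV) : ∑ e, ‖M.proj l G (Je e) (Me e) F‖ ^ 2 ≤ 2 * n * ‖F‖ ^ 2 := by
  have h1 : ∀ k, ∑ e with col e = k, ‖M.proj l G (Je e) (Me e) F‖ ^ 2 ≤ 2 * ‖F‖ ^ 2 := by
    intro k
    have key := sep_rows hV hp l G (ι := {e : ι // col e = k}) (fun e => Je e.1) (fun e => Me e.1) (fun e => hne e.1)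
      (fun e => by
        refine le_trans (le_of_eq ?_) (hcount e.1)
        rw [Finset.sum_filter, Finset.sum_filter]
        rw [← Finset.sum_subtype (Finset.univ.filter fun f => col f = k) (fun x => by simp)
          (fun f => if Je e.1 ≤ Je f then (Me f).card else 0), Finset.sum_filter]
        refine Finset.sum_congr rfl fun f _ => ?_
        rw [e.2]
        by_cases h1 : col f = k <;> by_cases h2 : Je e.1 ≤ Je f <;> simp [h1, h2])
      (fun e f hef hle m hm m' hm' =>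
        hcross e.1 f.1 (fun h => hef (Subtype.ext h)) (e.2.trans f.2.symm) hle m hm m' hm') F
    rw [Finset.sum_subtype (p := fun e => col e = k) (Finset.univ.filter fun f => col f = k) (fun x => by simp)
      (fun e => ‖M.proj l G (Je e) (Me e) F‖ ^ 2)]
    exact key
  rw [← Finset.sum_fiberwise_of_maps_to (s := Finset.univ) (t := Finset.range n) (g := col)
    (fun e _ => Finset.mem_range.2 (hcol e))]
  calc ∑ k ∈ Finset.range n, ∑ e with col e = k, ‖M.proj l G (Je e) (Me e) F‖ ^ 2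
      ≤ ∑ _k ∈ Finset.range n, 2 * ‖F‖ ^ 2 := Finset.sum_le_sum fun k _ => h1 k
    _ = 2 * n * ‖F‖ ^ 2 := by
        rw [Finset.sum_const, Finset.card_range, nsmul_eq_mul]; ring

end rows

end ModeSys

end

end Claimed.Agent.R258
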