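/-
Row 258 (S0498), Sec. 8, layer (B).  Architect helper61.  File Side.lean: **Proposition 8.9** (square energy of the linear side) = display (17).
NO paper needed (complete plans below).   Black boxes: S8/{Graph,Ht,Rows}.lean, S8c/{Good,ChainLe,Rank}.lean, CellApi.

An EVENT of the group `G` is a pair `e = (J, 𝓔)`: `J` a retained pre-cell, `𝓔` a minimal PRE component consisting of side modes.

LEAVES (auxiliary lemmas with prefix `s8s_`):
  P-S8-EV-A  = `sideComps_spec`, `sideComps_disj`, `V_eq_sum`, `mem_events`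
  P-S8-EV-B  = `ev_chain`, `ev_levels`
  P-S8-EV-C  = `ev_cross`, `ev_count`, `ev_bessel`
  P-S8-EV-D  = `ev_24`, `ev_len`
  P-S8-17    = `V_le`, `g17`
PLANS.
* `sideComps_spec`: `𝓔 = cE J 0 m₀`, `m₀` a side mode.  `S8cTower.good_congr` on `towerR` (`tower_valid`): `Core` is constant on minimal PRE components, so all members are side modes.  Members of
  `cE` are in the list by definition (`S8cTower.E` is a filter of `lst`).  `cE J 0 m = cE J 0 m₀` for `m ∈ 𝓔` because `conn` is an equivalence.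
* `V_eq_sum`: `sideL J` is the disjoint union of `sideComps J` (`Finset.sum_biUnion` / `Finset.sum_image`-free route: `Finset.sum_fiberwise_of_maps_to`).
* `ev_chain`: `L = [e_0, …, e_{N-1}]`.  `S8cTower.chain_le` for `towerR` with `p i = e_i.1`, `m i ∈ e_i.2` (any member), `δ = δs`, `M = Dm`, `A = Aht d`, `B = 10 d`:
  `hside`: members are side modes.  `hanc`: `e_{i+1}.1 < e_i.1`.  `hfar`: both relative depths are multiples of `K` (`pres_dvd`), the quotients are congruent mod `10` and strictly increasing, so the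
  depth increases by `≥ 10 K ≥ 3K`: `cur_far`.  `hlink`: a common mode `a`: `conn (thrPre) J_i 0 (m i) a` persists to `J_{i+1}` (`conn_mono`, `lstJ_mono`), `conn (thrPre) J_{i+1} 0 (m (i+1)) a`.
  `hM`: `hV.prim_count` + `pres_cert`.  `hB`: `exc_count` (the cells are strictly decreasing along the whole list: transitivity).  `hA`: `hbad_count`.  `hJbig`: `hp.Js_big`.
* `ev_levels`: `s8c_levels` on the finite type `{e // e ∈ events}` with `time e = s8Rel root e.1`, `N = ⌊N0⌋₊`.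
* `ev_cross`: `J = e.1 ≤ J' = e'.1`.  `m' ∈ lstJ J' ⊆ lstJ J`.  If `conn (thrPre J) J 0 m m'` then `m' ∈ cE J 0 m = e.2`; if `J = J'` this contradicts `sideComps_disj` (`e.2 ≠ e'.2`), if `J < J'` it contradicts
  the disjointness coming from `¬ evLink e' e`.  So `¬ conn`; `pair_small_pre`.
* `ev_count`: the label sets of the events `f` of one colour above `e` are pairwise disjoint (same argument) subsets of `lstJ e.1`; `Finset.card_biUnion`, `lstJ_card`.
* `ev_bessel`: `sep_rows_col` with `ι = {e // e ∈ events}`, `n = 10 ⌊N0⌋₊`, `col e = evCls e + 10 * lev e`.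
* `ev_24`: `hV.rows` with `ι = {x : ℕ × Cell × Finset ℕ // x.1 ∈ grps ∧ x.2 ∈ events x.1}`, `Ge = x.1`, `Ue = x.2.1.anc (2K)` (`pres_cert`), `Te = proj l x.1 x.2.1 x.2.2`
  (locality: `s8a_cproj_restr`, `J ≤ J.anc (2K)`), `Bz = 20 ⌊N0⌋₊` (`ev_bessel`).  Rewrite the sums over the subtype as iterated sums (`Finset.sum_sigma'`, `Finset.sum_coe_sort`).
* `ev_len`: `cell_chain_bound` for the finset of all event cells with the weight `a J` = number of pairs `(G, e)` with `e.1 = J`: along a chain above an event cell `L` the pairs of one colour have pairwise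
  disjoint nonempty label sets inside `⋃_G lst l G (L.anc (2K))`, whose total cardinality is `≤ Ds` (`hV.lst_count`, `hV.lst_inj`/per group): at most `10 ⌊N0⌋₊ Ds` pairs.
* `V_le`: `cell_orth` (parts `= sideComps J`, `β = alpha`, cross by `pair_small_pre`): `‖V‖² ≤ 2 ∑_𝓔 ‖sub 𝓔‖²`; `proj_sub` (`U = J.anc (2K)`, `I = J`): `‖sub 𝓔‖ ≤ ‖proj 𝓔 Ztil‖ + Ds^(-190) √|J|`;
  `(a+b)² ≤ 2a² + 2b²`.
* `g17`: sum `V_le` over `J ∈ pres G`, `G ∈ grps`; the double sum over `J` and `𝓔 ∈ sideComps J` is the sum over `events`; `ev_24`, `ev_len`: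
  `≤ 4 G0 20 N |R| + 4 Ds^(-380) 10 N Ds |R| ≤ (80 G0 + 1) N |R|`, `N = ⌊N0⌋₊ ≤ N0`.
-/
import Claimed.Agent.R258.S8.Ht
import Claimed.Agent.R258.S8.Rows
import Claimed.Agent.R258.S8c.Good
import Claimed.Agent.R258.S8c.ChainLe

set_option autoImplicit false
open MeasureTheory

namespace Claimed.Agent.R258

open scoped BigOperators
open Classical

noncomputable section

namespace ModeSys

variable {d : ℕ}

/-- minimal PRE components of side modes on the pre-cell `J` -/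
def sideComps (M : ModeSys d) (p : S8Par) (l : Fin 4) (G : ℕ) (J : Cell) : Finset (Finset ℕ) :=
  (M.sideL p l G J).image fun m => M.cE p l G J 0 m

/-- the events of the group `G` -/
def events (M : ModeSys d) (p : S8Par) (l : Fin 4) (G : ℕ) : Finset (Cell × Finset ℕ) :=
  (M.pres p G).biUnion fun J => (M.sideComps p l G J).image fun 𝓔 => (J, 𝓔)

/-- congruence class mod `10` of the block index -/
def evCls (M : ModeSys d) (p : S8Par) (e : Cell × Finset ℕ) : ℕ := (s8Rel M.root e.1 / p.K) % 10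

/-- `e` links to the later event `e'` -/
def evLink (M : ModeSys d) (p : S8Par) (e e' : Cell × Finset ℕ) : Prop :=
  e'.1 < e.1 ∧ M.evCls p e = M.evCls p e' ∧ ¬ Disjoint e.2 e'.2

variable {M : ModeSys d} {p : S8Par} {G0 : ℝ}

theorem s8s_mem_cE {l : Fin 4} {G : ℕ} {J : Cell} {h m a : ℕ} :
    a ∈ M.cE p l G J h m ↔ a ∈ M.lstJ p l G J ∧ M.conn p l G (p.thrPre J) J h m a :=
  S8cTower.s8c_mem_E

theorem s8s_mem_sideL {l : Fin 4} {G : ℕ} {J : Cell} {m : ℕ} :
    m ∈ M.sideL p l G J ↔ m ∈ M.lstJ p l G J ∧ ¬ M.core p l G J m := by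
  unfold sideL
  rw [Finset.mem_filter]

theorem s8s_cE_congr {l : Fin 4} {G : ℕ} {J : Cell} {h m m' : ℕ} (hc : M.conn p l G (p.thrPre J) J h m m') :
    M.cE p l G J h m = M.cE p l G J h m' := by
  ext a
  rw [s8s_mem_cE, s8s_mem_cE]
  exact and_congr_right fun _ => ⟨fun h1 => conn_equiv.trans (conn_equiv.symm hc) h1, fun h1 => conn_equiv.trans hc h1⟩

theorem s8s_core_congr (hV : M.Valid p G0) (hp : p.Ok d) {l : Fin 4} {G : ℕ} {J : Cell} (hJ : J ∈ M.pres p G) {m m' : ℕ}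
    (hc : M.conn p l G (p.thrPre J) J 0 m m') : M.core p l G J m ↔ M.core p l G J m' :=
  (S8cTower.good_congr (tower_valid hV hp l G) ⟨J, hJ⟩ m m' hc).2 p.δs

theorem sideComps_spec (hV : M.Valid p G0) (hp : p.Ok d) {l : Fin 4} {G : ℕ} {J : Cell} (hJ : J ∈ M.pres p G)
    {𝓔 : Finset ℕ} (h𝓔 : 𝓔 ∈ M.sideComps p l G J) :
    𝓔.Nonempty ∧ 𝓔 ⊆ M.sideL p l G J ∧ ∀ m ∈ 𝓔, M.cE p l G J 0 m = 𝓔 := by
  unfold sideComps at h𝓔
  obtain ⟨m₀, hm₀, rfl⟩ := Finset.mem_image.1 h𝓔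
  rw [s8s_mem_sideL] at hm₀
  refine ⟨⟨m₀, s8s_mem_cE.2 ⟨hm₀.1, conn_equiv.refl _⟩⟩, fun a ha => ?_, fun a ha => ?_⟩
  · rw [s8s_mem_cE] at ha
    exact s8s_mem_sideL.2 ⟨ha.1, fun hcore => hm₀.2 ((s8s_core_congr hV hp hJ ha.2).2 hcore)⟩
  · rw [s8s_mem_cE] at ha
    exact (s8s_cE_congr ha.2).symm

theorem sideComps_disj (hV : M.Valid p G0) (hp : p.Ok d) {l : Fin 4} {G : ℕ} {J : Cell} (hJ : J ∈ M.pres p G)
    {𝓔 𝓔' : Finset ℕ} (h𝓔 : 𝓔 ∈ M.sideComps p l G J) (h𝓔' : 𝓔' ∈ M.sideComps p l G J) (hne : 𝓔 ≠ 𝓔') :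
    Disjoint 𝓔 𝓔' := by
  rw [Finset.disjoint_left]
  intro a ha ha'
  exact hne (((sideComps_spec hV hp hJ h𝓔).2.2 a ha).symm.trans ((sideComps_spec hV hp hJ h𝓔').2.2 a ha'))

theorem V_eq_sum (hV : M.Valid p G0) (hp : p.Ok d) {l : Fin 4} {G : ℕ} {J : Cell} (hJ : J ∈ M.pres p G) :
    M.V p l G J = ∑ 𝓔 ∈ M.sideComps p l G J, M.sub l G (J.anc (2 * p.K)) J 𝓔 := by
  unfold V sub
  rw [← Finset.sum_fiberwise_of_maps_to (s := M.sideL p l G J) (t := M.sideComps p l G J)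
    (g := fun m => M.cE p l G J 0 m) (fun m hm => Finset.mem_image_of_mem _ hm)]
  refine Finset.sum_congr rfl fun 𝓔 h𝓔 => ?_
  obtain ⟨-, hsub, hcE⟩ := sideComps_spec hV hp hJ h𝓔
  refine Finset.sum_congr ?_ fun _ _ => rfl
  ext a
  rw [Finset.mem_filter]
  constructor
  · rintro ⟨ha, rfl⟩
    exact s8s_mem_cE.2 ⟨(s8s_mem_sideL.1 ha).1, conn_equiv.refl _⟩
  · exact fun ha => ⟨hsub ha, hcE a ha⟩

theorem mem_events {l : Fin 4} {G : ℕ} {e : Cell × Finset ℕ} :
    e ∈ M.events p l G ↔ e.1 ∈ M.pres p G ∧ e.2 ∈ M.sideComps p l G e.1 := by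
  unfold events
  rw [Finset.mem_biUnion]
  constructor
  · rintro ⟨J, hJ, he⟩
    obtain ⟨𝓔, h𝓔, rfl⟩ := Finset.mem_image.1 he
    exact ⟨hJ, h𝓔⟩
  · rintro ⟨h1, h2⟩
    exact ⟨e.1, h1, Finset.mem_image.2 ⟨e.2, h2, rfl⟩⟩


/-- a link increases the depth by at least `10 K`. -/
theorem s8s_link_depth (hp : p.Ok d) {l : Fin 4} {G : ℕ} {e e' : Cell × Finset ℕ} (he : e ∈ M.events p l G)
    (he' : e' ∈ M.events p l G) (hl : M.evLink p e e') : e.1.depth + 3 * p.K ≤ e'.1.depth := by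
  obtain ⟨hlt, hcls, -⟩ := hl
  have hK := hp.K_pos
  have h1 := (mem_events.1 he).1
  have h2 := (mem_events.1 he').1
  obtain ⟨q, hq⟩ := pres_dvd hK h1
  obtain ⟨q', hq'⟩ := pres_dvd hK h2
  have e1 := s8g_depth_eq (pres_le hK h1)
  have e2 := s8g_depth_eq (pres_le hK h2)
  have hd := cell_depth_lt_of_lt hlt
  unfold evCls at hcls
  rw [hq, hq', Nat.mul_div_cancel_left _ hK, Nat.mul_div_cancel_left _ hK] at hcls
  have hrr : s8Rel M.root e.1 < s8Rel M.root e'.1 := by omega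
  have hqq : q < q' := by
    rw [hq, hq'] at hrr
    exact lt_of_mul_lt_mul_left hrr (Nat.zero_le _)
  have h10 : q + 10 ≤ q' := by omega
  have h3 : s8Rel M.root e.1 + 10 * p.K ≤ s8Rel M.root e'.1 := by
    rw [hq, hq']
    calc p.K * q + 10 * p.K = p.K * (q + 10) := by ring
      _ ≤ p.K * q' := Nat.mul_le_mul_left _ h10
  omega

theorem s8s_N0_nn (hp : p.Ok d) : 0 ≤ p.N0 d := by
  unfold S8Par.N0
  have h1 := hp.δ_pos
  have h2 : (0 : ℝ) ≤ (harmonic p.Dm : ℝ) := by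
    have : (0 : ℚ) ≤ harmonic p.Dm := by
      unfold harmonic
      exact Finset.sum_nonneg fun i _ => by positivity
    exact_mod_cast this
  positivity

/-- **the chain bound of Prop. 8.9.** -/
theorem ev_chain (hV : M.Valid p G0) (hp : p.Ok d) (l : Fin 4) (G : ℕ) (L : List (Cell × Finset ℕ))
    (hL : ∀ e ∈ L, e ∈ M.events p l G) (hc : L.IsChain (M.evLink p)) : (L.length : ℝ) ≤ p.N0 d := by
  have hK := hp.K_pos
  rcases hLe : L with _ | ⟨e₀, L'⟩
  · simpa using s8s_N0_nn hp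
  rw [← hLe]
  have he₀ : e₀ ∈ L := by rw [hLe]; exact List.mem_cons_self
  obtain ⟨ev, hevdef⟩ : ∃ ev : ℕ → Cell × Finset ℕ, ∀ i, ev i = L.getD i e₀ := ⟨_, fun _ => rfl⟩
  have hevlt : ∀ i (hi : i < L.length), ev i = L[i] := fun i hi => by
    rw [hevdef, List.getD_eq_getElem _ _ hi]
  have hevL : ∀ i, ev i ∈ L := by
    intro i
    by_cases hi : i < L.length
    · rw [hevlt i hi]; exact List.getElem_mem hi
    · rw [hevdef, List.getD_eq_default _ _ (not_lt.1 hi)]; exact he₀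
  have hevE : ∀ i, ev i ∈ M.events p l G := fun i => hL _ (hevL i)
  have hpres : ∀ i, (ev i).1 ∈ M.pres p G := fun i => (mem_events.1 (hevE i)).1
  have hspec : ∀ i, (ev i).2.Nonempty ∧ (ev i).2 ⊆ M.sideL p l G (ev i).1 ∧
      ∀ m ∈ (ev i).2, M.cE p l G (ev i).1 0 m = (ev i).2 :=
    fun i => sideComps_spec hV hp (hpres i) (mem_events.1 (hevE i)).2
  have hlink : ∀ i, i + 1 < L.length → M.evLink p (ev i) (ev (i + 1)) := by
    intro i hi
    rw [hevlt i (by omega), hevlt (i + 1) hi]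
    exact hc.getElem i hi
  choose mm hmm using fun i => (hspec i).1
  have hside : ∀ i, mm i ∈ M.sideL p l G (ev i).1 := fun i => (hspec i).2.1 (hmm i)
  have hmono : ∀ i j, i < j → j < L.length → (ev j).1 < (ev i).1 := by
    intro i j hij
    induction j, hij using Nat.le_induction with
    | base => exact fun hj => (hlink i hj).1
    | succ k hk ih => exact fun hj => lt_trans (hlink k hj).1 (ih (by omega))
  have hJs : 10 ≤ p.Js := by
    have h1 := hp.Js_big'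
    have h2 := hp.δ_le
    have h3 := hp.δ_pos
    have h4 : (2048 : ℝ) ≤ 2 / p.δs := by
      rw [le_div_iff₀ h3]
      nlinarith
    have : (10 : ℝ) ≤ (p.Js : ℝ) := by linarith
    exact_mod_cast this
  have key := S8cTower.chain_le (tower_valid hV hp l G) hJs p.δs hp.δ_pos L.length p.Dm (p.Aht d) (10 * d)
    (fun i => ⟨(ev i).1, hpres i⟩) mm
    (fun i _ => (s8s_mem_sideL.1 (hside i)).1)
    (fun i _ => (s8s_mem_sideL.1 (hside i)).2)
    (fun i hi => (hlink i hi).1.le)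
    (fun i hi h a a' _ _ hcur =>
      cur_far hV hp (hpres i) (hlink i hi).1.le (s8s_link_depth hp (hevE i) (hevE (i + 1)) (hlink i hi)) hcur)
    (by
      intro i hi
      obtain ⟨a, ha, ha'⟩ := Finset.not_disjoint_iff.1 (hlink i hi).2.2
      rw [← (hspec i).2.2 _ (hmm i), s8s_mem_cE] at ha
      rw [← (hspec (i + 1)).2.2 _ (hmm (i + 1)), s8s_mem_cE] at ha'
      have hle := (hlink i hi).1.le
      have h1 : M.conn p l G (p.thrPre (ev (i + 1)).1) (ev (i + 1)).1 0 (mm i) a :=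
        conn_mono hp.stab.A0_ge (lstJ_mono hV hK l (hpres i) hle) hle (s8g_thrPre_mono p hle) le_rfl ha.2
      exact conn_equiv.trans h1 (conn_equiv.symm ha'.2))
    (fun i _ => by
      have := hV.prim_count l G _ (pres_cert hK (hpres i))
      convert this <;> rfl)
    (fun a => by
      have := exc_count hV hp l L.length (fun i => (ev i).1) (fun i _ => hpres i) hmono a
      convert this <;> rfl)
    (fun i _ a => by
      have := hbad_count hV hp l (hpres i) a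
      convert this <;> rfl)
    (by simpa using hp.Js_big)
  unfold S8Par.N0
  exact key

/-- longest-chain levels -/
theorem ev_levels (hV : M.Valid p G0) (hp : p.Ok d) (l : Fin 4) (G : ℕ) :
    ∃ lev : Cell × Finset ℕ → ℕ, (∀ e ∈ M.events p l G, lev e < ⌊p.N0 d⌋₊) ∧
      ∀ e ∈ M.events p l G, ∀ e' ∈ M.events p l G, M.evLink p e e' → lev e ≠ lev e' := by
  have hK := hp.K_pos
  obtain ⟨lev, h1, h2⟩ := s8c_levels (Ev := {e // e ∈ M.events p l G}) (fun e e' => M.evLink p e.1 e'.1)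
    (fun e => s8Rel M.root e.1.1)
    (by
      intro e e' hl
      have e1 := s8g_depth_eq (pres_le hK (mem_events.1 e.2).1)
      have e2 := s8g_depth_eq (pres_le hK (mem_events.1 e'.2).1)
      have hd := cell_depth_lt_of_lt hl.1
      show s8Rel M.root e.1.1 < s8Rel M.root e'.1.1
      omega)
    ⌊p.N0 d⌋₊
    (by
      intro L hL
      refine Nat.le_floor ?_
      have := ev_chain hV hp l G (L.map Subtype.val)
        (by
          intro e he
          obtain ⟨e', -, rfl⟩ := List.mem_map.1 he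
          exact e'.2)
        ((List.isChain_map _).2 hL)
      simpa using this)
  refine ⟨fun e => if h : e ∈ M.events p l G then lev ⟨e, h⟩ else 0, fun e he => ?_, fun e he e' he' hl => ?_⟩
  · simp only [he, dif_pos]
    exact h1 _
  · simp only [he, he', dif_pos]
    exact (h2 ⟨e, he⟩ ⟨e', he'⟩ hl).ne

/-- unlinked events of one class are separated -/
theorem ev_cross (hV : M.Valid p G0) (hp : p.Ok d) {l : Fin 4} {G : ℕ} {e e' : Cell × Finset ℕ}
    (he : e ∈ M.events p l G) (he' : e' ∈ M.events p l G) (hne : e ≠ e') (hle : e.1 ≤ e'.1)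
    (hnl : ¬ M.evLink p e' e) (hcl : M.evCls p e = M.evCls p e') :
    Disjoint e.2 e'.2 ∧ ∀ m ∈ e.2, ∀ m' ∈ e'.2, M.Cross p l G e.1 m m' := by
  have hK := hp.K_pos
  obtain ⟨h1, h2⟩ := mem_events.1 he
  obtain ⟨h1', h2'⟩ := mem_events.1 he'
  have hdisj : Disjoint e.2 e'.2 := by
    rcases eq_or_lt_of_le hle with heq | hlt
    · have hne2 : e.2 ≠ e'.2 := fun h => hne (Prod.ext heq h)
      rw [← heq] at h2'
      exact sideComps_disj hV hp h1 h2 h2' hne2
    · by_contra hcon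
      exact hnl ⟨hlt, hcl.symm, fun h => hcon h.symm⟩
  refine ⟨hdisj, fun m hm m' hm' => ?_⟩
  obtain ⟨-, hsub, hcE⟩ := sideComps_spec hV hp h1 h2
  obtain ⟨-, hsub', -⟩ := sideComps_spec hV hp h1' h2'
  have hml : m ∈ M.lstJ p l G e.1 := (s8s_mem_sideL.1 (hsub hm)).1
  have hml' : m' ∈ M.lstJ p l G e.1 := lstJ_mono hV hK l h1' hle (s8s_mem_sideL.1 (hsub' hm')).1
  refine pair_small_pre hV hp h1 (h := 0) hml hml' fun hconn => ?_
  have : m' ∈ e.2 := by
    rw [← hcE m hm]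
    exact s8s_mem_cE.2 ⟨hml', hconn⟩
  exact Finset.disjoint_left.1 hdisj this hm'

theorem ev_count (hV : M.Valid p G0) (hp : p.Ok d) {l : Fin 4} {G : ℕ} (S : Finset (Cell × Finset ℕ))
    (hS : S ⊆ M.events p l G) (hsep : ∀ f ∈ S, ∀ f' ∈ S, f ≠ f' → Disjoint f.2 f'.2) {J : Cell} (hJ : J ∈ M.pres p G)
    (hab : ∀ f ∈ S, J ≤ f.1) : ∑ f ∈ S, f.2.card ≤ (M.lstJ p l G J).card := by
  rw [← Finset.card_biUnion (fun f hf f' hf' hne => hsep f hf f' hf' hne)]
  refine Finset.card_le_card ?_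
  intro a ha
  obtain ⟨f, hf, haf⟩ := Finset.mem_biUnion.1 ha
  obtain ⟨h1, h2⟩ := mem_events.1 (hS hf)
  exact lstJ_mono hV hp.K_pos l h1 (hab f hf) (s8s_mem_sideL.1 ((sideComps_spec hV hp h1 h2).2.1 haf)).1

/-- events of one colour (class and level) above a common cell have disjoint label sets -/
theorem s8s_col_sep (hV : M.Valid p G0) (hp : p.Ok d) {l : Fin 4} {G : ℕ} {lev : Cell × Finset ℕ → ℕ}
    (hlev : ∀ e ∈ M.events p l G, ∀ e' ∈ M.events p l G, M.evLink p e e' → lev e ≠ lev e')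
    {f f' : Cell × Finset ℕ} (hf : f ∈ M.events p l G) (hf' : f' ∈ M.events p l G) (hne : f ≠ f')
    (hcl : M.evCls p f = M.evCls p f') (hlv : lev f = lev f') (hle : f.1 ≤ f'.1) :
    Disjoint f.2 f'.2 ∧ ∀ m ∈ f.2, ∀ m' ∈ f'.2, M.Cross p l G f.1 m m' :=
  ev_cross hV hp hf hf' hne hle (fun hl => hlev f' hf' f hf hl hlv.symm) hcl

theorem s8s_col_inj {a b a' b' : ℕ} (ha : a < 10) (ha' : a' < 10) (h : a + 10 * b = a' + 10 * b') : a = a' ∧ b = b' := by
  omega

/-- the event rows of one group are Bessel -/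
theorem ev_bessel (hV : M.Valid p G0) (hp : p.Ok d) (l : Fin 4) (G : ℕ) (F : XV) :
    ∑ e ∈ M.events p l G, ‖M.proj l G e.1 e.2 F‖ ^ 2 ≤ 20 * (⌊p.N0 d⌋₊ : ℝ) * ‖F‖ ^ 2 := by
  obtain ⟨lev, hlev1, hlev2⟩ := ev_levels hV hp l G
  have hcls : ∀ e, M.evCls p e < 10 := fun e => Nat.mod_lt _ (by norm_num)
  have key := sep_rows_col hV hp l G (ι := {e // e ∈ M.events p l G}) (fun e => e.1.1) (fun e => e.1.2)
    (10 * ⌊p.N0 d⌋₊) (fun e => M.evCls p e.1 + 10 * lev e.1)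
    (by
      intro e
      have h1 := hcls e.1
      have h2 := hlev1 e.1 e.2
      show M.evCls p e.1 + 10 * lev e.1 < 10 * ⌊p.N0 d⌋₊
      omega)
    (fun e => (sideComps_spec hV hp (mem_events.1 e.2).1 (mem_events.1 e.2).2).1)
    (by
      intro e
      have hJ := (mem_events.1 e.2).1
      refine le_trans ?_ (lstJ_card hV hp.K_pos l hJ)
      have h1 := ev_count hV hp (l := l) (G := G)
        ((Finset.univ.filter fun f : {e // e ∈ M.events p l G} =>
          (M.evCls p f.1 + 10 * lev f.1 = M.evCls p e.1 + 10 * lev e.1 ∧ e.1.1 ≤ f.1.1)).image Subtype.val)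
        (by
          intro f hf
          obtain ⟨f', -, rfl⟩ := Finset.mem_image.1 hf
          exact f'.2)
        (by
          intro f hf f' hf' hne
          obtain ⟨g, hg, rfl⟩ := Finset.mem_image.1 hf
          obtain ⟨g', hg', rfl⟩ := Finset.mem_image.1 hf'
          obtain ⟨-, hc1, ha1⟩ := Finset.mem_filter.1 hg
          obtain ⟨-, hc2, ha2⟩ := Finset.mem_filter.1 hg'
          obtain ⟨q1, q2⟩ := s8s_col_inj (hcls _) (hcls _) (hc1.trans hc2.symm)
          rcases cell_chain ha1 ha2 with hle | hle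
          · exact (s8s_col_sep hV hp hlev2 g.2 g'.2 hne q1 q2 hle).1
          · exact (s8s_col_sep hV hp hlev2 g'.2 g.2 hne.symm q1.symm q2.symm hle).1.symm)
        hJ
        (by
          intro f hf
          obtain ⟨g, hg, rfl⟩ := Finset.mem_image.1 hf
          exact (Finset.mem_filter.1 hg).2.2)
      rw [Finset.sum_image (fun a _ b _ hab => Subtype.ext hab)] at h1
      exact h1)
    (by
      intro e f hne hcol hle m hm m' hm'
      obtain ⟨q1, q2⟩ := s8s_col_inj (hcls _) (hcls _) hcol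
      exact (s8s_col_sep hV hp hlev2 e.2 f.2 (fun h => hne (Subtype.ext h)) q1 q2 hle).2 m hm m' hm')
    F
  rw [← Finset.sum_coe_sort (M.events p l G) (fun e => ‖M.proj l G e.1 e.2 F‖ ^ 2)]
  refine key.trans (le_of_eq ?_)
  push_cast
  ring

/-- **display (24).** -/
theorem ev_24 (hV : M.Valid p G0) (hp : p.Ok d) (l : Fin 4) (hl : M.isB l = true) :
    ∑ G ∈ M.grps, ∑ e ∈ M.events p l G, ‖M.proj l G e.1 e.2 (M.Ztil l G (e.1.anc (2 * p.K)))‖ ^ 2
      ≤ G0 * (20 * (⌊p.N0 d⌋₊ : ℝ)) * M.root.len := by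
  set S : Finset ((_ : ℕ) × (Cell × Finset ℕ)) := M.grps.sigma fun G => M.events p l G with hS
  have key := hV.rows l hl (↥S) (fun x => x.1.1) (fun x => x.1.2.1.anc (2 * p.K))
    (fun x => M.proj l x.1.1 x.1.2.1 x.1.2.2) (20 * (⌊p.N0 d⌋₊ : ℝ)) (by positivity)
    (fun x => by
      have hx := Finset.mem_sigma.1 x.2
      exact pres_cert hp.K_pos (mem_events.1 hx.2).1)
    (fun x F => by
      exact xv_cproj_restr_le _ (cell_le_anc _ _) F)
    (fun G F => by
      rw [Finset.sum_filter,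
        Finset.sum_coe_sort S (fun x => if x.1 = G then ‖M.proj l x.1 x.2.1 x.2.2 F‖ ^ 2 else 0), hS,
        Finset.sum_sigma]
      have h1 : ∀ G' ∈ M.grps, (∑ e ∈ M.events p l G', if G' = G then ‖M.proj l G' e.1 e.2 F‖ ^ 2 else 0)
          = if G' = G then ∑ e ∈ M.events p l G, ‖M.proj l G e.1 e.2 F‖ ^ 2 else 0 := by
        intro G' _
        split_ifs with h
        · subst h; rfl
        · simp
      rw [Finset.sum_congr rfl h1, Finset.sum_ite_eq']
      split_ifs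
      · exact ev_bessel hV hp l G F
      · positivity)
  rw [Finset.sum_coe_sort S (fun x => ‖M.proj l x.1 x.2.1 x.2.2 (M.Ztil l x.1 (x.2.1.anc (2 * p.K)))‖ ^ 2), hS,
    Finset.sum_sigma] at key
  exact key

/-- events of one group and one colour above a cell `L`: the number is at most the cardinality of the list frozen at `L.anc (2K)` -/
theorem s8s_colour_count (hV : M.Valid p G0) (hp : p.Ok d) (l : Fin 4) (G : ℕ) (lev : Cell × Finset ℕ → ℕ)
    (hlev : ∀ e ∈ M.events p l G, ∀ e' ∈ M.events p l G, M.evLink p e e' → lev e ≠ lev e') (L : Cell) (c : ℕ × ℕ) :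
    ((M.events p l G).filter fun e => L ≤ e.1 ∧ (M.evCls p e, lev e) = c).card ≤ (M.lst l G (L.anc (2 * p.K))).card := by
  set T := (M.events p l G).filter fun e => L ≤ e.1 ∧ (M.evCls p e, lev e) = c with hT
  have hmem : ∀ e ∈ T, e ∈ M.events p l G ∧ L ≤ e.1 ∧ M.evCls p e = c.1 ∧ lev e = c.2 := by
    intro e he
    obtain ⟨h1, h2, h3⟩ := Finset.mem_filter.1 he
    exact ⟨h1, h2, by rw [← h3], by rw [← h3]⟩
  have hdisj : ∀ e ∈ T, ∀ e' ∈ T, e ≠ e' → Disjoint e.2 e'.2 := by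
    have aux : ∀ e ∈ T, ∀ e' ∈ T, e ≠ e' → e.1 ≤ e'.1 → Disjoint e.2 e'.2 := by
      intro e he e' he' hne hle
      obtain ⟨h1, _, h3, h4⟩ := hmem e he
      obtain ⟨h1', _, h3', h4'⟩ := hmem e' he'
      refine (ev_cross hV hp h1 h1' hne hle (fun hl => ?_) (by rw [h3, h3'])).1
      exact hlev e' h1' e h1 hl (by rw [h4, h4'])
    intro e he e' he' hne
    rcases cell_chain (hmem e he).2.1 (hmem e' he').2.1 with h | h
    · exact aux e he e' he' hne h
    · exact (aux e' he' e he hne.symm h).symm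
  have hspec : ∀ e ∈ T, e.2.Nonempty ∧ e.2 ⊆ M.lst l G (L.anc (2 * p.K)) := by
    intro e he
    obtain ⟨h1, h2, _, _⟩ := hmem e he
    obtain ⟨h5, h6⟩ := mem_events.1 h1
    obtain ⟨h7, h8, _⟩ := sideComps_spec hV hp h5 h6
    refine ⟨h7, fun m hm => ?_⟩
    have h9 : m ∈ M.lstJ p l G e.1 := (Finset.mem_filter.1 (h8 hm)).1
    exact hV.lst_mono l G _ _ (pres_cert hp.K_pos h5).1 (cell_anc_mono h2 _) h9
  calc T.card = ∑ e ∈ T, 1 := by simp
    _ ≤ ∑ e ∈ T, e.2.card := Finset.sum_le_sum fun e he => (hspec e he).1.card_pos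
    _ = (T.biUnion fun e => e.2).card := (Finset.card_biUnion hdisj).symm
    _ ≤ _ := Finset.card_le_card (Finset.biUnion_subset.2 fun e he => (hspec e he).2)

/-- total length of the event cells -/
theorem ev_len (hV : M.Valid p G0) (hp : p.Ok d) (l : Fin 4) :
    ∑ G ∈ M.grps, ∑ e ∈ M.events p l G, e.1.len ≤ 10 * (⌊p.N0 d⌋₊ : ℝ) * p.Ds * M.root.len := by
  choose lev hlev1 hlev2 using fun G => ev_levels hV hp l G
  set N := ⌊p.N0 d⌋₊ with hN
  set S : Finset Cell := M.grps.biUnion fun G => (M.events p l G).image fun e => e.1 with hS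
  have hmemS : ∀ G ∈ M.grps, ∀ e ∈ M.events p l G, e.1 ∈ S := fun G hG e he =>
    Finset.mem_biUnion.2 ⟨G, hG, Finset.mem_image_of_mem _ he⟩
  set a : Cell → ℝ := fun I => ∑ G ∈ M.grps, ∑ e ∈ M.events p l G, (if e.1 = I then 1 else 0 : ℝ) with ha
  have h1 : ∑ G ∈ M.grps, ∑ e ∈ M.events p l G, e.1.len = ∑ I ∈ S, I.len * a I := by
    simp only [ha, Finset.mul_sum]
    rw [Finset.sum_comm]
    refine Finset.sum_congr rfl fun G hG => ?_
    rw [Finset.sum_comm]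
    refine Finset.sum_congr rfl fun e he => ?_
    simp only [mul_ite, mul_one, mul_zero]
    rw [Finset.sum_ite_eq, if_pos (hmemS G hG e he)]
  rw [h1]
  refine cell_chain_bound (fun I hI => ?_) a (by positivity) fun L hL => ?_
  · obtain ⟨G, _, hI⟩ := Finset.mem_biUnion.1 hI
    obtain ⟨e, he, rfl⟩ := Finset.mem_image.1 hI
    exact pres_le hp.K_pos (mem_events.1 he).1
  · -- the number of pairs above `L`
    have h2 : ∑ I ∈ S.filter (fun I => L ≤ I), a I
        = ∑ G ∈ M.grps, (((M.events p l G).filter fun e => L ≤ e.1).card : ℝ) := by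
      simp only [ha]
      rw [Finset.sum_comm]
      refine Finset.sum_congr rfl fun G hG => ?_
      rw [Finset.sum_comm, Finset.card_filter]
      push_cast
      refine Finset.sum_congr rfl fun e he => ?_
      rw [Finset.sum_ite_eq]
      simp only [Finset.mem_filter, hmemS G hG e he, true_and]
    have hcert : M.certAny (L.anc (2 * p.K)) := by
      obtain ⟨G, _, hI⟩ := Finset.mem_biUnion.1 hL
      obtain ⟨e, he, rfl⟩ := Finset.mem_image.1 hI
      obtain ⟨h3, u, hu, _, h4⟩ := pres_cert hp.K_pos (mem_events.1 he).1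
      exact ⟨h3, u, hu, h4⟩
    have h3 : ∀ G ∈ M.grps, ((M.events p l G).filter fun e => L ≤ e.1).card
        = ∑ c ∈ Finset.range 10 ×ˢ Finset.range N,
            ((M.events p l G).filter fun e => L ≤ e.1 ∧ (M.evCls p e, lev G e) = c).card := by
      intro G _
      rw [Finset.card_eq_sum_card_fiberwise (f := fun e => (M.evCls p e, lev G e))
        (t := Finset.range 10 ×ˢ Finset.range N)]
      · refine Finset.sum_congr rfl fun c _ => ?_
        rw [Finset.filter_filter]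
      · intro e he
        have he' := (Finset.mem_filter.1 he).1
        simp only [Finset.coe_product, Finset.coe_range, Set.mem_prod, Set.mem_Iio]
        exact ⟨Nat.mod_lt _ (by norm_num), hlev1 G e he'⟩
    have h4 : ∑ G ∈ M.grps, ((M.events p l G).filter fun e => L ≤ e.1).card ≤ 10 * N * p.Ds := by
      rw [Finset.sum_congr rfl h3, Finset.sum_comm]
      calc ∑ c ∈ Finset.range 10 ×ˢ Finset.range N, ∑ G ∈ M.grps,
            ((M.events p l G).filter fun e => L ≤ e.1 ∧ (M.evCls p e, lev G e) = c).card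
          ≤ ∑ c ∈ Finset.range 10 ×ˢ Finset.range N, p.Ds := by
            refine Finset.sum_le_sum fun c _ => ?_
            refine le_trans (Finset.sum_le_sum fun G _ => ?_) (hV.lst_count l _ hcert)
            exact s8s_colour_count hV hp l G (lev G) (hlev2 G) L c
        _ = 10 * N * p.Ds := by simp
    rw [h2]
    exact_mod_cast h4

/-- a mode of the list outside a minimal side component is separated from its members -/
theorem s8s_cross_out (hV : M.Valid p G0) (hp : p.Ok d) {l : Fin 4} {G : ℕ} {J : Cell} (hJ : J ∈ M.pres p G)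
    {𝓔 : Finset ℕ} (h𝓔 : 𝓔 ∈ M.sideComps p l G J) {m m' : ℕ} (hm : m ∈ 𝓔) (hm' : m' ∈ M.lstJ p l G J) (hn : m' ∉ 𝓔) :
    M.Cross p l G J m m' := by
  obtain ⟨_, h2, h3⟩ := sideComps_spec hV hp hJ h𝓔
  have hml : m ∈ M.lstJ p l G J := (Finset.mem_filter.1 (h2 hm)).1
  refine pair_small_pre hV hp hJ (h := 0) hml hm' fun hc => hn ?_
  rw [← h3 m hm]
  exact S8cTower.s8c_mem_E.2 ⟨hm', hc⟩

/-- from the projections to the exact subtotal, on one pre-cell -/
theorem V_le (hV : M.Valid p G0) (hp : p.Ok d) (l : Fin 4) {G : ℕ} {J : Cell} (hJ : J ∈ M.pres p G) :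
    ‖M.V p l G J‖ ^ 2 ≤ ∑ 𝓔 ∈ M.sideComps p l G J,
      (4 * ‖M.proj l G J 𝓔 (M.Ztil l G (J.anc (2 * p.K)))‖ ^ 2 + 4 * ((p.Ds : ℝ) ^ 380)⁻¹ * J.len) := by
  have hsub : ∀ 𝓔 ∈ M.sideComps p l G J, 𝓔 ⊆ M.lstJ p l G J := fun 𝓔 h𝓔 m hm =>
    (Finset.mem_filter.1 ((sideComps_spec hV hp hJ h𝓔).2.1 hm)).1
  have hdisj : ∀ 𝓔 ∈ M.sideComps p l G J, ∀ 𝓔' ∈ M.sideComps p l G J, 𝓔 ≠ 𝓔' → Disjoint 𝓔 𝓔' :=
    fun 𝓔 h𝓔 𝓔' h𝓔' hne => sideComps_disj hV hp hJ h𝓔 h𝓔' hne
  have hcount : ∑ 𝓔 ∈ M.sideComps p l G J, 𝓔.card ≤ p.Ds := by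
    rw [← Finset.card_biUnion hdisj]
    exact (Finset.card_le_card (Finset.biUnion_subset.2 hsub)).trans (lstJ_card hV hp.K_pos l hJ)
  have hDs : (1 : ℝ) ≤ (p.Ds : ℝ) := by
    have := hp.Ds_ge
    exact_mod_cast (by omega : 1 ≤ p.Ds)
  have horth := cell_orth hV hp l G J (M.sideComps p l G J) hdisj hcount
    (fun 𝓔 h𝓔 𝓔' h𝓔' hne m hm m' hm' =>
      s8s_cross_out hV hp hJ h𝓔 hm (hsub 𝓔' h𝓔' hm') (fun h => Finset.disjoint_left.1 (hdisj 𝓔 h𝓔 𝓔' h𝓔' hne) h hm'))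
    (M.alpha l G (J.anc (2 * p.K)))
  rw [V_eq_sum hV hp hJ]
  have hinv : ((p.Ds : ℝ) ^ 190)⁻¹ ≤ 1 := inv_le_one_of_one_le₀ (one_le_pow₀ hDs)
  have hnn : 0 ≤ ∑ 𝓔 ∈ M.sideComps p l G J, ‖M.sub l G (J.anc (2 * p.K)) J 𝓔‖ ^ 2 :=
    Finset.sum_nonneg fun _ _ => by positivity
  have h1 : ‖∑ 𝓔 ∈ M.sideComps p l G J, M.sub l G (J.anc (2 * p.K)) J 𝓔‖ ^ 2
      ≤ 2 * ∑ 𝓔 ∈ M.sideComps p l G J, ‖M.sub l G (J.anc (2 * p.K)) J 𝓔‖ ^ 2 := by
    have h2 := (abs_le.1 horth).2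
    have h3 : ((p.Ds : ℝ) ^ 190)⁻¹ * ∑ 𝓔 ∈ M.sideComps p l G J, ‖M.sub l G (J.anc (2 * p.K)) J 𝓔‖ ^ 2
        ≤ 1 * ∑ 𝓔 ∈ M.sideComps p l G J, ‖M.sub l G (J.anc (2 * p.K)) J 𝓔‖ ^ 2 :=
      mul_le_mul_of_nonneg_right hinv hnn
    unfold sub at h3 ⊢
    linarith
  refine h1.trans ?_
  rw [Finset.mul_sum]
  refine Finset.sum_le_sum fun 𝓔 h𝓔 => ?_
  have h2 := proj_sub hV hp l (pres_cert hp.K_pos hJ) (cell_le_anc J (2 * p.K)) 𝓔 (hsub 𝓔 h𝓔)
    (fun m hm m' hm' => s8s_cross_out hV hp hJ h𝓔 hm (Finset.mem_sdiff.1 hm').1 (Finset.mem_sdiff.1 hm').2)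
  set a := ‖M.proj l G J 𝓔 (M.Ztil l G (J.anc (2 * p.K)))‖ with ha
  set b := ((p.Ds : ℝ) ^ 190)⁻¹ * Real.sqrt J.len with hb
  have h3 : ‖M.sub l G (J.anc (2 * p.K)) J 𝓔‖ ≤ a + b := by
    have := norm_sub_norm_le (M.sub l G (J.anc (2 * p.K)) J 𝓔) (M.proj l G J 𝓔 (M.Ztil l G (J.anc (2 * p.K))))
    rw [norm_sub_rev] at this
    linarith
  have hb2 : b ^ 2 = ((p.Ds : ℝ) ^ 380)⁻¹ * J.len := by
    rw [hb, mul_pow, Real.sq_sqrt (cell_len_nonneg J), inv_pow, ← pow_mul]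
  have h4 : ‖M.sub l G (J.anc (2 * p.K)) J 𝓔‖ ^ 2 ≤ (a + b) ^ 2 := pow_le_pow_left₀ (norm_nonneg _) h3 2
  have h5 : (a + b) ^ 2 ≤ 2 * a ^ 2 + 2 * b ^ 2 := by nlinarith [sq_nonneg (a - b)]
  rw [hb2] at h5
  linarith

theorem s8s_sum_events (l : Fin 4) (G : ℕ) (f : Cell × Finset ℕ → ℝ) :
    ∑ e ∈ M.events p l G, f e = ∑ J ∈ M.pres p G, ∑ 𝓔 ∈ M.sideComps p l G J, f (J, 𝓔) := by
  unfold events
  rw [Finset.sum_biUnion]
  · refine Finset.sum_congr rfl fun J _ => ?_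
    rw [Finset.sum_image]
    intro a _ b _ h
    exact (Prod.mk.inj h).2
  · intro J _ J' _ hne
    rw [Function.onFun, Finset.disjoint_left]
    intro e he he'
    obtain ⟨a, _, rfl⟩ := Finset.mem_image.1 he
    obtain ⟨b, _, hb⟩ := Finset.mem_image.1 he'
    exact hne (Prod.mk.inj hb).1.symm

theorem s8s_N0_nonneg (hp : p.Ok d) : 0 ≤ p.N0 d := by
  unfold S8Par.N0
  have := hp.δ_pos
  have h0 : (0 : ℚ) ≤ harmonic p.Dm := by
    unfold harmonic
    exact Finset.sum_nonneg fun i _ => by positivity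
  have h1 : (0 : ℝ) ≤ (harmonic p.Dm : ℝ) := by exact_mod_cast h0
  positivity

/-- **Proposition 8.9 = display (17).** -/
theorem g17 (hV : M.Valid p G0) (hp : p.Ok d) : M.G17 p (p.X17 d G0) := by
  intro l hl
  set N : ℝ := (⌊p.N0 d⌋₊ : ℝ) with hN
  have hN0 : N ≤ p.N0 d := Nat.floor_le (s8s_N0_nonneg hp)
  have hNn : 0 ≤ N := Nat.cast_nonneg _
  have h1 : ∑ G ∈ M.grps, ∑ J ∈ M.pres p G, ‖M.V p l G J‖ ^ 2
      ≤ ∑ G ∈ M.grps, ∑ e ∈ M.events p l G,
        (4 * ‖M.proj l G e.1 e.2 (M.Ztil l G (e.1.anc (2 * p.K)))‖ ^ 2 + 4 * ((p.Ds : ℝ) ^ 380)⁻¹ * e.1.len) := by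
    refine Finset.sum_le_sum fun G _ => ?_
    rw [s8s_sum_events]
    exact Finset.sum_le_sum fun J hJ => V_le hV hp l hJ
  refine h1.trans ?_
  simp only [Finset.sum_add_distrib, ← Finset.mul_sum]
  have h2 := ev_24 hV hp l hl
  have h3 := ev_len hV hp l
  have hR := cell_len_pos M.root
  have hG := hV.G0_nonneg
  have hDs : (100 : ℝ) ≤ (p.Ds : ℝ) := by exact_mod_cast hp.Ds_ge
  have h4 : 40 * (((p.Ds : ℝ) ^ 380)⁻¹ * p.Ds) ≤ 1 := by
    have h5 : (p.Ds : ℝ) ^ 380 = (p.Ds : ℝ) ^ 379 * p.Ds := by rw [← pow_succ]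
    have h6 : (100 : ℝ) ≤ (p.Ds : ℝ) ^ 379 := by
      calc (100 : ℝ) ≤ (p.Ds : ℝ) ^ 1 := by simpa using hDs
        _ ≤ (p.Ds : ℝ) ^ 379 := pow_le_pow_right₀ (by linarith) (by norm_num)
    rw [h5, mul_inv, mul_assoc, inv_mul_cancel₀ (by linarith), mul_one]
    have h7 : ((p.Ds : ℝ) ^ 379)⁻¹ ≤ (100 : ℝ)⁻¹ := inv_anti₀ (by norm_num) h6
    linarith
  have hinv : 0 ≤ ((p.Ds : ℝ) ^ 380)⁻¹ := by positivity
  have h8 : 4 * ((p.Ds : ℝ) ^ 380)⁻¹ * ∑ G ∈ M.grps, ∑ e ∈ M.events p l G, e.1.len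
      ≤ N * M.root.len := by
    calc 4 * ((p.Ds : ℝ) ^ 380)⁻¹ * ∑ G ∈ M.grps, ∑ e ∈ M.events p l G, e.1.len
        ≤ 4 * ((p.Ds : ℝ) ^ 380)⁻¹ * (10 * N * p.Ds * M.root.len) :=
          mul_le_mul_of_nonneg_left h3 (by positivity)
      _ = (40 * (((p.Ds : ℝ) ^ 380)⁻¹ * p.Ds)) * (N * M.root.len) := by ring
      _ ≤ 1 * (N * M.root.len) := mul_le_mul_of_nonneg_right h4 (by positivity)
      _ = N * M.root.len := one_mul _
  unfold S8Par.X17
  have h9 : (80 * G0 + 1) * N * M.root.len ≤ (80 * G0 + 1) * (p.N0 d + 1) * M.root.len := by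
    refine mul_le_mul_of_nonneg_right ?_ hR.le
    exact mul_le_mul_of_nonneg_left (by linarith) (by linarith)
  nlinarith

end ModeSys

end

end Claimed.Agent.R258
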