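/-
Row 258 (S0498), Sec. 8.2 (linearization.tex l.118-141), layer (A).  Architect: helper61.        THE GAUGE KIT.
No paper reading is needed for any leaf of this file: every statement is self-contained, the proofs are in the plans.

ONE common horizontal dimension `d`; a tag `t = (θ, C, λ)` of dimension `t.dim ≤ d` is padded by zeros.
Offsets: a ONE-PARAMETER FINITE GRID  `ρ = (j/N, …, j/N)`, `j < N`, in the true coordinates and `ρ_i = 1/2` in the padded coordinates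
(there `θ_i = 0` and `ζ(0·y - 1/2) = 1`).  The union bound over the coordinates only needs uniform marginals, so no product grid and no integral over `ρ`.
`Q_0 = s4a_den t.C` (product of all denominators).  Cutoff `ζ = gevZetad δ` (block [GEV]): `0` within `δ` of a coordinate cut, `1` beyond `2δ`.

LEAVES
  P-S8A-PAD   `s8a_pad_*`, `s8a_cut_eq`, `s8a_pph_eq`, `s8a_dotv_eq`, `s8a_dbr_eq`, `s8a_cut_meas`, `s8a_cut_range`, `s8a_pph_meas`       (bookkeeping with `Fin.castLE`)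
  P-S8A-AVG   `s8a_bad_count`, `s8a_avg_pt`, `s8a_avg_cut`, `s8a_offset_exists`                                                    (finite counting + one integral)
  P-S8A-L1    `s8a_per_l1`, `s8a_box_trunc`                                                                                          (from S4a/Periodic, S4a/Lat)
  P-S8A-FOUR  `s8a_cut_fourier`                                                                                                      (GEV calculus + numerics with S4a/Qp)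
  P-S8A-GCH   `s8a_gchart_eval`, `s8a_gchart_cplx`                                                                                   (the gauge is a chart)

PLANS.
* PAD.  `Fin d` splits into `i.val < n` and `i.val ≥ n`; `∑ i : Fin d, (if h : i.val < n then f ⟨i, h⟩ else 0) = ∑ i : Fin n, f i` for `n ≤ d`:
  `Finset.sum_dite`/`Finset.sum_bij` with `Fin.castLE`, or induction-free: `Fin.sum_univ_eq_sum_range` on both sides and `Finset.sum_subset` (`range n ⊆ range d`).  Same for products (else-branch `1`).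
  `cut`: padded factor `gevZeta δ (0 * y - 1/2) = 1` by `gev_zeta_one` (`|(-1/2) - n| ≥ 1/2 ≥ 2δ`).   `dbr`: `ρ + fract (a - ρ) = a - ⌊a - ρ⌋` (`Int.fract`, `ring`).
  measurability: `gevZeta δ` is continuous (`(gev_zeta hδ).smooth.continuous`), `Int.fract` measurable (`measurable_fract`), finite sums/products.
* `s8a_bad_count`: if `gevZeta δ (x - j/N) ≠ 1` then (`gev_zeta_one`, contrapositive) `|x - j/N - m| < 2δ` for some `m : ℤ`; from `0 ≤ j/N < 1`: `x - 1 - 2δ < m < x + 2δ`, so `m ∈ {⌈x - 1 - 2δ⌉ , +1}` at most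
  TWO values (interval of length `1 + 4δ < 2`); for a fixed `m` the integers `j` lie in the open interval `(N (x - m - 2δ), N (x - m + 2δ))` of length `4δN`: at most `4δN + 1` of them.
* `s8a_avg_pt`: every summand is in `[0,1]` and vanishes unless some true coordinate is bad (`s8a_cut_eq`, product of ones); `card_biUnion_le`; `2 (4δN + 1) ≤ 10 δ N` as `1 ≤ δ N`.
* `s8a_avg_cut`: `cut_j ≥ 1 - 1_{bad}`.
* `s8a_offset_exists`: `∑_{j<N} ∫ (1 - cut_j²)² W = ∫ (∑_j …) W ≤ 10 n δ N ∫ W` (`integral_finset_sum`, integrability: bounded measurable times integrable, `Integrable.bdd_mul`); pigeonhole `Finset.exists_le_of_sum_le`.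
* `s8a_per_l1`: `s4a_periodic_fourier` with `m = 2 card κ + 1`, `X = B * max 1 A ^ m * (m!)^2` (`hG.bound`, order `0` and order `m`; `B ≤ X`), then `s4a_lat_weighted` with `M = 1`.
* `s8a_box_trunc`: `s4a_lat_truncate` with `T = Bx + 1`, `M = 1`; `{ℓ | ‖ℓ‖ < Bx + 1}` = the box (`pi_norm_lt_iff`/`pi_norm_le_iff_of_nonneg`, `Int.norm_eq_abs`, integrality); the `ℓ¹` bound: `‖a ℓ‖ ≤ ‖a ℓ‖ (1 + ‖ℓ‖)`, `Summable.sum_le_tsum`.
* `s8a_cut_fourier`: `G x = ((gevZetad δ (fun i => Q0 * x i - ρ i))^2 : ℂ)`; `gev_zetad`, `gev_comp_affine` (linear map `Q0 • id`, norm `≤ Q0`), `gev_comp_sub`, `gev_pow`/`gev_mul`, `gev_ofReal`: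
  `Gev 2 1 (2 Q0 d 12000/δ)`; periodic by `gev_zetad_periodic` (`Q0 (x + n) - ρ = (Q0 x - ρ) + Q0 n`); `s8a_per_l1`; evaluate at `x = ϑ y` (`Q0 ϑ_i = θ_i`, `Q0 ≥ 1` by `s4a_den_pos`).
  numerics: `x₀ = log H + log (1/δ)`, `d ≤ x₀`, `Q0 ≤ H^(d²)` (`s4a_den_le`), everything by S4a/Qp.lean.
* `s8a_gchart_eval`: `Chart.eval`; the summand `n` vanishes unless `n i = ⌊θ_i y - j/N⌋` for all `i` (`gev_trap_zero`: the argument `θ_i y - n_i - j/N` must lie in `(δ, 1-δ) ⊆ (0,1)`), `tsum_eq_single`;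
  for this `n`: argument `= fract (θ_i y - j/N)`, so the amplitude is `∏ gevZeta` (`gevZeta` unfolds to `gevTrap … (fract _)`) `= cut y` (`s8a_cut_eq`), and `θ_k y - n_k = dbr_k` (`s8a_dbr_eq`); `s8a_pph_eq`; `s4a_ee_add`.
* `s8a_gchart_cplx`: heights `s4a_height_mul_le` (`qHeight (-c_l) ≤ 3`); support: `0 < x_i - j/N < 1`, `0 ≤ j/N < 1`; derivatives: `gev_trap`, `gev_comp_sub`-type shift, `gev_pi_prod`, `gev_ofReal`, `gev_to_chart`.
-/
import Claimed.Agent.R258.Pack013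
import Claimed.Agent.R258.Pack004
import Claimed.Agent.R258.S4a.Expand
import Claimed.Agent.R258.S4a.Ops
import Claimed.Agent.R258.Pack021
import Claimed.Agent.R258.Gev.Conv

set_option autoImplicit false
open MeasureTheory
open scoped ContDiff

namespace Claimed.Agent.R258

noncomputable section

/-! ## padding -/

/-- zero padding of a vector -/
def s8PadV {n : ℕ} (d : ℕ) (v : Fin n → ℝ) : Fin d → ℝ := fun i => if h : i.val < n then v ⟨i.val, h⟩ else 0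

/-- zero padding of a matrix -/
def s8PadM {n : ℕ} (d : ℕ) (C : Matrix (Fin n) (Fin n) ℚ) : Matrix (Fin d) (Fin d) ℚ :=
  fun i k => if h : i.val < n ∧ k.val < n then C ⟨i.val, h.1⟩ ⟨k.val, h.2⟩ else 0

/-- the offsets of the grid: `j / N` in the true coordinates, `1/2` in the padded ones -/
def s8Rho (n d N j : ℕ) : Fin d → ℝ := fun i => if i.val < n then (j : ℝ) / (N : ℝ) else 1 / 2

/-- the gauge of the tag `t` with cutoff width `δ` and the offset number `j` of the grid of size `N` -/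
def s8GaugeOf (d : ℕ) (t : LocTag) (δ : ℝ) (N j : ℕ) : S8Gauge d where
  th := s8PadV d t.th
  C := s8PadM d t.C
  lam := t.lam
  Q0 := s4a_den t.C
  rho := s8Rho t.dim d N j
  zeta := gevZetad δ

theorem s8a_pad_sum {n d : ℕ} (h : n ≤ d) (f : Fin n → ℝ) :
    ∑ i : Fin d, (if h' : i.val < n then f ⟨i.val, h'⟩ else 0) = ∑ i : Fin n, f i := by
  have h1 := Fin.sum_univ_eq_sum_range (fun i : ℕ => if h' : i < n then f ⟨i, h'⟩ else 0) d
  have h2 := Fin.sum_univ_eq_sum_range (fun i : ℕ => if h' : i < n then f ⟨i, h'⟩ else 0) n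
  rw [h1]
  have h3 : ∑ i : Fin n, f i = ∑ i : Fin n, (if h' : i.val < n then f ⟨i.val, h'⟩ else 0) :=
    Finset.sum_congr rfl fun i _ => by rw [dif_pos i.isLt]
  rw [h3, h2]
  symm
  apply Finset.sum_subset (Finset.range_subset_range.2 h)
  intro i _ hi
  rw [dif_neg (by simpa using hi)]

theorem s8a_pad_prod {n d : ℕ} (h : n ≤ d) (f : Fin n → ℝ) :
    ∏ i : Fin d, (if h' : i.val < n then f ⟨i.val, h'⟩ else 1) = ∏ i : Fin n, f i := by
  have h1 := Fin.prod_univ_eq_prod_range (fun i : ℕ => if h' : i < n then f ⟨i, h'⟩ else 1) d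
  have h2 := Fin.prod_univ_eq_prod_range (fun i : ℕ => if h' : i < n then f ⟨i, h'⟩ else 1) n
  rw [h1]
  have h3 : ∏ i : Fin n, f i = ∏ i : Fin n, (if h' : i.val < n then f ⟨i.val, h'⟩ else 1) :=
    Finset.prod_congr rfl fun i _ => by rw [dif_pos i.isLt]
  rw [h3, h2]
  symm
  apply Finset.prod_subset (Finset.range_subset_range.2 h)
  intro i _ hi
  rw [dif_neg (by simpa using hi)]

theorem s8a_padV_castLE {n d : ℕ} (h : n ≤ d) (v : Fin n → ℝ) (i : Fin n) : s8PadV d v (Fin.castLE h i) = v i := by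
  unfold s8PadV
  rw [dif_pos (by simp)]
  rfl

/-- `Q_0 C` is integral, also for the padded matrix -/
theorem s8a_padM_clears {n : ℕ} (d : ℕ) (C : Matrix (Fin n) (Fin n) ℚ) (i k : Fin d) :
    ∃ z : ℤ, ((s4a_den C : ℕ) : ℚ) * s8PadM d C i k = z := by
  unfold s8PadM
  by_cases h : i.val < n ∧ k.val < n
  · rw [dif_pos h]
    exact s4a_den_clears C _ _
  · rw [dif_neg h]
    exact ⟨0, by simp⟩

section
variable (d : ℕ) (t : LocTag) (δ : ℝ) (N j : ℕ)

theorem s8a_dbr_eq (y : ℝ) (i : Fin d) :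
    (s8GaugeOf d t δ N j).dbr y i =
      (s8GaugeOf d t δ N j).th i * y - (⌊(s8GaugeOf d t δ N j).th i * y - (s8GaugeOf d t δ N j).rho i⌋ : ℝ) := by
  unfold S8Gauge.dbr Int.fract
  ring

theorem s8a_cut_eq (h : t.dim ≤ d) (hδ : 0 < δ) (hδ' : δ ≤ 1 / 8) (y : ℝ) :
    (s8GaugeOf d t δ N j).cut y = ∏ i : Fin t.dim, gevZeta δ (t.th i * y - (j : ℝ) / (N : ℝ)) := by
  rw [← s8a_pad_prod h]
  show gevZetad δ (fun i => s8PadV d t.th i * y - s8Rho t.dim d N j i) = _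
  unfold gevZetad
  refine Finset.prod_congr rfl fun i _ => ?_
  by_cases hi : i.val < t.dim
  · rw [dif_pos hi]
    unfold s8PadV s8Rho
    beta_reduce
    rw [dif_pos hi, if_pos hi]
  · rw [dif_neg hi]
    unfold s8PadV s8Rho
    beta_reduce
    rw [dif_neg hi, if_neg hi]
    apply gev_zeta_one hδ
    intro n
    rcases le_or_gt 0 n with hn | hn
    · have hn' : (0 : ℝ) ≤ (n : ℝ) := by exact_mod_cast hn
      rw [abs_of_nonpos (by linarith)]
      linarith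
    · have hn' : (n : ℝ) ≤ -1 := by exact_mod_cast (by omega : n ≤ -1)
      rw [abs_of_nonneg (by linarith)]
      linarith

theorem s8a_pph_eq (h : t.dim ≤ d) (y : ℝ) :
    (s8GaugeOf d t δ N j).pph y = t.lam * y ^ 2 + ∑ i : Fin t.dim, ∑ k : Fin t.dim,
      (t.th i * y) * ((t.C i k : ℚ) : ℝ) * ((j : ℝ) / (N : ℝ) + Int.fract (t.th k * y - (j : ℝ) / (N : ℝ))) := by
  show t.lam * y ^ 2 + ∑ i : Fin d, ∑ k : Fin d, (s8PadV d t.th i * y) * ((s8PadM d t.C i k : ℚ) : ℝ) *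
      (s8Rho t.dim d N j k + Int.fract (s8PadV d t.th k * y - s8Rho t.dim d N j k)) = _
  congr 1
  rw [← s8a_pad_sum h]
  refine Finset.sum_congr rfl fun i _ => ?_
  by_cases hi : i.val < t.dim
  · rw [dif_pos hi, ← s8a_pad_sum h]
    refine Finset.sum_congr rfl fun k _ => ?_
    by_cases hk : k.val < t.dim
    · rw [dif_pos hk]
      unfold s8PadV s8PadM s8Rho
      rw [dif_pos hi, dif_pos hk, dif_pos ⟨hi, hk⟩, if_pos hk]
    · rw [dif_neg hk]
      unfold s8PadM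
      rw [dif_neg (fun hh => hk hh.2)]
      simp
  · rw [dif_neg hi]
    refine Finset.sum_eq_zero fun k _ => ?_
    unfold s8PadM
    rw [dif_neg (fun hh => hi hh.1)]
    simp

theorem s8a_dotv_eq (h : t.dim ≤ d) (n : Fin d → ℤ) :
    (s8GaugeOf d t δ N j).dotv n = ∑ i : Fin t.dim, (n (Fin.castLE h i) : ℝ) * (t.th i / ((s4a_den t.C : ℕ) : ℝ)) := by
  rw [← s8a_pad_sum h]
  show ∑ i : Fin d, (n i : ℝ) * (s8PadV d t.th i / ((s4a_den t.C : ℕ) : ℝ)) = _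
  refine Finset.sum_congr rfl fun i _ => ?_
  by_cases hi : i.val < t.dim
  · rw [dif_pos hi]
    unfold s8PadV
    rw [dif_pos hi]
    rfl
  · rw [dif_neg hi]
    unfold s8PadV
    rw [dif_neg hi]
    simp

theorem s8a_cut_meas (hδ : 0 < δ) : Measurable (s8GaugeOf d t δ N j).cut := by
  have hc : Continuous (gevZeta δ) := (gev_zeta hδ).smooth.continuous
  show Measurable fun y => gevZetad δ (fun i => s8PadV d t.th i * y - s8Rho t.dim d N j i)
  unfold gevZetad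
  refine Finset.measurable_prod _ fun i _ => ?_
  exact hc.measurable.comp ((measurable_id.const_mul _).sub_const _)

theorem s8a_cut_range (y : ℝ) : 0 ≤ (s8GaugeOf d t δ N j).cut y ∧ (s8GaugeOf d t δ N j).cut y ≤ 1 := by
  exact ⟨gev_zetad_nonneg δ (fun i => (s8GaugeOf d t δ N j).th i * y - (s8GaugeOf d t δ N j).rho i),
    gev_zetad_le_one δ (fun i => (s8GaugeOf d t δ N j).th i * y - (s8GaugeOf d t δ N j).rho i)⟩

theorem s8a_pph_meas : Measurable (s8GaugeOf d t δ N j).pph := by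
  unfold S8Gauge.pph S8Gauge.dbr
  refine (measurable_const.mul (measurable_id.pow_const 2)).add ?_
  refine Finset.measurable_sum _ fun i _ => Finset.measurable_sum _ fun k _ => ?_
  refine ((measurable_id.const_mul _).mul_const _).mul ?_
  exact measurable_const.add (measurable_fract.comp ((measurable_id.const_mul _).sub_const _))

end

/-! ## averages over the grid of offsets -/

/-- the number of natural numbers in an open interval -/
theorem s8a_card_Ioo_le (S : Finset ℕ) (a b : ℝ) (hab : a ≤ b) (hS : ∀ j ∈ S, a < (j : ℝ) ∧ (j : ℝ) < b) :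
    (S.card : ℝ) ≤ b - a + 1 := by
  have h1 : S.card ≤ (Finset.Icc (⌊a⌋ + 1) (⌈b⌉ - 1)).card := by
    refine Finset.card_le_card_of_injOn (fun j : ℕ => (j : ℤ)) ?_ (fun x _ y _ hxy => Int.ofNat.inj hxy)
    intro j hj
    obtain ⟨h2, h3⟩ := hS j hj
    simp only [Finset.coe_Icc, Set.mem_Icc]
    constructor
    · have : ⌊a⌋ < (j : ℤ) := Int.floor_lt.2 (by exact_mod_cast h2)
      omega
    · have : (j : ℤ) < ⌈b⌉ := Int.lt_ceil.2 (by exact_mod_cast h3)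
      omega
  rw [Int.card_Icc] at h1
  have h4 : ((S.card : ℤ) : ℝ) ≤ (((⌈b⌉ - 1 + 1 - (⌊a⌋ + 1)).toNat : ℤ) : ℝ) := by exact_mod_cast h1
  have h5 : (((⌈b⌉ - 1 + 1 - (⌊a⌋ + 1)).toNat : ℤ) : ℝ) ≤ b - a + 1 := by
    rw [Int.toNat_eq_max]
    rcases le_total (⌈b⌉ - 1 + 1 - (⌊a⌋ + 1)) 0 with h6 | h6
    · rw [max_eq_right h6]
      push_cast
      linarith
    · rw [max_eq_left h6]
      push_cast
      have := Int.ceil_lt_add_one b
      have := Int.lt_floor_add_one a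
      linarith
  have h7 : ((S.card : ℤ) : ℝ) = (S.card : ℝ) := by norm_cast
  linarith

/-- number of bad offsets for one coordinate -/
theorem s8a_bad_count (x δ : ℝ) (N : ℕ) (hδ : 0 < δ) (hδ' : δ ≤ 1 / 8) (hN : 0 < N) :
    (((Finset.range N).filter fun j : ℕ => gevZeta δ (x - (j : ℝ) / (N : ℝ)) ≠ 1).card : ℝ) ≤ 2 * (4 * δ * N + 1) := by
  have hN' : (0 : ℝ) < (N : ℝ) := by exact_mod_cast hN
  obtain ⟨m0, hm0⟩ : ∃ m0 : ℤ, m0 = ⌊x - 1 - 2 * δ⌋ + 1 := ⟨_, rfl⟩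
  have key : ∀ m : ℤ, (((Finset.range N).filter fun j : ℕ => |x - (j : ℝ) / (N : ℝ) - m| < 2 * δ).card : ℝ)
      ≤ 4 * δ * N + 1 := by
    intro m
    have h := s8a_card_Ioo_le ((Finset.range N).filter fun j : ℕ => |x - (j : ℝ) / (N : ℝ) - m| < 2 * δ)
      (N * (x - m - 2 * δ)) (N * (x - m + 2 * δ)) (by nlinarith) ?_
    · have e : (N : ℝ) * (x - m + 2 * δ) - N * (x - m - 2 * δ) + 1 = 4 * δ * N + 1 := by ring
      rw [e] at h
      exact h
    · intro j hj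
      rw [Finset.mem_filter] at hj
      have h1 := abs_lt.1 hj.2
      have e : (j : ℝ) = N * ((j : ℝ) / N) := by field_simp
      constructor
      · rw [e]
        apply mul_lt_mul_of_pos_left _ hN'
        linarith [h1.2]
      · rw [e]
        apply mul_lt_mul_of_pos_left _ hN'
        linarith [h1.1]
  have hsub : ((Finset.range N).filter fun j : ℕ => gevZeta δ (x - (j : ℝ) / (N : ℝ)) ≠ 1) ⊆
      ((Finset.range N).filter fun j : ℕ => |x - (j : ℝ) / (N : ℝ) - m0| < 2 * δ) ∪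
      ((Finset.range N).filter fun j : ℕ => |x - (j : ℝ) / (N : ℝ) - ((m0 + 1 : ℤ) : ℝ)| < 2 * δ) := by
    intro j hj
    rw [Finset.mem_filter] at hj
    obtain ⟨hjN, hj1⟩ := hj
    have hjN' : (j : ℝ) < N := by exact_mod_cast Finset.mem_range.1 hjN
    have hq0 : 0 ≤ (j : ℝ) / N := by positivity
    have hq1 : (j : ℝ) / N < 1 := (div_lt_one hN').2 hjN'
    have hex : ∃ m : ℤ, |x - (j : ℝ) / (N : ℝ) - m| < 2 * δ := by
      by_contra hcon
      push Not at hcon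
      exact hj1 (gev_zeta_one hδ hcon)
    obtain ⟨m, hm⟩ := hex
    have h1 := abs_lt.1 hm
    have h2 : m0 ≤ m := by
      have : ⌊x - 1 - 2 * δ⌋ < m := Int.floor_lt.2 (by linarith [h1.2])
      omega
    have h3 : m ≤ m0 + 1 := by
      have h4 : (m : ℝ) < (m0 : ℝ) + 2 := by
        have h5 := Int.lt_floor_add_one (x - 1 - 2 * δ)
        have h6 : (m0 : ℝ) = (⌊x - 1 - 2 * δ⌋ : ℝ) + 1 := by rw [hm0]; push_cast; ring
        linarith [h1.1]
      have : m < m0 + 2 := by exact_mod_cast h4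
      omega
    rw [Finset.mem_union, Finset.mem_filter, Finset.mem_filter]
    rcases (by omega : m = m0 ∨ m = m0 + 1) with rfl | rfl
    · exact Or.inl ⟨hjN, hm⟩
    · exact Or.inr ⟨hjN, hm⟩
  have h8 := Finset.card_le_card hsub
  have h9 := Finset.card_union_le ((Finset.range N).filter fun j : ℕ => |x - (j : ℝ) / (N : ℝ) - m0| < 2 * δ)
      ((Finset.range N).filter fun j : ℕ => |x - (j : ℝ) / (N : ℝ) - ((m0 + 1 : ℤ) : ℝ)| < 2 * δ)
  have h10 : (((Finset.range N).filter fun j : ℕ => gevZeta δ (x - (j : ℝ) / (N : ℝ)) ≠ 1).card : ℝ) ≤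
      (((Finset.range N).filter fun j : ℕ => |x - (j : ℝ) / (N : ℝ) - m0| < 2 * δ).card : ℝ) +
      (((Finset.range N).filter fun j : ℕ => |x - (j : ℝ) / (N : ℝ) - ((m0 + 1 : ℤ) : ℝ)| < 2 * δ).card : ℝ) := by
    exact_mod_cast le_trans h8 h9
  have h11 := key m0
  have h12 := key (m0 + 1)
  linarith

/-- the number of offsets that are bad for some coordinate -/
theorem s8a_bad_all (t : LocTag) (δ : ℝ) (N : ℕ) (hδ : 0 < δ) (hδ' : δ ≤ 1 / 8) (hN : 1 ≤ δ * N) (y : ℝ) :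
    (((Finset.range N).filter fun j : ℕ => ∃ i : Fin t.dim, gevZeta δ (t.th i * y - (j : ℝ) / (N : ℝ)) ≠ 1).card : ℝ)
      ≤ 10 * t.dim * δ * N := by
  classical
  have hN0 : 0 < N := by
    rcases Nat.eq_zero_or_pos N with rfl | h
    · norm_num at hN
    · exact h
  have hsub : ((Finset.range N).filter fun j : ℕ => ∃ i : Fin t.dim, gevZeta δ (t.th i * y - (j : ℝ) / (N : ℝ)) ≠ 1) ⊆
      (Finset.univ : Finset (Fin t.dim)).biUnion fun i =>
        (Finset.range N).filter fun j : ℕ => gevZeta δ (t.th i * y - (j : ℝ) / (N : ℝ)) ≠ 1 := by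
    intro j hj
    rw [Finset.mem_filter] at hj
    obtain ⟨hjN, i, hi⟩ := hj
    rw [Finset.mem_biUnion]
    exact ⟨i, Finset.mem_univ i, Finset.mem_filter.2 ⟨hjN, hi⟩⟩
  have h1 := le_trans (Finset.card_le_card hsub) Finset.card_biUnion_le
  have h2 : (((Finset.range N).filter fun j : ℕ => ∃ i : Fin t.dim, gevZeta δ (t.th i * y - (j : ℝ) / (N : ℝ)) ≠ 1).card : ℝ)
      ≤ ∑ i : Fin t.dim, (((Finset.range N).filter fun j : ℕ => gevZeta δ (t.th i * y - (j : ℝ) / (N : ℝ)) ≠ 1).card : ℝ) := by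
    exact_mod_cast h1
  refine le_trans h2 ?_
  have h3 : ∑ i : Fin t.dim, (((Finset.range N).filter fun j : ℕ => gevZeta δ (t.th i * y - (j : ℝ) / (N : ℝ)) ≠ 1).card : ℝ)
      ≤ ∑ _i : Fin t.dim, 2 * (4 * δ * N + 1) :=
    Finset.sum_le_sum fun i _ => s8a_bad_count (t.th i * y) δ N hδ hδ' hN0
  refine le_trans h3 ?_
  rw [Finset.sum_const, Finset.card_univ, Fintype.card_fin, nsmul_eq_mul]
  have h4 : (0 : ℝ) ≤ (t.dim : ℝ) := by positivity
  nlinarith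

/-- a good offset has `cut = 1` -/
theorem s8a_cut_good (d : ℕ) (t : LocTag) (δ : ℝ) (N j : ℕ) (h : t.dim ≤ d) (hδ : 0 < δ) (hδ' : δ ≤ 1 / 8) (y : ℝ)
    (hj : ¬ ∃ i : Fin t.dim, gevZeta δ (t.th i * y - (j : ℝ) / (N : ℝ)) ≠ 1) : (s8GaugeOf d t δ N j).cut y = 1 := by
  rw [s8a_cut_eq d t δ N j h hδ hδ' y]
  push Not at hj
  exact Finset.prod_eq_one fun i _ => hj i

/-- `E_ρ |1 - (ζ^ρ(y))²|² ≤ 10 d δ` -/
theorem s8a_avg_pt (d : ℕ) (t : LocTag) (δ : ℝ) (N : ℕ) (h : t.dim ≤ d) (hδ : 0 < δ) (hδ' : δ ≤ 1 / 8) (hN : 1 ≤ δ * N)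
    (y : ℝ) : ∑ j ∈ Finset.range N, (1 - (s8GaugeOf d t δ N j).cut y ^ 2) ^ 2 ≤ 10 * t.dim * δ * N := by
  classical
  refine le_trans ?_ (s8a_bad_all t δ N hδ hδ' hN y)
  rw [Finset.card_filter]
  push_cast
  refine Finset.sum_le_sum fun j _ => ?_
  by_cases hj : ∃ i : Fin t.dim, gevZeta δ (t.th i * y - (j : ℝ) / (N : ℝ)) ≠ 1
  · rw [if_pos hj]
    obtain ⟨h0, h1⟩ := s8a_cut_range d t δ N j y
    have h2 : 0 ≤ 1 - (s8GaugeOf d t δ N j).cut y ^ 2 := by nlinarith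
    have h3 : 1 - (s8GaugeOf d t δ N j).cut y ^ 2 ≤ 1 := by nlinarith
    nlinarith
  · rw [if_neg hj, s8a_cut_good d t δ N j h hδ hδ' y hj]
    norm_num

/-- `E_ρ ζ^ρ(y) ≥ 1/2` -/
theorem s8a_avg_cut (d : ℕ) (t : LocTag) (δ : ℝ) (N : ℕ) (h : t.dim ≤ d) (hδ : 0 < δ) (hδ' : δ ≤ 1 / 8) (hN : 1 ≤ δ * N)
    (hd : 20 * (t.dim : ℝ) * δ ≤ 1) (y : ℝ) : (N : ℝ) / 2 ≤ ∑ j ∈ Finset.range N, (s8GaugeOf d t δ N j).cut y := by
  classical
  have hb := s8a_bad_all t δ N hδ hδ' hN y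
  rw [Finset.card_filter] at hb
  push_cast at hb
  have h1 : ∑ j ∈ Finset.range N, ((1 : ℝ) - if (∃ i : Fin t.dim, gevZeta δ (t.th i * y - (j : ℝ) / (N : ℝ)) ≠ 1) then 1 else 0)
      ≤ ∑ j ∈ Finset.range N, (s8GaugeOf d t δ N j).cut y := by
    refine Finset.sum_le_sum fun j _ => ?_
    by_cases hj : ∃ i : Fin t.dim, gevZeta δ (t.th i * y - (j : ℝ) / (N : ℝ)) ≠ 1
    · rw [if_pos hj]
      linarith [(s8a_cut_range d t δ N j y).1]
    · rw [if_neg hj, s8a_cut_good d t δ N j h hδ hδ' y hj]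
      norm_num
  rw [Finset.sum_sub_distrib, Finset.sum_const, Finset.card_range, nsmul_eq_mul, mul_one] at h1
  have h2 : (0 : ℝ) ≤ (N : ℝ) := by positivity
  nlinarith

/-- choice of one offset against a fixed nonnegative integrable weight -/
theorem s8a_offset_exists (d : ℕ) (t : LocTag) (δ : ℝ) (N : ℕ) (h : t.dim ≤ d) (hδ : 0 < δ) (hδ' : δ ≤ 1 / 8)
    (hN : 1 ≤ δ * N) (W : ℝ → ℝ) (hW : Integrable W volume) (hW0 : ∀ y, 0 ≤ W y) :
    ∃ j < N, ∫ y, (1 - (s8GaugeOf d t δ N j).cut y ^ 2) ^ 2 * W y ≤ 10 * t.dim * δ * ∫ y, W y := by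
  have hN0 : 0 < N := by
    rcases Nat.eq_zero_or_pos N with rfl | h
    · norm_num at hN
    · exact h
  have hN' : (0 : ℝ) < (N : ℝ) := by exact_mod_cast hN0
  have hint : ∀ j, Integrable (fun y => (1 - (s8GaugeOf d t δ N j).cut y ^ 2) ^ 2 * W y) volume := by
    intro j
    refine hW.bdd_mul (c := 1) ?_ (Filter.Eventually.of_forall fun y => ?_)
    · exact ((measurable_const.sub ((s8a_cut_meas d t δ N j hδ).pow_const 2)).pow_const 2).aestronglyMeasurable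
    · obtain ⟨h0, h1⟩ := s8a_cut_range d t δ N j y
      have h2 : 0 ≤ 1 - (s8GaugeOf d t δ N j).cut y ^ 2 := by nlinarith
      have h3 : 1 - (s8GaugeOf d t δ N j).cut y ^ 2 ≤ 1 := by nlinarith
      rw [Real.norm_eq_abs, abs_of_nonneg (by positivity)]
      nlinarith
  have hsum : ∑ j ∈ Finset.range N, ∫ y, (1 - (s8GaugeOf d t δ N j).cut y ^ 2) ^ 2 * W y
      ≤ ∑ _j ∈ Finset.range N, 10 * t.dim * δ * ∫ y, W y := by
    rw [← integral_finsetSum _ (fun j _ => hint j), Finset.sum_const, Finset.card_range, nsmul_eq_mul]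
    have e : (N : ℝ) * (10 * t.dim * δ * ∫ y, W y) = ∫ y, (10 * t.dim * δ * N) * W y := by
      rw [integral_const_mul]
      ring
    rw [e]
    refine integral_mono (integrable_finsetSum _ (fun j _ => hint j)) (hW.const_mul _) fun y => ?_
    show ∑ j ∈ Finset.range N, (1 - (s8GaugeOf d t δ N j).cut y ^ 2) ^ 2 * W y ≤ _
    rw [← Finset.sum_mul]
    exact mul_le_mul_of_nonneg_right (s8a_avg_pt d t δ N h hδ hδ' hN y) (hW0 y)
  obtain ⟨j, hj, hj'⟩ := Finset.exists_le_of_sum_le (Finset.nonempty_range_iff.2 hN0.ne') hsum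
  exact ⟨j, Finset.mem_range.1 hj, hj'⟩

/-! ## absolutely convergent Fourier series with a weighted `ℓ¹` bound -/

/-- a Gevrey-2 periodic function of `card κ` variables -/
theorem s8a_per_l1 {κ : Type} [Fintype κ] {G : (κ → ℝ) → ℂ} {B A : ℝ} (hG : Gev 2 B A G) (hA : 0 ≤ A) (hper : s4a_Per G) :
    Summable (fun ℓ : κ → ℤ => ‖s4a_fc G ℓ‖ * (1 + ‖ℓ‖) ^ 1) ∧
    ∑' ℓ : κ → ℤ, ‖s4a_fc G ℓ‖ * (1 + ‖ℓ‖) ^ 1 ≤
      4 ^ Fintype.card κ * (B * max 1 A ^ (2 * Fintype.card κ + 1) * ((2 * Fintype.card κ + 1).factorial : ℝ) ^ 2) ∧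
    ∀ x, HasSum (fun ℓ : κ → ℤ => s4a_fc G ℓ * ee (∑ i, (ℓ i : ℝ) * x i)) (G x) := by
  obtain ⟨m, hm⟩ : ∃ m : ℕ, m = 2 * Fintype.card κ + 1 := ⟨_, rfl⟩
  rw [← hm]
  obtain ⟨X, hXdef⟩ : ∃ X : ℝ, X = B * max 1 A ^ m * ((m.factorial : ℝ)) ^ 2 := ⟨_, rfl⟩
  rw [← hXdef]
  have h0 : ∀ x, ‖G x‖ ≤ B := by
    intro x
    have h := hG.bound x (Set.mem_univ x) 0
    rw [norm_iteratedFDeriv_zero] at h
    simpa using h
  have hB : 0 ≤ B := le_trans (norm_nonneg _) (h0 0)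
  have hf1 : (1 : ℝ) ≤ ((m.factorial : ℝ)) ^ 2 :=
    one_le_pow₀ (by exact_mod_cast Nat.one_le_iff_ne_zero.2 (Nat.factorial_ne_zero m))
  have hm1 : (1 : ℝ) ≤ max 1 A ^ m := one_le_pow₀ (le_max_left _ _)
  have hBX : B ≤ X := by
    rw [hXdef]
    have h1 : (1 : ℝ) ≤ max 1 A ^ m * ((m.factorial : ℝ)) ^ 2 := by nlinarith
    calc B = B * 1 := (mul_one B).symm
      _ ≤ B * (max 1 A ^ m * ((m.factorial : ℝ)) ^ 2) := mul_le_mul_of_nonneg_left h1 hB
      _ = B * max 1 A ^ m * ((m.factorial : ℝ)) ^ 2 := by ring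
  have hX : ∀ x, ‖iteratedFDeriv ℝ m G x‖ ≤ X := by
    intro x
    refine le_trans (hG.bound x (Set.mem_univ x) m) ?_
    rw [hXdef]
    have h1 : A ^ m ≤ max 1 A ^ m := pow_le_pow_left₀ hA (le_max_right _ _) m
    exact mul_le_mul_of_nonneg_right (mul_le_mul_of_nonneg_left h1 hB) (by positivity)
  obtain ⟨h1, h2⟩ := s4a_periodic_fourier hG.smooth hper m (by omega) X (fun x => le_trans (h0 x) hBX) hX
  obtain ⟨h3, h4⟩ := s4a_lat_weighted (s4a_fc G) 1 X (le_trans hB hBX)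
    (by intro ℓ; rw [show 1 + 2 * Fintype.card κ = m by omega]; exact h1 ℓ)
  exact ⟨h3, h4, h2⟩

/-- truncation to a box -/
theorem s8a_box_trunc {κ : Type} [Fintype κ] [DecidableEq κ] (a e : (κ → ℤ) → ℂ) (he : ∀ ℓ, ‖e ℓ‖ ≤ 1) (Y : ℝ) (Bx : ℕ)
    (hs : Summable fun ℓ => ‖a ℓ‖ * (1 + ‖ℓ‖) ^ 1) (h : ∑' ℓ, ‖a ℓ‖ * (1 + ‖ℓ‖) ^ 1 ≤ Y) (z : ℂ)
    (hz : HasSum (fun ℓ => a ℓ * e ℓ) z) :
    ∑ ℓ ∈ Fintype.piFinset (fun _ : κ => Finset.Icc (-(Bx : ℤ)) Bx), ‖a ℓ‖ ≤ Y ∧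
    ‖z - ∑ ℓ ∈ Fintype.piFinset (fun _ : κ => Finset.Icc (-(Bx : ℤ)) Bx), a ℓ * e ℓ‖ ≤ Y / ((Bx : ℝ) + 1) := by
  have hT : (0 : ℝ) < (Bx : ℝ) + 1 := by positivity
  have hbox : (s4a_lat_ball_finite (ι := κ) ((Bx : ℝ) + 1)).toFinset =
      Fintype.piFinset (fun _ : κ => Finset.Icc (-(Bx : ℤ)) Bx) := by
    ext ℓ
    rw [Set.Finite.mem_toFinset, Set.mem_ofPred_eq, pi_norm_lt_iff hT, Fintype.mem_piFinset]
    refine forall_congr' fun i => ?_
    rw [Int.norm_eq_abs, Finset.mem_Icc, ← abs_le]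
    constructor
    · intro h1
      have h2 : |ℓ i| < (Bx : ℤ) + 1 := by exact_mod_cast h1
      omega
    · intro h1
      have h2 : ((|ℓ i| : ℤ) : ℝ) ≤ ((Bx : ℤ) : ℝ) := by exact_mod_cast h1
      push_cast at h2
      linarith
  constructor
  · refine le_trans ?_ h
    refine le_trans (Finset.sum_le_sum fun ℓ _ => ?_) (hs.sum_le_tsum _ (fun ℓ _ => by positivity))
    have h1 : (1 : ℝ) ≤ (1 + ‖ℓ‖) ^ 1 := by
      rw [pow_one]
      linarith [norm_nonneg ℓ]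
    exact le_mul_of_one_le_right (norm_nonneg _) h1
  · have h1 := s4a_lat_truncate a e he 1 Y ((Bx : ℝ) + 1) hT hs h z hz
    rw [hbox, pow_one] at h1
    exact h1

/-- the polynomial inequality of `s8a_four_num` -/
theorem s8a_four_poly (n dd x : ℝ) (hx0 : 0 ≤ x) (hn0 : 0 ≤ n) (hn : n ≤ 2 * (1 + x)) (hd : dd ≤ x) :
    dd * 2 + (n * (24000 + 2 * x + x ^ 3) + 2 * (n * n)) ≤ 48016 * (1 + x) ^ 4 := by
  obtain ⟨u, hu⟩ : ∃ u : ℝ, u = 1 + x := ⟨_, rfl⟩
  rw [← hu] at hn ⊢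
  have hu1 : 1 ≤ u := by rw [hu]; linarith
  have hxu : x ≤ u := by rw [hu]; linarith
  have hu2 : u ≤ u ^ 4 := by
    calc u = u ^ 1 := (pow_one u).symm
      _ ≤ u ^ 4 := pow_le_pow_right₀ hu1 (by norm_num)
  have hu3 : u ^ 2 ≤ u ^ 4 := pow_le_pow_right₀ hu1 (by norm_num)
  have hu13 : u ≤ u ^ 3 := by
    calc u = u ^ 1 := (pow_one u).symm
      _ ≤ u ^ 3 := pow_le_pow_right₀ hu1 (by norm_num)
  have hx3 : x ^ 3 ≤ u ^ 3 := pow_le_pow_left₀ hx0 hxu 3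
  have hb : 24000 + 2 * x + x ^ 3 ≤ 24003 * u ^ 3 := by linarith
  have hb0 : 0 ≤ 24000 + 2 * x + x ^ 3 := by positivity
  have hu0 : 0 ≤ u := by linarith
  have t1 : n * (24000 + 2 * x + x ^ 3) ≤ 2 * u * (24003 * u ^ 3) :=
    mul_le_mul hn hb hb0 (by positivity)
  have t2 : n * n ≤ 2 * u * (2 * u) := mul_le_mul hn hn hn0 (by positivity)
  have e1 : 2 * u * (24003 * u ^ 3) = 48006 * u ^ 4 := by ring
  have e2 : 2 * u * (2 * u) = 4 * u ^ 2 := by ring
  linarith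

/-- numerics of `s8a_cut_fourier` -/
theorem s8a_four_num (Cq : ℕ) (hCq : 48016 ≤ Cq) (d : ℕ) (δ H Q A : ℝ) (hH : Real.exp 2 ≤ H) (hd : (d : ℝ) ≤ Real.log H) (hδ : 0 < δ)
    (hδ' : δ ≤ 1 / 8) (hQ0 : 0 ≤ Q) (hQ : Q ≤ H ^ (d ^ 2)) (hA : A ≤ 24000 * (d : ℝ) * (1 / δ) * Q) :
    4 ^ d * (1 * max 1 A ^ (2 * d + 1) * (((2 * d + 1).factorial : ℝ)) ^ 2)
      ≤ s4b_qp Cq (Real.log H + Real.log (1 / δ)) := by
  have hH0 : 0 < H := lt_of_lt_of_le (Real.exp_pos 2) hH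
  obtain ⟨L, hL⟩ : ∃ L : ℝ, L = Real.log H := ⟨_, rfl⟩
  obtain ⟨M, hM⟩ : ∃ M : ℝ, M = Real.log (1 / δ) := ⟨_, rfl⟩
  rw [← hL, ← hM]
  rw [← hL] at hd
  have hHe : H = Real.exp L := by rw [hL, Real.exp_log hH0]
  have hδe : 1 / δ = Real.exp M := by rw [hM, Real.exp_log (by positivity)]
  have hM0 : 0 ≤ M := by
    rw [hM]
    apply Real.log_nonneg
    rw [le_div_iff₀ hδ]
    linarith
  have hd0 : (0 : ℝ) ≤ (d : ℝ) := by positivity
  have hL0 : 0 ≤ L := le_trans hd0 hd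
  obtain ⟨x, hx⟩ : ∃ x : ℝ, x = L + M := ⟨_, rfl⟩
  rw [← hx]
  have hx0 : 0 ≤ x := by rw [hx]; linarith
  have hdx : (d : ℝ) ≤ x := by rw [hx]; linarith
  have hLx : L ≤ x := by rw [hx]; linarith
  have hMx : M ≤ x := by rw [hx]; linarith
  -- 4^d
  have h2 : (2 : ℝ) ≤ Real.exp 1 := by linarith [Real.add_one_le_exp (1 : ℝ)]
  have h4 : (4 : ℝ) ≤ Real.exp 2 := by
    have e : Real.exp 2 = Real.exp 1 * Real.exp 1 := by rw [← Real.exp_add]; norm_num
    rw [e]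
    nlinarith
  have h4d : (4 : ℝ) ^ d ≤ Real.exp ((d : ℝ) * 2) := by
    rw [Real.exp_nat_mul]
    exact pow_le_pow_left₀ (by norm_num) h4 d
  -- A
  have hQe : Q ≤ Real.exp (x ^ 3) := by
    refine le_trans hQ ?_
    rw [hHe, ← Real.exp_nat_mul]
    apply Real.exp_le_exp.2
    push_cast
    have h5 : (d : ℝ) ^ 2 ≤ x ^ 2 := pow_le_pow_left₀ hd0 hdx 2
    calc (d : ℝ) ^ 2 * L ≤ x ^ 2 * x := mul_le_mul h5 hLx hL0 (by positivity)
      _ = x ^ 3 := by ring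
  have hde : (d : ℝ) ≤ Real.exp x := by linarith [Real.add_one_le_exp x]
  have hce : (24000 : ℝ) ≤ Real.exp 24000 := by linarith [Real.add_one_le_exp (24000 : ℝ)]
  have hδx : 1 / δ ≤ Real.exp x := by rw [hδe]; exact Real.exp_le_exp.2 hMx
  have hδ0 : 0 ≤ 1 / δ := by positivity
  have hAe : max 1 A ≤ Real.exp (24000 + 2 * x + x ^ 3) := by
    apply max_le
    · exact Real.one_le_exp (by positivity)
    · refine le_trans hA ?_
      have e : Real.exp (24000 + 2 * x + x ^ 3) = Real.exp 24000 * Real.exp x * Real.exp x * Real.exp (x ^ 3) := by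
        rw [← Real.exp_add, ← Real.exp_add, ← Real.exp_add]
        congr 1
        ring
      rw [e]
      have p1 : (24000 : ℝ) * (d : ℝ) ≤ Real.exp 24000 * Real.exp x :=
        mul_le_mul hce hde hd0 (Real.exp_pos _).le
      have p2 : (24000 : ℝ) * (d : ℝ) * (1 / δ) ≤ Real.exp 24000 * Real.exp x * Real.exp x :=
        mul_le_mul p1 hδx hδ0 (by positivity)
      exact mul_le_mul p2 hQe hQ0 (by positivity)
  have hAp : max 1 A ^ (2 * d + 1) ≤ Real.exp (((2 * d + 1 : ℕ) : ℝ) * (24000 + 2 * x + x ^ 3)) := by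
    rw [Real.exp_nat_mul]
    exact pow_le_pow_left₀ (le_trans zero_le_one (le_max_left _ _)) hAe _
  -- factorial
  have hf : (((2 * d + 1).factorial : ℝ)) ≤ Real.exp (((2 * d + 1 : ℕ) : ℝ) * ((2 * d + 1 : ℕ) : ℝ)) := by
    rw [Real.exp_nat_mul]
    have h6 : (((2 * d + 1).factorial : ℝ)) ≤ (((2 * d + 1 : ℕ) : ℝ)) ^ (2 * d + 1) := by
      exact_mod_cast Nat.factorial_le_pow (2 * d + 1)
    refine le_trans h6 (pow_le_pow_left₀ (by positivity) ?_ _)
    linarith [Real.add_one_le_exp (((2 * d + 1 : ℕ) : ℝ))]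
  have hf2 : (((2 * d + 1).factorial : ℝ)) ^ 2 ≤ Real.exp (2 * (((2 * d + 1 : ℕ) : ℝ) * ((2 * d + 1 : ℕ) : ℝ))) := by
    have e : Real.exp (2 * (((2 * d + 1 : ℕ) : ℝ) * ((2 * d + 1 : ℕ) : ℝ))) =
        Real.exp (((2 * d + 1 : ℕ) : ℝ) * ((2 * d + 1 : ℕ) : ℝ)) ^ 2 := by
      rw [← Real.exp_nat_mul]
      norm_num
    rw [e]
    exact pow_le_pow_left₀ (by positivity) hf 2
  -- assemble
  have hprod : 4 ^ d * (1 * max 1 A ^ (2 * d + 1) * (((2 * d + 1).factorial : ℝ)) ^ 2) ≤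
      Real.exp ((d : ℝ) * 2 + (((2 * d + 1 : ℕ) : ℝ) * (24000 + 2 * x + x ^ 3) +
        2 * (((2 * d + 1 : ℕ) : ℝ) * ((2 * d + 1 : ℕ) : ℝ)))) := by
    rw [Real.exp_add, Real.exp_add, one_mul]
    have hm0 : 0 ≤ max 1 A ^ (2 * d + 1) := pow_nonneg (le_trans zero_le_one (le_max_left _ _)) _
    exact mul_le_mul h4d (mul_le_mul hAp hf2 (by positivity) (Real.exp_pos _).le) (by positivity) (Real.exp_pos _).le
  refine le_trans hprod (s4a_qp_of_exp ?_)
  refine le_trans ?_ (s4a_pl_of_le (N := Cq) (k := 4) (a := 48016) hx0 (by exact_mod_cast hCq) (by omega))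
  exact s8a_four_poly _ _ x hx0 (by positivity) (by push_cast; linarith) hdx

/-- **Fourier series of `(ζ^ρ)²` on the `ϑ` torus**, uniformly in the offset -/
theorem s8a_cut_fourier : ∃ Cq : ℕ, ∀ (d : ℕ) (t : LocTag) (δ H : ℝ) (N j : ℕ), t.dim ≤ d → Real.exp 2 ≤ H →
    (d : ℝ) ≤ Real.log H → (∀ i k, (qHeight (t.C i k) : ℝ) ≤ H) → 0 < δ → δ ≤ 1 / 8 →
    ∃ c : (Fin d → ℤ) → ℂ, Summable (fun n => ‖c n‖ * (1 + ‖n‖) ^ 1) ∧
      ∑' n, ‖c n‖ * (1 + ‖n‖) ^ 1 ≤ s4b_qp Cq (Real.log H + Real.log (1 / δ)) ∧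
      ∀ y, HasSum (fun n => c n * ee ((s8GaugeOf d t δ N j).dotv n * y)) ((((s8GaugeOf d t δ N j).cut y) ^ 2 : ℝ) : ℂ) := by
  refine ⟨48016, fun d t δ H N j hdim hH hd hC hδ hδ' => ?_⟩
  have hH1 : (1 : ℝ) ≤ H := le_trans (Real.one_le_exp (by norm_num)) hH
  obtain ⟨Q, hQ⟩ : ∃ Q : ℕ, Q = s4a_den t.C := ⟨_, rfl⟩
  have hQ1 : 1 ≤ Q := by rw [hQ]; exact s4a_den_pos t.C
  have hQ0 : (0 : ℝ) < (Q : ℝ) := by exact_mod_cast hQ1
  have hQle : (Q : ℝ) ≤ H ^ (d ^ 2) := by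
    rw [hQ]
    refine le_trans (s4a_den_le t.C H hC) ?_
    rw [Fintype.card_fin]
    exact pow_le_pow_right₀ hH1 (Nat.pow_le_pow_left hdim 2)
  obtain ⟨ρ, hρ⟩ : ∃ ρ : Fin d → ℝ, ρ = s8Rho t.dim d N j := ⟨_, rfl⟩
  obtain ⟨f, hf⟩ : ∃ f : (Fin d → ℝ) → ℝ, ∀ x, f x = gevZetad δ (fun i => (Q : ℝ) * x i - ρ i) := ⟨_, fun _ => rfl⟩
  have hA0 : (0 : ℝ) ≤ (Fintype.card (Fin d) : ℝ) * (12000 / δ) := by positivity
  have g1 : Gev 2 1 ((Fintype.card (Fin d) : ℝ) * (12000 / δ) * (Q : ℝ)) f := by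
    have h1 := gev_zetad (ι := Fin d) hδ
    have h2 := gev_comp_affine hA0 h1 ((Q : ℝ) • ContinuousLinearMap.id ℝ (Fin d → ℝ)) (-ρ) (K := (Q : ℝ)) (by
      rw [norm_smul, Real.norm_eq_abs, abs_of_pos hQ0]
      exact mul_le_of_le_one_right hQ0.le ContinuousLinearMap.norm_id_le)
    refine gev_congr (gev_mono_set h2 (fun x _ => Set.mem_univ _)) (fun x => ?_)
    rw [hf]
    congr 1
  have g2 := gev_ofReal (gev_pow (mul_nonneg hA0 hQ0.le) g1 2)
  have hper : s4a_Per (fun x => ((f x ^ 2 : ℝ) : ℂ)) := by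
    intro x n
    show ((f (fun i => x i + (n i : ℝ)) ^ 2 : ℝ) : ℂ) = ((f x ^ 2 : ℝ) : ℂ)
    rw [hf, hf, ← gev_zetad_periodic δ (fun i => (Q : ℝ) * x i - ρ i) (fun i => (Q : ℤ) * n i)]
    congr 4
    funext i
    push_cast
    ring
  obtain ⟨s1, s2, s3⟩ := s8a_per_l1 g2 (by positivity) hper
  refine ⟨s4a_fc (fun x => ((f x ^ 2 : ℝ) : ℂ)), s1, le_trans s2 ?_, fun y => ?_⟩
  · rw [Fintype.card_fin, one_pow]
    refine s8a_four_num 48016 le_rfl d δ H (Q : ℝ) _ hH hd hδ hδ' hQ0.le hQle (le_of_eq ?_)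
    push_cast
    ring
  · have h := s3 (fun i => (s8GaugeOf d t δ N j).vth i * y)
    have e1 : ∀ ℓ : Fin d → ℤ, ∑ i, (ℓ i : ℝ) * ((s8GaugeOf d t δ N j).vth i * y) = (s8GaugeOf d t δ N j).dotv ℓ * y := by
      intro ℓ
      unfold S8Gauge.dotv
      rw [Finset.sum_mul]
      exact Finset.sum_congr rfl fun i _ => by ring
    have e2 : f (fun i => (s8GaugeOf d t δ N j).vth i * y) = (s8GaugeOf d t δ N j).cut y := by
      rw [hf]
      show _ = gevZetad δ (fun i => (s8GaugeOf d t δ N j).th i * y - s8Rho t.dim d N j i)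
      congr 1
      funext i
      rw [hρ]
      congr 1
      show (Q : ℝ) * ((s8GaugeOf d t δ N j).th i / ((s4a_den t.C : ℕ) : ℝ) * y) = _
      rw [← hQ]
      field_simp
    simp only [e1, e2] at h
    exact h

/-! ## the gauge factor is a chart -/

/-- the chart `y ↦ ζ^ρ(y) e(-c_l p^ρ(y))` -/
def s8GaugeChart (t : LocTag) (l : Fin 4) (δ : ℝ) (N j : ℕ) : Chart where
  d := t.dim
  th := t.th
  C := (-(slotC l)) • t.C
  lam := -(((slotC l : ℚ) : ℝ)) * t.lam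
  bet := 0
  chi := fun w => ((∏ i, gevTrap δ (2 * δ) (1 - 2 * δ) (1 - δ) (w i - (j : ℝ) / (N : ℝ)) : ℝ) : ℂ)
  unit := 1

theorem s8a_c4_eq (l : Fin 4) : s8c4 l = ((slotC l : ℚ) : ℝ) := by
  fin_cases l <;> simp [s8c4, slotC]

theorem s8a_gchart_eval (d : ℕ) (t : LocTag) (l : Fin 4) (δ : ℝ) (N j : ℕ) (h : t.dim ≤ d) (hδ : 0 < δ) (hδ' : δ ≤ 1 / 8)
    (y : ℝ) : (s8GaugeChart t l δ N j).eval y =
      ((s8GaugeOf d t δ N j).cut y : ℂ) * ee (-(s8c4 l * (s8GaugeOf d t δ N j).pph y)) := by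
  obtain ⟨q, hq⟩ : ∃ q : ℝ, q = (j : ℝ) / (N : ℝ) := ⟨_, rfl⟩
  obtain ⟨n₀, hn₀⟩ : ∃ n₀ : Fin t.dim → ℤ, ∀ i, n₀ i = ⌊t.th i * y - q⌋ := ⟨_, fun _ => rfl⟩
  have hzero : ∀ n : Fin t.dim → ℤ, n ≠ n₀ →
      (s8GaugeChart t l δ N j).chi (fun i => (s8GaugeChart t l δ N j).th i * y - (n i : ℝ)) *
        ee ((s8GaugeChart t l δ N j).phase y n) = 0 := by
    intro n hn
    obtain ⟨i, hi⟩ : ∃ i, n i ≠ n₀ i := by
      by_contra hcon
      push Not at hcon
      exact hn (funext hcon)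
    have h0 : gevTrap δ (2 * δ) (1 - 2 * δ) (1 - δ) (t.th i * y - (n i : ℝ) - (j : ℝ) / (N : ℝ)) = 0 := by
      apply gev_trap_zero (by linarith) (by linarith)
      rw [← hq]
      rw [hn₀] at hi
      rcases lt_or_gt_of_ne hi with h1 | h1
      · right
        have h2 : n i + 1 ≤ ⌊t.th i * y - q⌋ := h1
        have h3 : ((n i + 1 : ℤ) : ℝ) ≤ t.th i * y - q := Int.le_floor.1 h2
        push_cast at h3
        linarith
      · left
        have h3 : t.th i * y - q < (n i : ℝ) := Int.floor_lt.1 h1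
        linarith
    have h1 : (s8GaugeChart t l δ N j).chi (fun i => (s8GaugeChart t l δ N j).th i * y - (n i : ℝ)) = 0 := by
      show ((∏ i, gevTrap δ (2 * δ) (1 - 2 * δ) (1 - δ) (t.th i * y - (n i : ℝ) - (j : ℝ) / (N : ℝ)) : ℝ) : ℂ) = 0
      rw [Finset.prod_eq_zero (Finset.mem_univ i) h0]
      simp
    rw [h1, zero_mul]
  have hts : (∑' n : Fin t.dim → ℤ,
      (s8GaugeChart t l δ N j).chi (fun i => (s8GaugeChart t l δ N j).th i * y - (n i : ℝ)) *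
        ee ((s8GaugeChart t l δ N j).phase y n)) =
      (s8GaugeChart t l δ N j).chi (fun i => (s8GaugeChart t l δ N j).th i * y - (n₀ i : ℝ)) *
        ee ((s8GaugeChart t l δ N j).phase y n₀) := tsum_eq_single n₀ hzero
  have hchi : (s8GaugeChart t l δ N j).chi (fun i => (s8GaugeChart t l δ N j).th i * y - (n₀ i : ℝ)) =
      ((s8GaugeOf d t δ N j).cut y : ℂ) := by
    rw [s8a_cut_eq d t δ N j h hδ hδ' y]
    show ((∏ i, gevTrap δ (2 * δ) (1 - 2 * δ) (1 - δ) (t.th i * y - (n₀ i : ℝ) - (j : ℝ) / (N : ℝ)) : ℝ) : ℂ) = _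
    congr 1
    refine Finset.prod_congr rfl fun i _ => ?_
    unfold gevZeta Int.fract
    rw [hn₀, ← hq]
    congr 1
    ring
  have hph : (s8GaugeChart t l δ N j).phase y n₀ = -(((slotC l : ℚ) : ℝ)) * ∑ i : Fin t.dim, ∑ k : Fin t.dim,
      (t.th i * y) * ((t.C i k : ℚ) : ℝ) * ((j : ℝ) / (N : ℝ) + Int.fract (t.th k * y - (j : ℝ) / (N : ℝ))) := by
    show ∑ i : Fin t.dim, ∑ k : Fin t.dim, (t.th i * y) * ((((-(slotC l)) • t.C) i k : ℚ) : ℝ) * (t.th k * y - (n₀ k : ℝ)) = _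
    rw [Finset.mul_sum]
    refine Finset.sum_congr rfl fun i _ => ?_
    rw [Finset.mul_sum]
    refine Finset.sum_congr rfl fun k _ => ?_
    rw [hn₀, ← hq, Matrix.smul_apply, smul_eq_mul]
    unfold Int.fract
    push_cast
    ring
  rw [hchi, hph] at hts
  rw [s8a_pph_eq d t δ N j h y, s8a_c4_eq]
  show (1 : ℂ) * ee (-(((slotC l : ℚ) : ℝ)) * t.lam * y ^ 2 + 0 * y) * (∑' n : Fin t.dim → ℤ,
    (s8GaugeChart t l δ N j).chi (fun i => (s8GaugeChart t l δ N j).th i * y - (n i : ℝ)) *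
        ee ((s8GaugeChart t l δ N j).phase y n)) = _
  rw [hts, one_mul, mul_left_comm, ← gev_ee_add]
  congr 2
  ring

theorem s8a_gchart_cplx (t : LocTag) (l : Fin 4) (δ H Hg : ℝ) (N j : ℕ) (hδ : 0 < δ) (hδ' : δ ≤ 1 / 8) (hN : 0 < N)
    (hj : j < N) (hH : Real.exp 2 ≤ H) (hd : (t.dim : ℝ) ≤ Real.log H) (hC : ∀ i k, (qHeight (t.C i k) : ℝ) ≤ H)
    (h1 : 3 * H ≤ Hg) (h2 : (t.dim : ℝ) * (12000 / δ) ≤ Hg) : (s8GaugeChart t l δ N j).Cplx Hg := by
  have hH1 : (1 : ℝ) ≤ H := le_trans (Real.one_le_exp (by norm_num)) hH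
  have hH0 : (0 : ℝ) < H := by linarith
  have hHg : H ≤ Hg := by linarith
  have hHg1 : (1 : ℝ) ≤ Hg := by linarith
  have hN' : (0 : ℝ) < (N : ℝ) := by exact_mod_cast hN
  have hq0 : 0 ≤ (j : ℝ) / N := by positivity
  have hq1 : (j : ℝ) / N < 1 := (div_lt_one hN').2 (by exact_mod_cast hj)
  have hgev : Gev 2 1 ((t.dim : ℝ) * (12000 / δ)) (s8GaugeChart t l δ N j).chi := by
    have hT : Gev 2 1 (12000 / δ) (gevTrap δ (2 * δ) (1 - 2 * δ) (1 - δ)) := by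
      have h := gev_trap (a := δ) (b := 2 * δ) (c := 1 - 2 * δ) (d := 1 - δ) (by linarith) (by linarith)
      have e : (6000 : ℝ) / (2 * δ - δ) + 6000 / (1 - δ - (1 - 2 * δ)) = 12000 / δ := by
        have e1 : 2 * δ - δ = δ := by ring
        have e2 : 1 - δ - (1 - 2 * δ) = δ := by ring
        rw [e1, e2]
        ring
      rw [e] at h
      exact h
    have hT' : Gev 2 1 (12000 / δ) (fun u : ℝ => gevTrap δ (2 * δ) (1 - 2 * δ) (1 - δ) (u - (j : ℝ) / (N : ℝ))) :=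
      gev_mono_set (gev_comp_sub hT ((j : ℝ) / (N : ℝ))) (fun x _ => Set.mem_univ _)
    have h1 := gev_pi_prod (ι := Fin t.dim) (B := fun _ => (1 : ℝ)) (A := fun _ => (12000 / δ : ℝ))
      (f := fun _ => fun u : ℝ => gevTrap δ (2 * δ) (1 - 2 * δ) (1 - δ) (u - (j : ℝ) / (N : ℝ)))
      (S := fun _ => Set.univ) (fun _ => by positivity) (fun _ => hT')
    have h2 := gev_mono_set h1 (S' := Set.univ) (fun x _ i => Set.mem_univ _)
    simp only [Finset.prod_const_one, Finset.sum_const, Finset.card_univ, nsmul_eq_mul, Fintype.card_fin] at h2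
    exact gev_ofReal h2
  have hp10 : Hg ≤ Hg ^ 10 := by
    calc Hg = Hg ^ 1 := (pow_one Hg).symm
      _ ≤ Hg ^ 10 := pow_le_pow_right₀ hHg1 (by norm_num)
  have hheight : ∀ i k : Fin t.dim, (qHeight (((-(slotC l)) • t.C) i k) : ℝ) ≤ Hg := ?_
  have hsupp : ∀ x : Fin t.dim → ℝ, ((∏ i, gevTrap δ (2 * δ) (1 - 2 * δ) (1 - δ) (x i - (j : ℝ) / (N : ℝ)) : ℝ) : ℂ) ≠ 0 →
      ∀ i, |x i| ≤ Hg := ?_
  refine ⟨le_trans hH hHg, le_trans hd (Real.log_le_log hH0 hHg), hheight, hgev.smooth, hsupp,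
    fun n x => ?_, ?_⟩
  · exact gev_to_chart hgev (by norm_num) hHg1 (by positivity) (le_trans h2 hp10) (le_trans hHg1 hp10)
      (Set.mem_univ x) n
  · show ‖(1 : ℂ)‖ = 1
    simp
  · intro x hx' i
    have h3 : gevTrap δ (2 * δ) (1 - 2 * δ) (1 - δ) (x i - (j : ℝ) / (N : ℝ)) ≠ 0 := by
      intro h0
      apply hx'
      rw [Finset.prod_eq_zero (Finset.mem_univ i) h0]
      simp
    have h4 : δ < x i - (j : ℝ) / (N : ℝ) ∧ x i - (j : ℝ) / (N : ℝ) < 1 - δ := by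
      by_contra hcon
      apply h3
      apply gev_trap_zero (by linarith) (by linarith)
      by_cases h5 : δ < x i - (j : ℝ) / (N : ℝ)
      · right
        by_contra h6
        exact hcon ⟨h5, not_le.1 h6⟩
      · left
        exact not_lt.1 h5
    have h2e : (2 : ℝ) ≤ Real.exp 2 := by linarith [Real.add_one_le_exp (2 : ℝ)]
    rw [abs_le]
    constructor <;> linarith [h4.1, h4.2]
  · intro i k
    rw [Matrix.smul_apply, smul_eq_mul]
    have h3 : qHeight (-(slotC l)) ≤ 3 := by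
      rw [s4a_height_neg]
      fin_cases l <;> simp [slotC, qHeight]
    have h4 : (qHeight (-(slotC l) * t.C i k) : ℝ) ≤ (qHeight (-(slotC l)) : ℝ) * (qHeight (t.C i k) : ℝ) := by
      exact_mod_cast s4a_height_mul_le _ _
    have h5 : (qHeight (-(slotC l)) : ℝ) ≤ 3 := by exact_mod_cast h3
    refine le_trans h4 (le_trans (mul_le_mul h5 (hC i k) (by positivity) (by norm_num)) h1)

end

end Claimed.Agent.R258
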