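/-
Row 258 (S0498), Lemma 8.1, first half (linearization.tex l.143-200), layer (A).  Architect: helper61.     THE FIRST-MATCH EXPANSION.
No paper reading is needed.

`S8Exp` = one finite expansion (number of modes, ONE quadratic coefficient, linear coefficients, amplitudes); `S8Exp.Ok` = its properties on the first-match cell `I₀`:
      `ζ^ρ(y) φ(y) e(-c_l p^ρ(y)) = ∑_{i<n} a_i e(λ y² + γ_i y) + O(ε)` on `I₀`,   `n, ∑|a_i|, |λ| |I₀|² ≤ D1`,   (21): `γ_i - γ_i' = q·(θ_v, ϑ)`, height `≤ D1`.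

ROUTE.  (1) `ζ^ρ e(-c_l p^ρ)` is the chart `s8GaugeChart` (AGauge.lean);  (2) `Q = s4a_mul a (s8GaugeChart …)`;  (3) `s8a_split`: the endpoint splitting `locEdge Hp s t (a.tag l)` IS a splitting of `Q` at the scale `2^(-s)`
(swap the two blocks, multiply the curvature data by `-c_l`, reindex by `Fintype.equivFin`);  (4) `s8a_chart_cell`: translate `Q` to the left end of `I₀` (`s4a_translate`), expand (`s4a_chart_expand_trunc`), undo the translation;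
(5) `s8a_expand`: enumerate the finite frequency set, pad the coefficient vectors by zeros.

LEAVES.
 P-S8A-SPLIT = `s8a_split`.   PLAN.  `ι = Fin a.d ⊕ Fin t.dim`, `e = Fintype.equivFin ι`, `σ = Sum.swap : ι → Fin t.dim ⊕ Fin a.d`.  Unfold `locEdge, Split1`: `Pf₀`.  Put `Pf i k = Pf₀ (σ (e.symm i)) (σ (e.symm k))` (`Matrix.submatrix`; `Matrix.submatrix_mul_equiv`, `Matrix.transpose_submatrix`).
   With `c = slotC l ≠ 0`, `r = 2^(-s)`:  `Q.C = (-c) • (locC t (a.tag l)).submatrix (σ∘e.symm) (σ∘e.symm)` (blocks: `a.C = (-c) • (-(c⁻¹ • a.C))`), `r * Q.th i = locV s t (a.tag l) (σ (e.symm i))`, `r² Q.lam = -c * locLam …`.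
   sums over `Fin Q.d` are transported by `Equiv.sum_comp`.  `s4a_mv, s4a_bil` unfold to double sums = `Matrix.mulVec`, `dotProduct` of `ratM`.  Result: `(Q.lam + s4a_quad Q.C Pf Q.th) r² = -c * effCurv Pf₀ …`, `|c| ≤ 3`.
 P-S8A-CELL = `s8a_chart_cell`.   PLAN.  `τ = I₀.left`.  `s4a_translate`: `Q' = s4a_shift Q bet' chi' unit'`, `Q'.Cplx H'`, `H' = s4b_qp C (log H)`, `Q'.eval y' = Q.eval (y' + τ)`; `Q'.d, th, C, lam` are those of `Q` by `rfl`.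
   `s4a_chart_expand_trunc` for `(Q', H', B, ε, Pf)`: `S, a'`, `R = s4a_xR Q.C Pf H' B` (`1 ≤ R ≤ qp` from `s4a_chart_expand 1`).  For `y ∈ I₀.set`: `y' = y - τ ∈ [0, len)`.   With `λ = Q.lam + quad`, `ν_ℓ = ∑ ℓ_i th_i / R`:
   `λ y'² + bet' y' + ν_ℓ y' = λ y² + (γ0 + ν_ℓ) y + κ_ℓ`, `γ0 = bet' - 2 λ τ`, `κ_ℓ = λ τ² - bet' τ - ν_ℓ τ`;  `a ℓ = a' ℓ * ee κ_ℓ`.  Numerics: `s4a_qp_comp`, `s4a_qp_mono`.
 P-S8A-EXP = `s8a_expand`.   PLAN.  `g = s8GaugeChart t l δ N j`, `Hg = 3 H + d 12000/δ`-type bound (`s8a_gchart_cplx`), `Q = s4a_mul a g`, `Q.Cplx (H Hg)`, `Q.eval = a.eval * g.eval` (`s4a_mul_eval`), `s8a_gchart_eval`.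
   `s8a_split` + `s8a_chart_cell` (`B = Hp`, `I₀.len = 2^(-I₀.depth)`).  Enumerate `S` by `S.equivFin` (or `S.toList`): `E.n = S.card`, `E.gam i = γ0 + ν_{ℓ_i}`, `E.a i = a ℓ_i`, `E.lam = λ`; `Finset.sum_range` ↔ `∑ ℓ ∈ S` (`Finset.sum_equiv`/`Fin.sum_univ_eq_sum_range`).
   (21): `γ_i - γ_i' = ∑_x (ℓ_i - ℓ_i')_x Q.th_x / R`; `Q.th (e (inl u)) = a.th u`, `Q.th (e (inr u)) = t.th u = Q0 ϑ_u`; coefficient vector `q (inl u) = (ℓ-ℓ')(e (inl u)) / R` for `u < a.d`, `q (inr u) = Q0 (ℓ-ℓ')(e (inr u)) / R` for `u < t.dim`, `0` otherwise;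
   heights by `s8c_ht_div` (`|num| ≤ 2 Q0 D`, `R ≤ D`), `s8a_pad_sum`.
-/
import Claimed.Agent.R258.S8.AGauge
import Claimed.Agent.R258.S6a.SplitBasic

set_option autoImplicit false
open MeasureTheory
open scoped ContDiff

namespace Claimed.Agent.R258

noncomputable section

/-- one first-match expansion -/
structure S8Exp where
  n : ℕ
  lam : ℝ
  gam : ℕ → ℝ
  a : ℕ → ℂ

/-- the properties of the expansion of `φ` (role constant `c = c_l`, gauge `g`, horizontal vector `thv`) on the cell `I₀` -/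
structure S8Exp.Ok (E : S8Exp) {d : ℕ} (g : S8Gauge d) (c : ℝ) (φ : ℝ → ℂ) (thv : Fin d → ℝ) (I₀ : Cell) (D1 : ℕ) (ε : ℝ) :
    Prop where
  n_le : E.n ≤ D1
  a_sum : ∑ i ∈ Finset.range E.n, ‖E.a i‖ ≤ D1
  curv : |E.lam| * I₀.len ^ 2 ≤ D1
  gam : ∀ i < E.n, ∀ i' < E.n, ∃ q : Fin d ⊕ Fin d → ℚ, s8cHtLe D1 q ∧ E.gam i - E.gam i' = s8cEv q (Sum.elim thv g.vth)
  approx : ∀ y ∈ I₀.set, ‖(g.cut y : ℂ) * φ y * ee (-(c * g.pph y))
      - ∑ i ∈ Finset.range E.n, E.a i * ee (E.lam * y ^ 2 + E.gam i * y)‖ ≤ ε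

open scoped Matrix in
theorem s8a_mv_eq {ι : Type} [Fintype ι] (P : Matrix ι ι ℚ) (u : ι → ℝ) : s4a_mv P u = ratM P *ᵥ u := rfl

open scoped Matrix in
theorem s8a_bil_eq {ι : Type} [Fintype ι] (C : Matrix ι ι ℚ) (u w : ι → ℝ) : s4a_bil C u w = u ⬝ᵥ (ratM C *ᵥ w) := by
  simp only [s4a_bil, Matrix.mulVec, dotProduct, Finset.mul_sum, s6a_ratM_apply, mul_assoc]

open scoped Matrix in
/-- the splitting (2) in the notation of block [S4a], after multiplication of the curvature data by `k` -/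
theorem s8a_split_gen {ι : Type} [Fintype ι] [DecidableEq ι] (Hp r : ℝ) (k : ℚ) (th : ι → ℝ) (C' : Matrix ι ι ℚ)
    (Lam' lam : ℝ) (hlam : lam * r ^ 2 = (k : ℝ) * Lam') (hk : |(k : ℝ)| ≤ 3) (hr : 0 ≤ r)
    (h : Split1 Hp (fun i => r * th i) C' Lam') :
    ∃ Pf : Matrix ι ι ℚ, s4a_HtLe Pf Hp ∧ s4a_IsProj Pf ∧ s4a_Iso (k • C') Pf ∧
      (∀ i, |s4a_mv (1 - Pf) th i| * r ≤ Hp) ∧ |lam + s4a_quad (k • C') Pf th| * r ^ 2 ≤ 3 * Hp := by
  obtain ⟨Pf, h1, h2, h3, h4, h5, h6⟩ := h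
  have hV : (fun i => r * th i) = r • th := rfl
  rw [hV] at h5 h6
  refine ⟨Pf, h3, ⟨h2, h1⟩, ?_, fun i => ?_, ?_⟩
  · unfold s4a_Iso
    rw [h2, Matrix.transpose_smul, ← smul_sub, Matrix.mul_smul, Matrix.smul_mul, h4, smul_zero]
  · have e : s4a_mv (1 - Pf) th i * r = (r • th) i - (ratM Pf *ᵥ (r • th)) i := by
      rw [s8a_mv_eq, s6a_ratM_sub, s6a_ratM_one, Matrix.sub_mulVec, Matrix.one_mulVec, Matrix.mulVec_smul]
      simp only [Pi.sub_apply, Pi.smul_apply, smul_eq_mul]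
      ring
    rw [← abs_of_nonneg hr, ← abs_mul, e]
    exact h5 i
  · have e : (lam + s4a_quad (k • C') Pf th) * r ^ 2 = (k : ℝ) * effCurv Pf C' (r • th) Lam' := by
      unfold s4a_quad effCurv
      simp only [s8a_bil_eq, s8a_mv_eq, s6a_ratM_sub, s6a_ratM_one, s6a_ratM_smul, s6a_ratM_transpose,
        Matrix.sub_mulVec, Matrix.one_mulVec, Matrix.mulVec_smul, Matrix.smul_mulVec, Matrix.mulVec_sub,
        dotProduct_smul, smul_dotProduct, dotProduct_sub, sub_dotProduct, smul_eq_mul, ← smul_sub]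
      have t1 : ∀ x y : ι → ℝ, x ⬝ᵥ ((ratM C')ᵀ *ᵥ y) = y ⬝ᵥ (ratM C' *ᵥ x) := by
        intro x y
        rw [Matrix.mulVec_transpose, dotProduct_comm, Matrix.dotProduct_mulVec]
      simp only [t1]
      push_cast
      linear_combination hlam
    have hr2 : (0 : ℝ) ≤ r ^ 2 := by positivity
    rw [← abs_of_nonneg hr2, ← abs_mul, e, abs_mul]
    exact mul_le_mul hk h6 (abs_nonneg _) (by norm_num)

/-- the same for a chart built by `s4a_mk` -/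
theorem s8a_split_mk {ι : Type} [Fintype ι] [DecidableEq ι] (th : ι → ℝ) (C : Matrix ι ι ℚ) (lam bet : ℝ)
    (chi : (ι → ℝ) → ℂ) (unit : ℂ) (Hp r : ℝ) (k : ℚ) (C' : Matrix ι ι ℚ) (Lam' : ℝ) (hC : C = k • C')
    (hlam : lam * r ^ 2 = (k : ℝ) * Lam') (hk : |(k : ℝ)| ≤ 3) (hr : 0 ≤ r)
    (h : Split1 Hp (fun i => r * th i) C' Lam') :
    ∃ Pf : Matrix (Fin (s4a_mk th C lam bet chi unit).d) (Fin (s4a_mk th C lam bet chi unit).d) ℚ,
      s4a_HtLe Pf Hp ∧ s4a_IsProj Pf ∧ s4a_Iso (s4a_mk th C lam bet chi unit).C Pf ∧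
      (∀ i, |s4a_mv (1 - Pf) (s4a_mk th C lam bet chi unit).th i| * r ≤ Hp) ∧
      |(s4a_mk th C lam bet chi unit).lam
        + s4a_quad (s4a_mk th C lam bet chi unit).C Pf (s4a_mk th C lam bet chi unit).th| * r ^ 2 ≤ 3 * Hp := by
  have h1 := (s6a_split_reindex (Fintype.equivFin ι) Hp _ _ _).1 h
  have h2 := s8a_split_gen Hp r k (fun i => th ((Fintype.equivFin ι).symm i))
    (Matrix.reindex (Fintype.equivFin ι) (Fintype.equivFin ι) C') Lam' lam hlam hk hr h1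
  have hC' : (s4a_mk th C lam bet chi unit).C =
      k • Matrix.reindex (Fintype.equivFin ι) (Fintype.equivFin ι) C' := by
    ext i j
    show C _ _ = _
    rw [hC]
    rfl
  rw [hC']
  exact h2

theorem s8a_slotC_ne (l : Fin 4) : slotC l ≠ 0 := by
  fin_cases l <;> simp [slotC]

theorem s8a_slotC_abs (l : Fin 4) : |((-(slotC l) : ℚ) : ℝ)| ≤ 3 := by
  fin_cases l <;> simp [slotC]

/-- the endpoint splitting of the pair (centre tag, tag of the column) is a splitting of the product chart -/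
theorem s8a_split (t : LocTag) (a : Chart) (l : Fin 4) (δ : ℝ) (N j : ℕ) (s : ℤ) (Hp : ℝ) (hHp : 1 ≤ Hp)
    (h : locEdge Hp s t (a.tag l)) :
    ∃ Pf : Matrix (Fin (s4a_mul a (s8GaugeChart t l δ N j)).d) (Fin (s4a_mul a (s8GaugeChart t l δ N j)).d) ℚ,
      s4a_HtLe Pf Hp ∧ s4a_IsProj Pf ∧ s4a_Iso (s4a_mul a (s8GaugeChart t l δ N j)).C Pf ∧
      (∀ i, |s4a_mv (1 - Pf) (s4a_mul a (s8GaugeChart t l δ N j)).th i| * (2 : ℝ) ^ (-s) ≤ Hp) ∧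
      |(s4a_mul a (s8GaugeChart t l δ N j)).lam
        + s4a_quad (s4a_mul a (s8GaugeChart t l δ N j)).C Pf (s4a_mul a (s8GaugeChart t l δ N j)).th| * ((2 : ℝ) ^ (-s)) ^ 2
        ≤ 3 * Hp := by
  have hc := s8a_slotC_ne l
  have hc' : ((slotC l : ℚ) : ℝ) ≠ 0 := by exact_mod_cast hc
  have h1 := (s6a_split_reindex (Equiv.sumComm (Fin t.dim) (Fin a.d)) Hp _ _ _).1 h
  unfold s4a_mul
  refine s8a_split_mk _ _ _ _ _ _ Hp ((2 : ℝ) ^ (-s)) (-(slotC l))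
    (Matrix.reindex (Equiv.sumComm (Fin t.dim) (Fin a.d)) (Equiv.sumComm (Fin t.dim) (Fin a.d)) (locC t (a.tag l)))
    (locLam s t (a.tag l)) ?_ ?_ (s8a_slotC_abs l) (by positivity) ?_
  · ext i k
    rcases i with i | i <;> rcases k with k | k
    · show a.C i k = -(slotC l) * (-((slotC l)⁻¹ * a.C i k))
      field_simp
    · show (0 : ℚ) = -(slotC l) * 0
      simp
    · show (0 : ℚ) = -(slotC l) * 0
      simp
    · rfl
  · show (a.lam + -(((slotC l : ℚ) : ℝ)) * t.lam) * ((2 : ℝ) ^ (-s)) ^ 2 =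
      ((-(slotC l) : ℚ) : ℝ) * (((2 : ℝ) ^ (-s)) ^ 2 * (t.lam - a.lam / ((slotC l : ℚ) : ℝ)))
    push_cast
    field_simp
    ring
  · have e : (fun i => (2 : ℝ) ^ (-s) * Sum.elim a.th (s8GaugeChart t l δ N j).th i) =
        locV s t (a.tag l) ∘ (Equiv.sumComm (Fin t.dim) (Fin a.d)).symm := by
      funext i
      rcases i with i | i <;> rfl
    rw [e]
    exact h1

/-- numerics of `s8a_chart_cell`: a quasipolynomial bound after the translation -/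
theorem s8a_cell_num (C₀ C : ℕ) {H B ε y : ℝ} (hH : 1 ≤ H) (hB : 1 ≤ B) (hε : 0 < ε) (hε2 : ε < 1 / 2) (hy0 : 0 ≤ y)
    (hy : y ≤ Real.log (s4b_qp C₀ (Real.log H)) + Real.log B + Real.log (1 / ε)) :
    s4b_qp C y ≤ s4b_qp (C * (1 + (C₀ + 1)) ^ C + C * (C₀ + 1)) (Real.log H + Real.log B + Real.log (1 / ε)) := by
  have h1 : 0 ≤ Real.log H := Real.log_nonneg hH
  have h2 : 0 ≤ Real.log B := Real.log_nonneg hB
  have h3 : 0 ≤ Real.log (1 / ε) := by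
    apply Real.log_nonneg
    rw [le_div_iff₀ hε]
    linarith
  have hx : 0 ≤ Real.log H + Real.log B + Real.log (1 / ε) := by linarith
  refine s4a_qp_comp C (C₀ + 1) hx hy0 (le_trans hy ?_)
  rw [s4a_log_qp]
  have h4 : s4a_pl C₀ (Real.log H) ≤ s4a_pl C₀ (Real.log H + Real.log B + Real.log (1 / ε)) :=
    s4a_pl_mono le_rfl h1 (by linarith)
  have h5 := s4a_pl_self hx
  have h6 := s4a_pl_add C₀ 1 hx
  linarith

/-- Lemma 4.4 on a cell that is not centred at the origin -/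
theorem s8a_chart_cell : ∃ Cq : ℕ, ∀ (Q : Chart) (H B ε : ℝ) (Pf : Matrix (Fin Q.d) (Fin Q.d) ℚ) (I₀ : Cell),
    Q.Cplx H → 1 ≤ B → 0 < ε → ε < 1 / 2 → s4a_HtLe Pf B → s4a_IsProj Pf → s4a_Iso Q.C Pf →
    (∀ i, |s4a_mv (1 - Pf) Q.th i| * I₀.len ≤ B) →
    ∃ (S : Finset (Fin Q.d → ℤ)) (a : (Fin Q.d → ℤ) → ℂ) (γ0 : ℝ) (R : ℕ), 1 ≤ R ∧
      ((R : ℝ) ≤ s4b_qp Cq (Real.log H + Real.log B + Real.log (1 / ε))) ∧
      ((S.card : ℝ) ≤ s4b_qp Cq (Real.log H + Real.log B + Real.log (1 / ε))) ∧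
      (∀ ℓ ∈ S, ‖ℓ‖ ≤ s4b_qp Cq (Real.log H + Real.log B + Real.log (1 / ε))) ∧
      (∑ ℓ ∈ S, ‖a ℓ‖ ≤ s4b_qp Cq (Real.log H + Real.log B + Real.log (1 / ε))) ∧
      ∀ y ∈ I₀.set, ‖Q.eval y - ∑ ℓ ∈ S, a ℓ * ee ((Q.lam + s4a_quad Q.C Pf Q.th) * y ^ 2
          + (γ0 + ∑ i, (ℓ i : ℝ) * Q.th i / (R : ℝ)) * y)‖ ≤ ε := by
  obtain ⟨C₀, hT⟩ := s4a_translate
  obtain ⟨C₁, hE⟩ := s4a_chart_expand 1
  obtain ⟨C₂, hTr⟩ := s4a_chart_expand_trunc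
  obtain ⟨K₁, hK₁⟩ : ∃ K : ℕ, K = C₁ * (1 + (C₀ + 1)) ^ C₁ + C₁ * (C₀ + 1) := ⟨_, rfl⟩
  obtain ⟨K₂, hK₂⟩ : ∃ K : ℕ, K = C₂ * (1 + (C₀ + 1)) ^ C₂ + C₂ * (C₀ + 1) := ⟨_, rfl⟩
  refine ⟨max K₁ K₂, fun Q H B ε Pf I₀ hQ hB hε hε2 hPf hP hI hsl => ?_⟩
  have hH1 : (1 : ℝ) ≤ H := le_trans (Real.one_le_exp (by norm_num)) hQ.H_ge
  have l1 : 0 ≤ Real.log H := Real.log_nonneg hH1
  have l2 : 0 ≤ Real.log B := Real.log_nonneg hB
  have l3 : 0 ≤ Real.log (1 / ε) := by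
    apply Real.log_nonneg
    rw [le_div_iff₀ hε]
    linarith
  obtain ⟨x, hx⟩ : ∃ x : ℝ, x = Real.log H + Real.log B + Real.log (1 / ε) := ⟨_, rfl⟩
  have hx0 : 0 ≤ x := by rw [hx]; linarith
  obtain ⟨τ, hτ⟩ : ∃ τ : ℝ, τ = I₀.left := ⟨_, rfl⟩
  obtain ⟨bet', chi', unit', hQc, hQe⟩ := hT Q H τ hQ
  obtain ⟨H', hH'⟩ : ∃ H' : ℝ, H' = s4b_qp C₀ (Real.log H) := ⟨_, rfl⟩
  rw [← hH'] at hQc
  have l4 : 0 ≤ Real.log H' := by
    rw [hH']
    exact Real.log_nonneg (s4a_qp_one_le C₀ l1)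
  obtain ⟨hR1, hR2, -⟩ := hE (s4a_shift Q bet' chi' unit') H' B Pf hQc hB hPf hP hI
  obtain ⟨S, a', hS1, hS2, hS3, hS4⟩ := hTr (s4a_shift Q bet' chi' unit') H' B ε Pf hQc hB hε hε2 hPf hP hI
  obtain ⟨R, hR⟩ : ∃ R : ℕ, R = s4a_xR (s4a_shift Q bet' chi' unit').C Pf H' B := ⟨_, rfl⟩
  rw [← hR] at hR1 hR2 hS4
  have n1 : s4b_qp C₁ (Real.log H' + Real.log B) ≤ s4b_qp (max K₁ K₂) x := by
    refine le_trans ?_ (s4a_qp_mono (le_max_left K₁ K₂) hx0 le_rfl)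
    rw [hK₁, hx]
    exact s8a_cell_num C₀ C₁ hH1 hB hε hε2 (by linarith) (by rw [← hH']; linarith)
  have n2 : s4b_qp C₂ (Real.log H' + Real.log B + Real.log (1 / ε)) ≤ s4b_qp (max K₁ K₂) x := by
    refine le_trans ?_ (s4a_qp_mono (le_max_right K₁ K₂) hx0 le_rfl)
    rw [hK₂, hx]
    exact s8a_cell_num C₀ C₂ hH1 hB hε hε2 (by linarith) (by rw [← hH'])
  have n3 : s4b_qp C₂ (Real.log H' + Real.log B) ≤ s4b_qp (max K₁ K₂) x := by
    refine le_trans ?_ (s4a_qp_mono (le_max_right K₁ K₂) hx0 le_rfl)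
    rw [hK₂, hx]
    exact s8a_cell_num C₀ C₂ hH1 hB hε hε2 (by linarith) (by rw [← hH']; linarith)
  rw [← hx]
  obtain ⟨lam, hlam⟩ : ∃ lam : ℝ, lam = Q.lam + s4a_quad Q.C Pf Q.th := ⟨_, rfl⟩
  obtain ⟨ν, hν⟩ : ∃ ν : (Fin Q.d → ℤ) → ℝ, ∀ ℓ, ν ℓ = ∑ i, (ℓ i : ℝ) * Q.th i / (R : ℝ) := ⟨_, fun _ => rfl⟩
  refine ⟨S, fun ℓ => a' ℓ * ee (lam * τ ^ 2 - bet' * τ - ν ℓ * τ), bet' - 2 * lam * τ, R, hR1, le_trans hR2 n1,
    le_trans hS1 n2, fun ℓ hℓ => le_trans (hS2 ℓ hℓ) n2, ?_, fun y hy => ?_⟩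
  · refine le_trans (le_of_eq ?_) (le_trans hS3 n3)
    refine Finset.sum_congr rfl fun ℓ _ => ?_
    rw [norm_mul, gev_ee_norm, mul_one]
  · have hy' := cell_mem_set.1 hy
    rw [cell_right_eq, ← hτ] at hy'
    have hy0 : 0 ≤ y - τ := by linarith [hy'.1]
    have hy1 : y - τ ≤ I₀.len := by linarith [hy'.2]
    have h4 := hS4 (y - τ) (fun i => by
      rw [abs_mul, abs_of_nonneg hy0]
      exact le_trans (mul_le_mul_of_nonneg_left hy1 (abs_nonneg _)) (hsl i))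
    rw [hQe, sub_add_cancel] at h4
    refine le_trans (le_of_eq ?_) h4
    congr 2
    rw [Finset.mul_sum]
    refine Finset.sum_congr rfl fun ℓ _ => ?_
    show _ = ee ((Q.lam + s4a_quad Q.C Pf Q.th) * (y - τ) ^ 2 + bet' * (y - τ)) *
      (a' ℓ * ee ((∑ i, (ℓ i : ℝ) * Q.th i / (R : ℝ)) * (y - τ)))
    rw [← hlam, ← hν, mul_assoc, ← gev_ee_add, mul_left_comm, ← gev_ee_add]
    congr 2
    ring

/-- enumeration of a finite set -/
def s8aEn {α : Type*} [Inhabited α] (S : Finset α) (i : ℕ) : α :=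
  if h : i < S.card then (S.equivFin.symm ⟨i, h⟩ : α) else default

theorem s8a_en_mem {α : Type*} [Inhabited α] (S : Finset α) {i : ℕ} (h : i < S.card) : s8aEn S i ∈ S := by
  unfold s8aEn
  rw [dif_pos h]
  exact (S.equivFin.symm ⟨i, h⟩).2

theorem s8a_en_sum {α M : Type*} [Inhabited α] [AddCommMonoid M] (S : Finset α) (F : α → M) :
    ∑ i ∈ Finset.range S.card, F (s8aEn S i) = ∑ ℓ ∈ S, F ℓ := by
  rw [Finset.sum_range, ← Finset.sum_coe_sort S F, ← Equiv.sum_comp S.equivFin.symm (fun s : S => F s.1)]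
  refine Finset.sum_congr rfl fun i _ => ?_
  unfold s8aEn
  rw [dif_pos i.isLt]

/-- (21): the rational coefficient vector of a difference of two frequencies -/
theorem s8a_gam_aux {n₁ n₂ d : ℕ} (h₁ : n₁ ≤ d) (h₂ : n₂ ≤ d) (th₁ : Fin n₁ → ℝ) (th₂ : Fin n₂ → ℝ) (Q0 R D1 : ℕ)
    (hQ0 : 0 < Q0) (hR : 0 < R) (hRD : R ≤ D1) (p : Fin n₁ ⊕ Fin n₂ → ℤ) (hp : ∀ z, Q0 * (p z).natAbs ≤ D1) :
    ∃ q : Fin d ⊕ Fin d → ℚ, s8cHtLe D1 q ∧ ∑ z, (p z : ℝ) * Sum.elim th₁ th₂ z / (R : ℝ) =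
      s8cEv q (Sum.elim (s8PadV d th₁) (fun i => s8PadV d th₂ i / (Q0 : ℝ))) := by
  have hQ0' : (Q0 : ℝ) ≠ 0 := by exact_mod_cast hQ0.ne'
  have h0 : s8cHt 0 ≤ D1 := by
    have : s8cHt 0 = 1 := by simp [s8cHt]
    omega
  refine ⟨Sum.elim (fun i => if h : i.val < n₁ then ((p (Sum.inl ⟨i.val, h⟩) : ℤ) : ℚ) / (R : ℚ) else 0)
    (fun i => if h : i.val < n₂ then (((Q0 : ℤ) * p (Sum.inr ⟨i.val, h⟩) : ℤ) : ℚ) / (R : ℚ) else 0), ?_, ?_⟩
  · intro z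
    rcases z with i | i
    · simp only [Sum.elim_inl]
      by_cases h : i.val < n₁
      · rw [dif_pos h]
        refine s8c_ht_div _ R D1 hR (le_trans ?_ (hp (Sum.inl ⟨i.val, h⟩))) hRD
        exact Nat.le_mul_of_pos_left _ hQ0
      · rw [dif_neg h]
        exact h0
    · simp only [Sum.elim_inr]
      by_cases h : i.val < n₂
      · rw [dif_pos h]
        refine s8c_ht_div _ R D1 hR (le_trans (le_of_eq ?_) (hp (Sum.inr ⟨i.val, h⟩))) hRD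
        rw [Int.natAbs_mul, Int.natAbs_natCast]
      · rw [dif_neg h]
        exact h0
  · unfold s8cEv
    rw [Fintype.sum_sum_type, Fintype.sum_sum_type]
    simp only [Sum.elim_inl, Sum.elim_inr]
    congr 1
    · rw [← s8a_pad_sum h₁]
      refine Finset.sum_congr rfl fun i _ => ?_
      unfold s8PadV
      by_cases h : i.val < n₁
      · rw [dif_pos h, dif_pos h, dif_pos h]
        push_cast
        ring
      · rw [dif_neg h, dif_neg h, dif_neg h]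
        simp
    · rw [← s8a_pad_sum h₂]
      refine Finset.sum_congr rfl fun i _ => ?_
      unfold s8PadV
      by_cases h : i.val < n₂
      · rw [dif_pos h, dif_pos h, dif_pos h]
        push_cast
        field_simp
      · rw [dif_neg h, dif_neg h, dif_neg h]
        simp

theorem s8a_mul_th (a : Chart) (t : LocTag) (l : Fin 4) (δ : ℝ) (N j : ℕ) :
    ∃ e : Fin a.d ⊕ Fin t.dim ≃ Fin (s4a_mul a (s8GaugeChart t l δ N j)).d,
      ∀ x, (s4a_mul a (s8GaugeChart t l δ N j)).th x = Sum.elim a.th t.th (e.symm x) :=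
  ⟨Fintype.equivFin _, fun _ => rfl⟩

/-- numerics of `s8a_expand` -/
theorem s8a_expand_num (C₃ : ℕ) : ∃ Cq : ℕ, ∀ (n : ℕ) (H Hp δ ε Q0 : ℝ), Real.exp 2 ≤ H → (n : ℝ) ≤ Real.log H →
    1 ≤ Hp → 0 < δ → δ ≤ 1 / 8 → 0 < ε → ε < 1 / 2 → 0 ≤ Q0 → Q0 ≤ H ^ (n ^ 2) →
    s4b_qp C₃ (Real.log (H * (3 * H + (n : ℝ) * (12000 / δ))) + Real.log Hp + Real.log (1 / ε))
      ≤ s4b_qp Cq (Real.log H + Real.log Hp + Real.log (1 / δ) + Real.log (1 / ε)) ∧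
    3 * Hp ≤ s4b_qp Cq (Real.log H + Real.log Hp + Real.log (1 / δ) + Real.log (1 / ε)) ∧
    Q0 * (2 * s4b_qp C₃ (Real.log (H * (3 * H + (n : ℝ) * (12000 / δ))) + Real.log Hp + Real.log (1 / ε)))
      ≤ s4b_qp Cq (Real.log H + Real.log Hp + Real.log (1 / δ) + Real.log (1 / ε)) := by
  obtain ⟨c0, hc0⟩ : ∃ c0 : ℕ, 12003 ≤ c0 := ⟨12003, le_rfl⟩
  obtain ⟨K, hK⟩ : ∃ K : ℕ, K = C₃ * (1 + c0) ^ C₃ + C₃ * c0 := ⟨_, rfl⟩
  refine ⟨K + 5, fun n H Hp δ ε Q0 hH hn hHp hδ hδ' hε hε2 hQ0 hQ => ?_⟩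
  have hH1 : (1 : ℝ) ≤ H := le_trans (Real.one_le_exp (by norm_num)) hH
  have hH0 : (0 : ℝ) < H := by linarith
  have l1 : 0 ≤ Real.log H := Real.log_nonneg hH1
  have l2 : 0 ≤ Real.log Hp := Real.log_nonneg hHp
  have hδ1 : 1 ≤ 1 / δ := by
    rw [le_div_iff₀ hδ]
    linarith
  have l3 : 0 ≤ Real.log (1 / δ) := Real.log_nonneg hδ1
  have l4 : 0 ≤ Real.log (1 / ε) := by
    apply Real.log_nonneg
    rw [le_div_iff₀ hε]
    linarith
  obtain ⟨x, hx⟩ : ∃ x : ℝ, x = Real.log H + Real.log Hp + Real.log (1 / δ) + Real.log (1 / ε) := ⟨_, rfl⟩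
  rw [← hx]
  have hx0 : 0 ≤ x := by rw [hx]; linarith
  have hn0 : (0 : ℝ) ≤ (n : ℝ) := by positivity
  obtain ⟨Hg, hHg⟩ : ∃ Hg : ℝ, Hg = 3 * H + (n : ℝ) * (12000 / δ) := ⟨_, rfl⟩
  rw [← hHg]
  have hHg0 : 0 < Hg := by rw [hHg]; positivity
  have hHg1 : 1 ≤ Hg := by
    rw [hHg]
    have : 0 ≤ (n : ℝ) * (12000 / δ) := by positivity
    linarith
  have hHgle : Hg ≤ 12003 * H * (1 / δ) := by
    rw [hHg]
    have h1 : (n : ℝ) ≤ H := le_trans hn (Real.log_le_self hH0.le)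
    have h2 : (n : ℝ) * (12000 / δ) ≤ H * (12000 / δ) := mul_le_mul_of_nonneg_right h1 (by positivity)
    have h3 : 3 * H ≤ 3 * H * (1 / δ) := le_mul_of_one_le_right (by positivity) hδ1
    have e : 12003 * H * (1 / δ) = 3 * H * (1 / δ) + H * (12000 / δ) := by ring
    linarith
  have lHg : Real.log Hg ≤ 12003 + Real.log H + Real.log (1 / δ) := by
    refine le_trans (Real.log_le_log hHg0 hHgle) ?_
    rw [Real.log_mul (by positivity) (by positivity), Real.log_mul (by norm_num) hH0.ne']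
    have : Real.log 12003 ≤ 12003 := Real.log_le_self (by norm_num)
    linarith
  obtain ⟨y, hy⟩ : ∃ y : ℝ, y = Real.log (H * Hg) + Real.log Hp + Real.log (1 / ε) := ⟨_, rfl⟩
  rw [← hy]
  have hyeq : y = Real.log H + Real.log Hg + Real.log Hp + Real.log (1 / ε) := by
    rw [hy, Real.log_mul hH0.ne' hHg0.ne']
  have hy0 : 0 ≤ y := by
    rw [hyeq]
    have := Real.log_nonneg hHg1
    linarith
  have hypl : y ≤ s4a_pl c0 x := by
    refine le_trans ?_ (s4a_pl_of_le (N := c0) (k := 1) (a := 12003) hx0 (by exact_mod_cast hc0) (by omega))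
    rw [hyeq, pow_one]
    rw [hx] at hx0 ⊢
    linarith
  have hD : s4b_qp C₃ y ≤ s4b_qp K x := by
    rw [hK]
    exact s4a_qp_comp C₃ c0 hx0 hy0 hypl
  have hD0 : 0 < s4b_qp C₃ y := s4a_qp_pos _ _
  refine ⟨le_trans hD (s4a_qp_mono (by omega) hx0 le_rfl), ?_, ?_⟩
  · have h1 : (3 : ℝ) ≤ s4b_qp 3 x := by exact_mod_cast s4a_qp_nat 3 hx0
    have h2 : Hp ≤ s4b_qp 1 x := s4a_qp_param hx0 (by linarith) (by rw [hx]; linarith)
    refine le_trans (mul_le_mul h1 h2 (by linarith) (s4a_qp_pos _ _).le) ?_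
    exact le_trans (s4a_qp_mul 3 1 hx0) (s4a_qp_mono (by omega) hx0 le_rfl)
  · have h1 : (2 : ℝ) ≤ s4b_qp 2 x := by exact_mod_cast s4a_qp_nat 2 hx0
    have h2 : Q0 ≤ s4b_qp 3 x := by
      refine le_trans hQ ?_
      have e : H ^ (n ^ 2) = Real.exp (((n ^ 2 : ℕ) : ℝ) * Real.log H) := by
        rw [Real.exp_nat_mul, Real.exp_log hH0]
      rw [e]
      refine s4a_qp_of_exp (le_trans ?_ (s4a_pl_of_le (N := 3) (k := 3) (a := 1) hx0 (by norm_num) le_rfl))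
      have hnx : (n : ℝ) ≤ 1 + x := by rw [hx]; linarith
      have hLx : Real.log H ≤ 1 + x := by rw [hx]; linarith
      push_cast
      have h5 : (n : ℝ) ^ 2 ≤ (1 + x) ^ 2 := pow_le_pow_left₀ hn0 hnx 2
      calc (n : ℝ) ^ 2 * Real.log H ≤ (1 + x) ^ 2 * (1 + x) := mul_le_mul h5 hLx l1 (by positivity)
        _ = 1 * (1 + x) ^ 3 := by ring
    have h3 : 2 * s4b_qp C₃ y ≤ s4b_qp 2 x * s4b_qp K x := mul_le_mul h1 hD hD0.le (s4a_qp_pos _ _).le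
    have h4 : Q0 * (2 * s4b_qp C₃ y) ≤ s4b_qp 3 x * (s4b_qp 2 x * s4b_qp K x) :=
      mul_le_mul h2 h3 (by positivity) (s4a_qp_pos _ _).le
    refine le_trans h4 ?_
    have h5 := s4a_qp_mul 2 K hx0
    have h6 := s4a_qp_mul 3 (2 + K) hx0
    refine le_trans (le_trans (mul_le_mul_of_nonneg_left h5 (s4a_qp_pos _ _).le) h6) ?_
    exact s4a_qp_mono (by omega) hx0 le_rfl

/-- **Lemma 8.1, first half.**  `H` = complexity of the column and height of the centre tag, `Hp` = endpoint height, `δ` = cutoff width,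
`ε` = accuracy; the budget `D1` is quasipolynomial, uniformly in the offset `j`. -/
theorem s8a_expand : ∃ Cq : ℕ, ∀ (d : ℕ) (t : LocTag) (a : Chart) (l : Fin 4) (I₀ : Cell) (H Hp δ ε : ℝ) (N j D1 : ℕ),
    t.dim ≤ d → a.d ≤ d → a.Cplx H → (t.dim : ℝ) ≤ Real.log H → (∀ i k, (qHeight (t.C i k) : ℝ) ≤ H) →
    locEdge Hp I₀.depth t (a.tag l) → 1 ≤ Hp → 0 < δ → δ ≤ 1 / 8 → 0 < ε → ε < 1 / 2 → 0 < N → j < N →
    s4b_qp Cq (Real.log H + Real.log Hp + Real.log (1 / δ) + Real.log (1 / ε)) ≤ D1 →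
    ∃ E : S8Exp, E.Ok (s8GaugeOf d t δ N j) (s8c4 l) a.eval (s8PadV d a.th) I₀ D1 ε := by
  obtain ⟨C₃, hcell⟩ := s8a_chart_cell
  obtain ⟨Cq, hnum⟩ := s8a_expand_num C₃
  refine ⟨Cq, fun d t a l I₀ H Hp δ ε N j D1 htd had ha htl htC hedge hHp hδ hδ' hε hε2 hN hj hD1 => ?_⟩
  have hH := ha.H_ge
  have hH1 : (1 : ℝ) ≤ H := le_trans (Real.one_le_exp (by norm_num)) hH
  obtain ⟨Q0, hQ0⟩ : ∃ Q0 : ℕ, Q0 = s4a_den t.C := ⟨_, rfl⟩
  have hQ0pos : 0 < Q0 := by rw [hQ0]; exact s4a_den_pos t.C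
  have hQ0le : (Q0 : ℝ) ≤ H ^ (t.dim ^ 2) := by
    rw [hQ0]
    have := s4a_den_le t.C H htC
    rwa [Fintype.card_fin] at this
  obtain ⟨n1, n2, n3⟩ := hnum t.dim H Hp δ ε (Q0 : ℝ) hH htl hHp hδ hδ' hε hε2 (by positivity) hQ0le
  obtain ⟨Hg, hHg⟩ : ∃ Hg : ℝ, Hg = 3 * H + (t.dim : ℝ) * (12000 / δ) := ⟨_, rfl⟩
  rw [← hHg] at n1 n3
  have hg : (s8GaugeChart t l δ N j).Cplx Hg := by
    have p1 : 0 ≤ (t.dim : ℝ) * (12000 / δ) := by positivity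
    exact s8a_gchart_cplx t l δ H Hg N j hδ hδ' hN hj hH htl htC (by rw [hHg]; linarith) (by rw [hHg]; linarith)
  obtain ⟨e, he⟩ := s8a_mul_th a t l δ N j
  have hQc := s4a_mul_cplx ha hg
  have hQe : ∀ y, (s4a_mul a (s8GaugeChart t l δ N j)).eval y =
      ((s8GaugeOf d t δ N j).cut y : ℂ) * a.eval y * ee (-(s8c4 l * (s8GaugeOf d t δ N j).pph y)) := by
    intro y
    rw [s4a_mul_eval ha hg y, s8a_gchart_eval d t l δ N j htd hδ hδ' y]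
    ring
  obtain ⟨Pf, p1, p2, p3, p4, p5⟩ := s8a_split t a l δ N j I₀.depth Hp hHp hedge
  obtain ⟨Q, hQ⟩ : ∃ Q : Chart, Q = s4a_mul a (s8GaugeChart t l δ N j) := ⟨_, rfl⟩
  subst hQ
  obtain ⟨S, a', γ0, R, hR1, hR2, hS1, hS2, hS3, hS4⟩ :=
    hcell _ (H * Hg) Hp ε Pf I₀ hQc hHp hε hε2 p1 p2 p3 p4
  obtain ⟨D, hD⟩ : ∃ D : ℝ, D = s4b_qp C₃ (Real.log (H * Hg) + Real.log Hp + Real.log (1 / ε)) := ⟨_, rfl⟩
  rw [← hD] at hR2 hS1 hS2 hS3 n1 n3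
  have hDD1 : D ≤ (D1 : ℝ) := le_trans n1 hD1
  refine ⟨⟨S.card, (s4a_mul a (s8GaugeChart t l δ N j)).lam + s4a_quad (s4a_mul a (s8GaugeChart t l δ N j)).C Pf
      (s4a_mul a (s8GaugeChart t l δ N j)).th,
    fun i => γ0 + ∑ x, (s8aEn S i x : ℝ) * (s4a_mul a (s8GaugeChart t l δ N j)).th x / (R : ℝ),
    fun i => a' (s8aEn S i)⟩, ?_, ?_, ?_, ?_, ?_⟩
  · exact_mod_cast le_trans hS1 hDD1
  · show ∑ i ∈ Finset.range S.card, ‖a' (s8aEn S i)‖ ≤ (D1 : ℝ)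
    rw [s8a_en_sum S (fun ℓ => ‖a' ℓ‖)]
    exact le_trans hS3 hDD1
  · exact le_trans p5 (le_trans n2 hD1)
  · intro i hi i' hi'
    have hi1 : i < S.card := hi
    have hi2 : i' < S.card := hi'
    have hRD : R ≤ D1 := by exact_mod_cast le_trans hR2 hDD1
    obtain ⟨q, hq1, hq2⟩ := s8a_gam_aux had htd a.th t.th Q0 R D1 hQ0pos hR1 hRD
      (fun z => s8aEn S i (e z) - s8aEn S i' (e z)) (fun z => by
        have b1 : |(s8aEn S i (e z) : ℝ)| ≤ D := by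
          have := norm_le_pi_norm (s8aEn S i) (e z)
          rw [Int.norm_eq_abs] at this
          exact le_trans this (hS2 _ (s8a_en_mem S hi1))
        have b2 : |(s8aEn S i' (e z) : ℝ)| ≤ D := by
          have := norm_le_pi_norm (s8aEn S i') (e z)
          rw [Int.norm_eq_abs] at this
          exact le_trans this (hS2 _ (s8a_en_mem S hi2))
        have b3 : (((s8aEn S i (e z) - s8aEn S i' (e z)).natAbs : ℕ) : ℝ) ≤ 2 * D := by
          rw [Nat.cast_natAbs]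
          push_cast
          have := abs_sub (s8aEn S i (e z) : ℝ) (s8aEn S i' (e z) : ℝ)
          linarith
        have b4 : ((Q0 * (s8aEn S i (e z) - s8aEn S i' (e z)).natAbs : ℕ) : ℝ) ≤ (D1 : ℝ) := by
          push_cast
          refine le_trans (mul_le_mul_of_nonneg_left ?_ (by positivity)) (le_trans n3 hD1)
          exact_mod_cast b3
        exact_mod_cast b4)
    refine ⟨q, hq1, ?_⟩
    have hv : (s8GaugeOf d t δ N j).vth = fun i => s8PadV d t.th i / (Q0 : ℝ) := by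
      rw [hQ0]
      rfl
    rw [hv, ← hq2]
    show (γ0 + ∑ x, (s8aEn S i x : ℝ) * (s4a_mul a (s8GaugeChart t l δ N j)).th x / (R : ℝ)) -
      (γ0 + ∑ x, (s8aEn S i' x : ℝ) * (s4a_mul a (s8GaugeChart t l δ N j)).th x / (R : ℝ)) = _
    rw [add_sub_add_left_eq_sub, ← Finset.sum_sub_distrib, ← Equiv.sum_comp e]
    refine Finset.sum_congr rfl fun z _ => ?_
    rw [he, Equiv.symm_apply_apply]
    push_cast
    ring
  · intro y hy
    rw [← hQe]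
    refine le_trans (le_of_eq ?_) (hS4 y hy)
    congr 2
    exact s8a_en_sum S (fun ℓ => a' ℓ * ee (((s4a_mul a (s8GaugeChart t l δ N j)).lam +
      s4a_quad (s4a_mul a (s8GaugeChart t l δ N j)).C Pf (s4a_mul a (s8GaugeChart t l δ N j)).th) * y ^ 2 +
      (γ0 + ∑ x, (ℓ x : ℝ) * (s4a_mul a (s8GaugeChart t l δ N j)).th x / (R : ℝ)) * y))

end

end Claimed.Agent.R258
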