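/-
Row 258 (S0498), Sec. 8 (linearization.tex), layer (A).  Architect: helper61.
FILE AKit = LEAF P-S8A-KIT: POINTWISE OPERATORS on `XV = L²(ℝ; HV)`.   Mathlib + XV kit only, no paper.

`xvOp T` : `F ↦ (y ↦ T y (F y))` for an essentially bounded strongly measurable family `T : ℝ → HV →L[ℂ] HV`
(junk value `0` otherwise).  It is built from `ContinuousLinearMap.holderL` (Mathlib/MeasureTheory/Function/Holder.lean) with the Hölder triple
`(∞, 2, 2)` and the evaluation pairing, so there is nothing to prove about linearity or continuity.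
`xvR1 k e` : the rank one operator `v ↦ v k • e` on `HV`.

PLANS.
* `xv_op_ae`: unfold, `dif_pos`, `ContinuousLinearMap.holderL_apply_apply`, `ContinuousLinearMap.coeFn_holder`, `MemLp.coeFn_toLp`.
* `xv_op_norm_le`, `xv_op_restr_norm_le`: `xv_normsq_eq_integral` / `xv_normsq_restr`, `xv_op_ae`, `integral_mono_ae` (`xv_integrable_normsq`), `abs_le_of_sq_le`-type step.
* `xv_op_restr`: both sides are a.e. `E.indicator (fun y => T y (F y))`: `xv_restr_ae`, `xv_op_ae`, `Set.indicator`, `map_zero`; conclude by `Lp.ext`.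
* `xv_memLp_fin`: `memLp_top_of_bound` with bound `C`; strong measurability of a finite sum of `g i y • A i`: `Finset.aestronglyMeasurable_fun_sum`, `(hg i).aestronglyMeasurable.smul_const`;
  operator norm bound from the pointwise bound: `ContinuousLinearMap.opNorm_le_bound`.
* `xv_r1_apply`: `rfl`/`simp [xvR1]`.
-/
import Claimed.Agent.R258.Pack017

set_option autoImplicit false
open MeasureTheory
open scoped ENNReal

namespace Claimed.Agent.R258

open Classical in
/-- the pointwise operator `F ↦ (y ↦ T y (F y))` -/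
noncomputable def xvOp (T : ℝ → HV →L[ℂ] HV) : XV →L[ℂ] XV :=
  if h : MemLp T ∞ (volume : Measure ℝ) then
    (ContinuousLinearMap.id ℂ (HV →L[ℂ] HV)).holderL (volume : Measure ℝ) ∞ 2 2 (h.toLp T)
  else 0

/-- the rank one operator `v ↦ v k • e` -/
noncomputable def xvR1 (k : ℕ) (e : HV) : HV →L[ℂ] HV := (xvEval k).smulRight e

theorem xv_r1_apply (k : ℕ) (e v : HV) : xvR1 k e v = v k • e := by
  rfl

theorem xv_op_ae {T : ℝ → HV →L[ℂ] HV} (h : MemLp T ∞ (volume : Measure ℝ)) (F : XV) :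
    (xvOp T F : ℝ → HV) =ᵐ[volume] fun y => T y ((F : ℝ → HV) y) := by
  unfold xvOp
  rw [dif_pos h, ContinuousLinearMap.holderL_apply_apply]
  filter_upwards [ContinuousLinearMap.coeFn_holder (r := 2) (ContinuousLinearMap.id ℂ (HV →L[ℂ] HV)) (h.toLp T) F,
    h.coeFn_toLp] with y h1 h2
  rw [h1, h2]
  rfl

/-- a finite sum of bounded measurable scalar functions times fixed operators, with a pointwise operator bound -/
theorem xv_memLp_fin {ι : Type*} (s : Finset ι) (g : ι → ℝ → ℂ) (A : ι → HV →L[ℂ] HV) (hg : ∀ i ∈ s, Measurable (g i))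
    (C : ℝ) (hC : 0 ≤ C) (hb : ∀ y v, ‖(∑ i ∈ s, g i y • A i) v‖ ≤ C * ‖v‖) :
    MemLp (fun y => ∑ i ∈ s, g i y • A i) ∞ (volume : Measure ℝ) := by
  refine memLp_top_of_bound ?_ C (Filter.Eventually.of_forall fun y => ?_)
  · exact Finset.aestronglyMeasurable_fun_sum s
      (fun i hi => ((hg i hi).aestronglyMeasurable).smul_const (A i))
  · exact ContinuousLinearMap.opNorm_le_bound _ hC (hb y)

theorem xv_op_norm_le {T : ℝ → HV →L[ℂ] HV} (h : MemLp T ∞ (volume : Measure ℝ)) (C : ℝ) (hC : 0 ≤ C)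
    (hb : ∀ y v, ‖T y v‖ ≤ C * ‖v‖) (F : XV) : ‖xvOp T F‖ ≤ C * ‖F‖ := by
  have h1 : ‖xvOp T F‖ ^ 2 ≤ (C * ‖F‖) ^ 2 := by
    rw [mul_pow, xv_normsq_eq_integral, xv_normsq_eq_integral F, ← integral_const_mul]
    refine integral_mono_ae (xv_integrable_normsq _) ((xv_integrable_normsq F).const_mul _) ?_
    filter_upwards [xv_op_ae h F] with y hy
    rw [hy, ← mul_pow]
    exact pow_le_pow_left₀ (norm_nonneg _) (hb y _) 2
  exact (abs_le_of_sq_le_sq' h1 (mul_nonneg hC (norm_nonneg _))).2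

/-- pointwise operators commute with restrictions -/
theorem xv_op_restr (T : ℝ → HV →L[ℂ] HV) {E : Set ℝ} (hE : MeasurableSet E) (F : XV) :
    xvOp T (restr E F) = restr E (xvOp T F) := by
  by_cases h : MemLp T ∞ (volume : Measure ℝ)
  · symm
    apply xv_restr_eq_of_ae
    filter_upwards [xv_op_ae h (restr E F), xv_op_ae h F, xv_restr_ae hE F] with y h1 h2 h3
    rw [h1, h3]
    by_cases hy : y ∈ E
    · rw [Set.indicator_of_mem hy, Set.indicator_of_mem hy, h2]
    · rw [Set.indicator_of_notMem hy, Set.indicator_of_notMem hy, map_zero]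
  · unfold xvOp
    rw [dif_neg h]
    simp

theorem xv_op_restr_norm_le {T : ℝ → HV →L[ℂ] HV} (h : MemLp T ∞ (volume : Measure ℝ)) (C : ℝ) (hC : 0 ≤ C)
    (hb : ∀ y v, ‖T y v‖ ≤ C * ‖v‖) {E : Set ℝ} (hE : MeasurableSet E) (F : XV) :
    ‖restr E (xvOp T F)‖ ≤ C * ‖restr E F‖ := by
  rw [← xv_op_restr T hE F]
  exact xv_op_norm_le h C hC hb _

theorem xv_op_n2_le {T : ℝ → HV →L[ℂ] HV} (h : MemLp T ∞ (volume : Measure ℝ)) (C : ℝ) (hC : 0 ≤ C)
    (hb : ∀ y v, ‖T y v‖ ≤ C * ‖v‖) (I : Cell) (F : XV) : n2 I (xvOp T F) ≤ C * n2 I F := by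
  unfold n2
  rw [← mul_div_assoc]
  exact div_le_div_of_nonneg_right (xv_op_restr_norm_le h C hC hb (cell_measurableSet I) F) (Real.sqrt_nonneg _)

/-- identification of the image: if `F` is a.e. `f` and `G` is a.e. `y ↦ T y (f y)` then `xvOp T F = G` -/
theorem xv_op_eq_of_ae {T : ℝ → HV →L[ℂ] HV} (h : MemLp T ∞ (volume : Measure ℝ)) {F G : XV}
    (hFG : ∀ᵐ y ∂(volume : Measure ℝ), (G : ℝ → HV) y = T y ((F : ℝ → HV) y)) : xvOp T F = G := by
  apply Lp.ext
  filter_upwards [xv_op_ae h F, hFG] with y h1 h2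
  rw [h1, h2]

end Claimed.Agent.R258
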