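/-
Row 258 (S0498), Lemma 8.1, second half + Sec. 8.8 (linearization.tex l.200-260, 947-1000), layer (A).  Architect: helper61.
FILE APrim: DEFINITIONS.   `PrimSys d` = what the construction of the modes CONSUMES (no catalogs, colours, charts): for every role `l` and group `G`
  a gauge, an inherited family `prim l G U` of PRIMARIES (main columns available to the maximal pad of the outer ball filter), the relative depth `fm` of the first match below the birth cell,
  one expansion `ex l G v I₀` per (main label `v`, first-match cell `I₀`), and the localized arguments `Z l G U` (constant-coefficient combinations of the primaries on `U`).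
From it we DEFINE: permanent mode labels (`code`: an injective encoding of (role, group, main label, first-match cell, index), shifted by `N0`), decoders, the nested mode lists, the frozen coefficients
`α_m = β_Φ a_{Φ,m}`, the mode system `toMode`, and the pointwise lift `lift l G = 𝓡_{l,G}`.
`PrimSys.Ok` = the hypotheses.  The theorems are in ALift.lean.

FIRST MATCH (simplification of the paper).  The first-match cell of `Φ` seen from `U ≤ Φ.birth` is the ancestor `fmc` of `U` at the depth `Φ.birth.depth + fm l G Φ`; it depends only on the branch, not on the history of the masks;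
the expansion is valid on all of it, so labels are permanent and lists are nested for trivial reasons.
-/
import Claimed.Agent.R258.S8.AExp
import Claimed.Agent.R258.S8.AKit

set_option autoImplicit false
open MeasureTheory

namespace Claimed.Agent.R258

open scoped BigOperators
open Classical

noncomputable section

instance : Inhabited S8Exp := ⟨⟨0, 0, fun _ => 0, fun _ => 0⟩⟩

/-- the input of the mode construction -/
structure PrimSys (d : ℕ) where
  root : Cell
  isB : Fin 4 → Bool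
  grps : Finset ℕ
  uses : Finset (ℕ × Cell)
  gauge : Fin 4 → ℕ → S8Gauge d
  /-- the primaries available at a cell -/
  prim : Fin 4 → ℕ → Cell → Finset Col
  /-- relative depth of the first match below the birth cell -/
  fm : Fin 4 → ℕ → Col → ℕ
  /-- horizontal vector of a main label -/
  thv : ℕ → Fin d → ℝ
  /-- the expansion of (role, group, main label) on a first-match cell -/
  ex : Fin 4 → ℕ → ℕ → Cell → S8Exp
  /-- the localized arguments -/
  Z : Fin 4 → ℕ → Cell → XV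
  epsm : ℝ
  /-- all mode labels are `≥ N0` -/
  N0 : ℕ

namespace PrimSys
variable {d : ℕ} (S : PrimSys d)

/-- the first-match cell of `Φ` on the branch of `U` -/
def fmc (l : Fin 4) (G : ℕ) (Φ : Col) (U : Cell) : Cell := U.anc ((U.depth - Φ.birth.depth).toNat - S.fm l G Φ)

/-! ### labels -/

/-- the permanent label of the mode number `i` of the expansion of the main label `v` on the first-match cell `I` -/
def code (l : Fin 4) (G v : ℕ) (I : Cell) (i : ℕ) : ℕ :=
  S.N0 + Encodable.encode ((l, G, v, I.depth, I.idx, i) : Fin 4 × ℕ × ℕ × ℤ × ℤ × ℕ)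

/-- decoder -/
def dec (m : ℕ) : Option (Fin 4 × ℕ × ℕ × ℤ × ℤ × ℕ) := if S.N0 ≤ m then Encodable.decode (m - S.N0) else none

/-- the expansion to which the label belongs -/
def mex (m : ℕ) : S8Exp :=
  match S.dec m with
  | some (l, G, v, s, x, _) => S.ex l G v ⟨s, x⟩
  | none => default

/-- index of the mode inside its expansion -/
def midx (m : ℕ) : ℕ :=
  match S.dec m with
  | some (_, _, _, _, _, i) => i
  | none => 0

/-- the main label (primary) of a mode -/
def mpr (m : ℕ) : ℕ :=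
  match S.dec m with
  | some (_, _, v, _, _, _) => v
  | none => 0

def mlam (m : ℕ) : ℝ := (S.mex m).lam
def mgam (m : ℕ) : ℝ := (S.mex m).gam (S.midx m)
def mamp (m : ℕ) : ℂ := (S.mex m).a (S.midx m)

/-- the modes of the primary `Φ` on the branch of `U` -/
def modes (l : Fin 4) (G : ℕ) (Φ : Col) (U : Cell) : Finset ℕ :=
  (Finset.range (S.ex l G Φ.lab (S.fmc l G Φ U)).n).image (S.code l G Φ.lab (S.fmc l G Φ U))

/-- the list of modes available at `U` -/
def lst (l : Fin 4) (G : ℕ) (U : Cell) : Finset ℕ := (S.prim l G U).biUnion fun Φ => S.modes l G Φ U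

/-- the constant coefficients `β_Φ` of `Z l G U` -/
def bet (l : Fin 4) (G : ℕ) (U : Cell) : Col → ℂ :=
  if h : ∃ c : Col → ℂ, S.Z l G U = ∑ Φ ∈ S.prim l G U, c Φ • Φ.vec U then h.choose else 0

/-- `α_m = β_Φ a_{Φ,m}` -/
def alpha (l : Fin 4) (G : ℕ) (U : Cell) (m : ℕ) : ℂ :=
  (∑ Φ ∈ (S.prim l G U).filter (fun Φ => Φ.lab = S.mpr m), S.bet l G U Φ) * S.mamp m

/-- **the mode system** -/
def toMode : ModeSys d where
  root := S.root
  isB := S.isB
  grps := S.grps
  uses := S.uses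
  gauge := S.gauge
  lam := S.mlam
  gam := S.mgam
  pr := S.mpr
  thv := S.thv
  epsm := S.epsm
  lst := S.lst
  alpha := S.alpha

/-! ### the lift -/

/-- the cells of the attempt with a downstream use of `G` -/
def certCells (G : ℕ) : Finset Cell :=
  (S.uses.filter fun u => u.1 = G).biUnion fun u => (Finset.range (s8Rel S.root u.2 + 1)).image u.2.anc

/-- all pairs (primary, first-match cell) of the role `l` and the group `G` -/
def pairs (l : Fin 4) (G : ℕ) : Finset (Col × Cell) :=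
  (S.certCells G).biUnion fun U => (S.prim l G U).image fun Φ => (Φ, S.fmc l G Φ U)

/-- `q_Φ = ∑_m a_{Φ,m} (ψ_m)_phys - (ζ^ρ)² φ_Φ` for the expansion on `I₀` -/
def qerr (l : Fin 4) (G : ℕ) (Φ : Col) (I₀ : Cell) (y : ℝ) : ℂ :=
  (S.gauge l G).gau (s8c4 l) y * ∑ i ∈ Finset.range (S.ex l G Φ.lab I₀).n,
      (S.ex l G Φ.lab I₀).a i * ee ((S.ex l G Φ.lab I₀).lam * y ^ 2 + (S.ex l G Φ.lab I₀).gam i * y)
    - (((S.gauge l G).cut y ^ 2 : ℝ) : ℂ) * Φ.phi y

/-- the contribution of one pair to the lift at the point `y` -/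
def liftP (l : Fin 4) (G : ℕ) (P : Col × Cell) (y : ℝ) : HV →L[ℂ] HV :=
  ((P.2.set ∩ S.root.set).indicator (fun _ => (1 : ℂ)) y * ((Real.sqrt P.1.eps : ℝ) : ℂ)⁻¹) •
    (S.qerr l G P.1 P.2 y • xvR1 (P.1.lab + 1) (ofPhys 1)
      + ∑ i ∈ Finset.range (S.ex l G P.1.lab P.2).n,
          (((Real.sqrt S.epsm : ℝ) : ℂ) * (S.ex l G P.1.lab P.2).a i) • xvR1 (P.1.lab + 1) (priv (S.code l G P.1.lab P.2 i)))

/-- the lift at the point `y` -/
def liftT (l : Fin 4) (G : ℕ) (y : ℝ) : HV →L[ℂ] HV :=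
  (((S.gauge l G).cut y ^ 2 : ℝ) : ℂ) • xvR1 0 (ofPhys 1) + ∑ P ∈ S.pairs l G, S.liftP l G P y

/-- **the pointwise lift** `𝓡_{l,G}` -/
def lift (l : Fin 4) (G : ℕ) : XV →L[ℂ] XV := xvOp (S.liftT l G)

/-! ### hypotheses -/

/-- the hypotheses on a `PrimSys`: main budget `p.Dm`, mode budget `D1` of one expansion, accuracy `εx` of the expansions, constant `G0` of the main rows -/
structure Ok (p : S8Par) (D1 : ℕ) (εx G0 : ℝ) : Prop where
  G0_nonneg : 0 ≤ G0
  uses_le : ∀ u ∈ S.uses, u.1 ∈ S.grps ∧ u.2 ≤ S.root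
  prim_U : ∀ l G U, S.isB l = false → S.prim l G U = ∅
  prim_root : ∀ l G U, ∀ Φ ∈ S.prim l G U, U ≤ S.root
  prim_birth : ∀ l G U, ∀ Φ ∈ S.prim l G U, U ≤ Φ.birth
  prim_mono : ∀ l G U U', U ≤ S.root → U' ≤ U → S.prim l G U ⊆ S.prim l G U'
  /-- a main label determines its column -/
  prim_lab : ∀ l G U l' G' U', ∀ Φ ∈ S.prim l G U, ∀ Φ' ∈ S.prim l' G' U', Φ.lab = Φ'.lab → Φ = Φ'
  /-- the first match is not later than any cell at which the primary is available -/
  prim_fm : ∀ l G U, ∀ Φ ∈ S.prim l G U, Φ.birth.depth + (S.fm l G Φ : ℤ) ≤ U.depth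
  /-- path count of births -/
  count : ∀ I, I ≤ S.root → ∀ A : Finset Col,
    (∀ Φ ∈ A, (∃ l G U, U ≤ S.root ∧ Φ ∈ S.prim l G U) ∧ I ≤ Φ.birth) → A.card ≤ p.Dm
  col_eps : ∀ l G U, ∀ Φ ∈ S.prim l G U, ((p.Dm : ℝ))⁻¹ ≤ Real.sqrt Φ.eps ∧ Φ.eps ≤ 1
  col_phi : ∀ l G U, ∀ Φ ∈ S.prim l G U, Measurable Φ.phi ∧ ∀ y, ‖Φ.phi y‖ ≤ 1
  /-- number of groups with a nonempty list at a cell -/
  grp_count : ∀ l U, S.toMode.certAny U → (S.grps.filter fun G => (S.prim l G U).Nonempty).card ≤ p.Dm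
  Z_span : ∀ l G U, S.isB l = true → S.toMode.cert G U → S.Z l G U ∈ colSpan (S.prim l G U) U
  Z_size : ∀ l G U, S.isB l = true → S.toMode.cert G U → n2 U (S.Z l G U) ≤ 2
  /-- Lemma 8.1, first half -/
  ex_ok : ∀ l G U, ∀ Φ ∈ S.prim l G U,
    (S.ex l G Φ.lab (S.fmc l G Φ U)).Ok (S.gauge l G) (s8c4 l) Φ.phi (S.thv Φ.lab) (S.fmc l G Φ U) D1 εx
  cut_meas : ∀ l G, Measurable (S.gauge l G).cut
  cut_range : ∀ l G y, 0 ≤ (S.gauge l G).cut y ∧ (S.gauge l G).cut y ≤ 1
  pph_meas : ∀ l G, Measurable (S.gauge l G).pph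
  cut_fourier : ∀ l G, ∃ c : (Fin d → ℤ) → ℂ,
    ∑ n ∈ Fintype.piFinset (fun _ : Fin d => Finset.Icc (-(p.Bs : ℤ)) p.Bs), ‖c n‖ ≤ p.Ds ∧
    ∀ y, ‖(((S.gauge l G).cut y ^ 2 : ℝ) : ℂ)
        - ∑ n ∈ Fintype.piFinset (fun _ : Fin d => Finset.Icc (-(p.Bs : ℤ)) p.Bs),
            c n * ee ((S.gauge l G).dotv n * y)‖ ≤ ((p.Ds : ℝ) ^ 300)⁻¹
  /-- Lemma 8.8 WITHOUT the lift (Sec. 7: `VarRowsGoal` + padded histories) -/
  rows : ∀ l, S.isB l = true → ∀ (ι : Type) [Fintype ι] (Ge : ι → ℕ) (Ue : ι → Cell) (Te : ι → XV →L[ℂ] XV) (Bz : ℝ),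
    0 ≤ Bz → (∀ e, S.toMode.cert (Ge e) (Ue e)) →
    (∀ e F, Te e (restr (Ue e).set F) = Te e F) →
    (∀ G F, ∑ e with Ge e = G, ‖Te e F‖ ^ 2 ≤ Bz * ‖F‖ ^ 2) →
    ∑ e, ‖Te e (S.Z l (Ge e) (Ue e))‖ ^ 2 ≤ G0 * Bz * S.root.len
  /-- numerics -/
  Dm_pos : 1 ≤ p.Dm
  εx_nonneg : 0 ≤ εx
  εx_small : εx * (p.Dm : ℝ) ^ 2 ≤ 1
  eps_hi : Real.sqrt S.epsm * D1 * (p.Dm : ℝ) ^ 2 ≤ 1
  eps_lo : ((p.Ds : ℝ))⁻¹ ≤ Real.sqrt S.epsm
  eps_le : S.epsm ≤ 1
  Ds_big : 2 * p.Dm ^ 2 * D1 ≤ p.Ds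

end PrimSys

end

end Claimed.Agent.R258
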