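/-
Row 258 (S0498), Lemma 8.1, second half + Lemma 8.8 + Sec. 8.8 (error), layer (A).  Architect: helper61.
FILE ALift:   `PrimSys.Ok`  ⟹  `toMode.Valid p (9 G0)`  and  `toMode.Link p Z 3 small`.         No paper reading is needed; definitions in APrim.lean.
The two top theorems `PrimSys.valid`, `PrimSys.link` are PROVED from the leaves below.

Notation: `Φ` primary, `I₀ = fmc l G Φ U`, `E = ex l G Φ.lab I₀`, `m = code l G Φ.lab I₀ i` (`i < E.n`), `β = bet l G U`, `ψ_m = toMode.psi l G m`, `Dm = p.Dm`.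

LEAVES AND PLANS
 P-S8A-CODE  (section code).  `dec_code`: `Nat.add_sub_cancel_left`, `Encodable.encodek`.  `code_inj`: apply `dec`, `Option.some.inj`, `Prod.mk.injEq`, `Cell.ext`.  `mex_code` etc.: `simp only [mex, dec_code]`.
     `fmc_spec`: with `k = (U.depth - birth.depth).toNat`, `U ≤ birth` gives `U.anc k = birth` (`cell_le_iff_toNat`), `fm ≤ k` from `prim_fm`; `U.anc (k - fm)` has depth `birth.depth + fm`; `(U.anc (k-fm)).anc fm = birth` (`cell_anc_anc`).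
     `fmc_mono`: `U' .anc n = U`; `(k + n) - fm = n + (k - fm)`; `cell_anc_anc`.   `mem_certCells`: `cell_le_iff_toNat`; `u.2.anc j ≤ root ↔ j ≤ s8Rel root u.2` for `u.2 ≤ root`.
 P-S8A-LIST  (section lists).  All from `mem_lst` + CODE.  `lst_count`: `card_biUnion_le`, `card_image_le`: `#lst l G U ≤ #prim l G U * D1`; `#prim ≤ Dm` (`prim_card`: `count` with `I = U`, `A = prim l G U`);
     only the `≤ Dm` groups with nonempty `prim` contribute (`grp_count`, `Finset.sum_filter`-type split); `Dm * (Dm * D1) ≤ Ds`.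
     `curv`: `E.Ok.curv`, `U.len ≤ I₀.len` (`cell_len_le_of_le`), `D1 ≤ Ds`.   `lam_prim, gam_prim`: equal `mpr` ⟹ equal main labels ⟹ (`prim_lab`) the same `Φ`, the same `I₀`, the same `E`; `E.Ok.gam`, heights `D1 ≤ Ds`.
 P-S8A-COEF  (section coefficients).  `Z_eq`: `xv_mem_colSpan_iff` + `Exists.choose_spec`.   `bet_le`: the coordinate `Φ.lab + 1` of `Z l G U` is a.e. `√ε_Φ β_Φ` on `U` (`xv_coord_sum`, `xv_vec_ae`, `xv_fn_lab`, `xv_fn_ne`, distinct labels by `prim_lab`), so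
     `ε_Φ |β_Φ|² |U| = ∫_U |coord|² ≤ ‖restr U Z‖² = n2² |U| ≤ 4 |U|` (`xv_normsq_restr`, `xv_coord_norm_le`); `1/√ε_Φ ≤ Dm`.   `bet_sum`: `prim_card`.
     `alpha_code`: `mpr_code`, the filter is `{Φ}` (`prim_lab`), `mamp` by `mex_code, midx_code`.   `Ztil_eq`: `Finset.sum_biUnion` (the sets `modes` are pairwise disjoint by `code_inj`), `Finset.sum_image` (`code_inj`), `alpha_code`, `Finset.smul_sum`, `mul_smul`.
     `alpha_sum`: the same reindexing; `∑_i |a_i| ≤ D1`; `2 Dm² D1 ≤ Ds`.   `Z_phys_le`: `xv_physFn_sum`, `xv_physFn_smul`, `xv_physFn_vec`, `|φ| ≤ 1`, `bet_sum`.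
 P-S8A-LIFT-N (section norm).  `qerr = gau * (∑ a_i e(..) - cut φ e(-c p))` (`gau = cut * ee (c p)`, `ee (c p) * ee (-(c p)) = 1`), `|gau| ≤ 1`.   `pairs_count`: the map `P ↦ P.1` is injective on `{P ∈ pairs | y ∈ P.2.set}` (two first-match cells of one `Φ` have the same
     depth (`fmc_spec`) and both contain `y`: `cell_le_of_mem_of_depth`/`cell_atPt_eq_iff`); the image `A` satisfies `count` with `I = Cell.atPt s y`, `s` = the maximum of `root.depth` and the depths of the `P.2` (`cell_atPt_le_iff`).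
     `liftT_bound`: triangle inequality, `xv_r1_apply`, `xv_norm_coord_le`, `xv_norm_ofPhys`, `xv_norm_priv`: `‖liftT y v‖ ≤ ‖v‖ + ∑_{P ∋ y} Dm ‖v‖ (εx + √ε_m D1) ≤ (1 + Dm² εx + Dm² √ε_m D1) ‖v‖`.
     `liftT_memLp`: `memLp_top_of_bound` (operator norm `≤ 3` by `ContinuousLinearMap.opNorm_le_bound`); strong measurability: every summand is (measurable scalar) `•` (fixed operator): `Measurable.aestronglyMeasurable`, `AEStronglyMeasurable.smul_const`, sums.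
 P-S8A-LIFT-I (section identity).  `liftT_fn`: for `Φ ∈ prim l G U`, `cert G U`, `y ∈ U.set`:  `liftT l G y (Φ.fn y) = ∑_{i<E.n} E.a i • (ψ_{code i}).fn y`.  [`(Φ.fn y)_0 = φ(y)`, `(Φ.fn y)_{lab'+1} = √ε_Φ` if `lab' = Φ.lab`, else `0`; among the pairs containing `y` exactly `(Φ, I₀)` has the
     label of `Φ`; `(cut² φ + qerr) = gau ∑ a_i e(..)` by the definition of `qerr`; `ψ.fn y = ofPhys (gau * e(..)) + √ε_m • priv m`.]   `lift_Z`: `xv_op_eq_of_ae`, `Z_eq`, `Ztil_eq`, `xv_vec_ae` (regularity: `xv_reg_of_measurable`), linearity of `liftT l G y`, off `U` both sides vanish.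
     `phys_err`: coordinate `0` of the same computation.
 P-S8A-ROWS = `rows'`.   `Te' e = (Te e).comp (lift l (Ge e))`; local by `xv_op_restr`; Bessel constant `9 Bz` by `xv_op_norm_le`; `h.rows`; `lift_Z`.
 P-S8A-ERR  = `Ec_eq`, `err_le`.   `Ec_eq`: `coreL ∪ sideL = lstJ` (`Finset.filter_union_filter_not_eq`-type, `Finset.sum_filter_add_sum_filter_not`), `(s8Pre …).anc (2K) = s8Frz …` (`cell_anc_anc`), `restr I (ψ.vec U) = ψ.vec I` (`xv_restr_vec`).
     `Zf_sq_le`: live use: `Zf = restr I Z_U`, `cert G U`, `Z_phys_le`, `xv_physFn_restr`, `cell_integral_const`; otherwise `Zf = 0`.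
     `err_le`: for a live use `|phys Ec|² ≤ 2 (1-cut²)² |phys Z_U|² + 2 (2 Dm² εx)²` a.e. on `I` (`phys_err`, `qerr_small`, `bet_sum`, `I ≤ U ≤ I₀`); integrate, sum; a use that is not live contributes `0`.
-/
import Claimed.Agent.R258.S8.APrim
import Claimed.Agent.R258.S8.Graph
import Claimed.Agent.R258.S8.Osc

set_option autoImplicit false
open MeasureTheory
open scoped ENNReal

namespace Claimed.Agent.R258

open scoped BigOperators
open Classical

noncomputable section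

namespace PrimSys
variable {d : ℕ} (S : PrimSys d)

/-! ### code -/
section code

theorem dec_code (l : Fin 4) (G v : ℕ) (I : Cell) (i : ℕ) :
    S.dec (S.code l G v I i) = some (l, G, v, I.depth, I.idx, i) := by
  unfold dec code
  rw [if_pos (Nat.le_add_right _ _), Nat.add_sub_cancel_left, Encodable.encodek]

theorem code_inj {l l' : Fin 4} {G G' v v' : ℕ} {I I' : Cell} {i i' : ℕ} (h : S.code l G v I i = S.code l' G' v' I' i') :
    l = l' ∧ G = G' ∧ v = v' ∧ I = I' ∧ i = i' := by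
  have h1 := S.dec_code l G v I i
  rw [h, S.dec_code] at h1
  have h2 := Option.some.inj h1
  simp only [Prod.mk.injEq] at h2
  obtain ⟨a1, a2, a3, a4, a5, a6⟩ := h2
  exact ⟨a1.symm, a2.symm, a3.symm, (Cell.ext a4 a5).symm, a6.symm⟩

theorem code_ge (l : Fin 4) (G v : ℕ) (I : Cell) (i : ℕ) : S.N0 ≤ S.code l G v I i := by
  unfold code
  exact Nat.le_add_right _ _

theorem mex_code (l : Fin 4) (G v : ℕ) (I : Cell) (i : ℕ) : S.mex (S.code l G v I i) = S.ex l G v I := by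
  simp only [mex, dec_code]

theorem midx_code (l : Fin 4) (G v : ℕ) (I : Cell) (i : ℕ) : S.midx (S.code l G v I i) = i := by
  simp only [midx, dec_code]

theorem mpr_code (l : Fin 4) (G v : ℕ) (I : Cell) (i : ℕ) : S.mpr (S.code l G v I i) = v := by
  simp only [mpr, dec_code]

variable {S} {p : S8Par} {D1 : ℕ} {εx G0 : ℝ}

theorem fmc_spec (h : S.Ok p D1 εx G0) {l : Fin 4} {G : ℕ} {U : Cell} {Φ : Col} (hΦ : Φ ∈ S.prim l G U) :
    U ≤ S.fmc l G Φ U ∧ S.fmc l G Φ U ≤ Φ.birth ∧ (S.fmc l G Φ U).depth = Φ.birth.depth + (S.fm l G Φ : ℤ) := by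
  have hb := h.prim_birth l G U Φ hΦ
  have hf := h.prim_fm l G U Φ hΦ
  obtain ⟨hd, hk⟩ := cell_le_iff_toNat.1 hb
  unfold fmc
  refine ⟨cell_le_anc _ _, ⟨S.fm l G Φ, ?_⟩, ?_⟩
  · rw [cell_anc_anc]
    have : (U.depth - Φ.birth.depth).toNat - S.fm l G Φ + S.fm l G Φ = (U.depth - Φ.birth.depth).toNat := by omega
    rw [this, hk]
  · rw [cell_depth_anc]
    omega

theorem fmc_mono (h : S.Ok p D1 εx G0) {l : Fin 4} {G : ℕ} {U U' : Cell} {Φ : Col} (hΦ : Φ ∈ S.prim l G U) (hU : U' ≤ U) :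
    S.fmc l G Φ U' = S.fmc l G Φ U := by
  have hb := h.prim_birth l G U Φ hΦ
  have hf := h.prim_fm l G U Φ hΦ
  have hd := cell_depth_le_of_le hb
  obtain ⟨n, rfl⟩ := hU
  unfold fmc
  rw [cell_anc_anc]
  congr 1
  rw [cell_depth_anc] at hf hd ⊢
  omega

theorem mem_certCells (h : S.Ok p D1 εx G0) (G : ℕ) (U : Cell) : U ∈ S.certCells G ↔ S.toMode.cert G U := by
  unfold certCells ModeSys.cert
  rw [Finset.mem_biUnion]
  constructor
  · rintro ⟨u, hu, hU⟩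
    obtain ⟨hu1, hu2⟩ := Finset.mem_filter.1 hu
    obtain ⟨j, hj, rfl⟩ := Finset.mem_image.1 hU
    rw [Finset.mem_range] at hj
    exact ⟨s8g_anc_le (h.uses_le u hu1).2 (by omega), u, hu1, hu2, cell_le_anc _ _⟩
  · rintro ⟨hU, u, hu, hG, huU⟩
    refine ⟨u, Finset.mem_filter.2 ⟨hu, hG⟩, ?_⟩
    obtain ⟨n, rfl⟩ := huU
    refine Finset.mem_image.2 ⟨n, ?_, rfl⟩
    rw [Finset.mem_range]
    have := s8g_rel_anc hU
    have e : S.toMode.root = S.root := rfl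
    rw [e] at this
    omega

end code

/-! ### lists -/
section lists
variable {S} {p : S8Par} {D1 : ℕ} {εx G0 : ℝ}

theorem mem_lst {l : Fin 4} {G : ℕ} {U : Cell} {m : ℕ} :
    m ∈ S.lst l G U ↔ ∃ Φ ∈ S.prim l G U, ∃ i < (S.ex l G Φ.lab (S.fmc l G Φ U)).n, m = S.code l G Φ.lab (S.fmc l G Φ U) i := by
  unfold lst modes
  rw [Finset.mem_biUnion]
  refine exists_congr fun Φ => and_congr_right fun _ => ?_
  rw [Finset.mem_image]
  constructor
  · rintro ⟨i, hi, rfl⟩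
    exact ⟨i, Finset.mem_range.1 hi, rfl⟩
  · rintro ⟨i, hi, rfl⟩
    exact ⟨i, Finset.mem_range.2 hi, rfl⟩

theorem lst_ge {l : Fin 4} {G : ℕ} {U : Cell} {m : ℕ} (hm : m ∈ S.lst l G U) : S.N0 ≤ m := by
  obtain ⟨Φ, -, i, -, rfl⟩ := mem_lst.1 hm
  exact S.code_ge _ _ _ _ _

theorem prim_card (h : S.Ok p D1 εx G0) (l : Fin 4) (G : ℕ) {U : Cell} (hU : U ≤ S.root) : (S.prim l G U).card ≤ p.Dm :=
  h.count U hU (S.prim l G U) fun Φ hΦ => ⟨⟨l, G, U, hU, hΦ⟩, h.prim_birth l G U Φ hΦ⟩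

theorem lst_U (h : S.Ok p D1 εx G0) (l : Fin 4) (G : ℕ) (U : Cell) (hl : S.isB l = false) : S.lst l G U = ∅ := by
  unfold lst
  rw [h.prim_U l G U hl]
  rfl

theorem lst_mono (h : S.Ok p D1 εx G0) (l : Fin 4) (G : ℕ) (U U' : Cell) (hU : U ≤ S.root) (hU' : U' ≤ U) :
    S.lst l G U ⊆ S.lst l G U' := by
  intro m hm
  obtain ⟨Φ, hΦ, i, hi, rfl⟩ := mem_lst.1 hm
  refine mem_lst.2 ⟨Φ, h.prim_mono l G U U' hU hU' hΦ, i, ?_, ?_⟩
  · rw [fmc_mono h hΦ hU']; exact hi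
  · rw [fmc_mono h hΦ hU']

theorem lst_inj (l : Fin 4) (G : ℕ) (U : Cell) (l' : Fin 4) (G' : ℕ) (U' : Cell) (m : ℕ) (hm : m ∈ S.lst l G U)
    (hm' : m ∈ S.lst l' G' U') : l = l' ∧ G = G' := by
  obtain ⟨Φ, -, i, -, rfl⟩ := mem_lst.1 hm
  obtain ⟨Φ', -, i', -, h2⟩ := mem_lst.1 hm'
  obtain ⟨a1, a2, -⟩ := S.code_inj h2
  exact ⟨a1, a2⟩

theorem s8a_lst_card (h : S.Ok p D1 εx G0) (l : Fin 4) (G : ℕ) (U : Cell) :
    (S.lst l G U).card ≤ (S.prim l G U).card * D1 := by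
  unfold lst
  refine Finset.card_biUnion_le_card_mul _ _ _ fun Φ hΦ => ?_
  unfold modes
  refine Finset.card_image_le.trans ?_
  rw [Finset.card_range]
  exact (h.ex_ok l G U Φ hΦ).n_le

theorem s8a_D1_le (h : S.Ok p D1 εx G0) : D1 ≤ p.Ds := by
  have h1 := h.Ds_big
  have h2 := h.Dm_pos
  have h3 : 1 ≤ p.Dm ^ 2 := Nat.one_le_pow _ _ h2
  nlinarith

theorem lst_count (h : S.Ok p D1 εx G0) (l : Fin 4) (U : Cell) (hU : S.toMode.certAny U) :
    ∑ G ∈ S.grps, (S.lst l G U).card ≤ p.Ds := by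
  have hroot : U ≤ S.root := hU.1
  have h1 : ∀ G ∈ S.grps, (S.lst l G U).card ≤ if (S.prim l G U).Nonempty then p.Dm * D1 else 0 := by
    intro G _
    split_ifs with hne
    · exact (s8a_lst_card h l G U).trans (Nat.mul_le_mul_right _ (prim_card h l G hroot))
    · rw [Finset.not_nonempty_iff_eq_empty] at hne
      have := s8a_lst_card h l G U
      rw [hne] at this
      simpa using this
  refine (Finset.sum_le_sum h1).trans ?_
  rw [← Finset.sum_filter, Finset.sum_const, smul_eq_mul]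
  have h2 := h.grp_count l U hU
  have h3 := h.Ds_big
  calc _ ≤ p.Dm * (p.Dm * D1) := Nat.mul_le_mul_right _ h2
    _ ≤ 2 * p.Dm ^ 2 * D1 := by nlinarith [Nat.zero_le (p.Dm ^ 2 * D1)]
    _ ≤ p.Ds := h3

theorem prim_count (h : S.Ok p D1 εx G0) (l : Fin 4) (G : ℕ) (U : Cell) (hU : S.toMode.cert G U) :
    ((S.lst l G U).image S.mpr).card ≤ p.Dm := by
  have hsub : (S.lst l G U).image S.mpr ⊆ (S.prim l G U).image Col.lab := by
    intro v hv
    obtain ⟨m, hm, rfl⟩ := Finset.mem_image.1 hv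
    obtain ⟨Φ, hΦ, i, -, rfl⟩ := mem_lst.1 hm
    rw [mpr_code]
    exact Finset.mem_image_of_mem _ hΦ
  exact (Finset.card_le_card hsub).trans (Finset.card_image_le.trans (prim_card h l G hU.1))

theorem curv (h : S.Ok p D1 εx G0) (l : Fin 4) (G : ℕ) (U : Cell) (hU : S.toMode.cert G U) (m : ℕ) (hm : m ∈ S.lst l G U) :
    |S.mlam m| * U.len ^ 2 ≤ p.Ds := by
  obtain ⟨Φ, hΦ, i, -, rfl⟩ := mem_lst.1 hm
  unfold mlam
  rw [mex_code]
  have h1 := (h.ex_ok l G U Φ hΦ).curv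
  have h2 := cell_len_le_of_le (fmc_spec h hΦ).1
  have h3 : U.len ^ 2 ≤ (S.fmc l G Φ U).len ^ 2 := pow_le_pow_left₀ (cell_len_pos U).le h2 2
  have h4 : (D1 : ℝ) ≤ p.Ds := by exact_mod_cast s8a_D1_le h
  exact (mul_le_mul_of_nonneg_left h3 (abs_nonneg _)).trans (h1.trans h4)

theorem lam_prim (h : S.Ok p D1 εx G0) (l : Fin 4) (G : ℕ) (U : Cell) (m : ℕ) (hm : m ∈ S.lst l G U) (m' : ℕ)
    (hm' : m' ∈ S.lst l G U) (hpr : S.mpr m = S.mpr m') : S.mlam m = S.mlam m' := by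
  obtain ⟨Φ, hΦ, i, -, rfl⟩ := mem_lst.1 hm
  obtain ⟨Φ', hΦ', i', -, rfl⟩ := mem_lst.1 hm'
  rw [mpr_code, mpr_code] at hpr
  obtain rfl := h.prim_lab l G U l G U Φ hΦ Φ' hΦ' hpr
  unfold mlam
  rw [mex_code, mex_code]

theorem gam_prim (h : S.Ok p D1 εx G0) (l : Fin 4) (G : ℕ) (U : Cell) (m : ℕ) (hm : m ∈ S.lst l G U) (m' : ℕ)
    (hm' : m' ∈ S.lst l G U) (hpr : S.mpr m = S.mpr m') :
    ∃ a : Fin d ⊕ Fin d → ℚ, s8cHtLe p.Ds a ∧ S.mgam m - S.mgam m' = s8cEv a (S.toMode.Th l G (S.mpr m)) := by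
  obtain ⟨Φ, hΦ, i, hi, rfl⟩ := mem_lst.1 hm
  obtain ⟨Φ', hΦ', i', hi', rfl⟩ := mem_lst.1 hm'
  rw [mpr_code, mpr_code] at hpr
  obtain rfl := h.prim_lab l G U l G U Φ hΦ Φ' hΦ' hpr
  obtain ⟨q, hq, he⟩ := (h.ex_ok l G U Φ hΦ).gam i hi i' hi'
  refine ⟨q, fun x => (hq x).trans (s8a_D1_le h), ?_⟩
  unfold mgam
  rw [mex_code, mex_code, midx_code, midx_code, mpr_code, he]
  rfl

end lists

/-! ### coefficients -/
section coefficients
variable {S} {p : S8Par} {D1 : ℕ} {εx G0 : ℝ}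

/-- a finite combination of columns on `U`, pointwise -/
theorem s8a_comb_ae (A : Finset Col) (c : Col → ℂ) (U : Cell) (hreg : ∀ Φ ∈ A, Φ.Reg U) :
    ∀ᵐ y ∂(volume : Measure ℝ), ((∑ Φ ∈ A, c Φ • Φ.vec U : XV) : ℝ → HV) y
      = U.set.indicator (fun y => ∑ Φ ∈ A, c Φ • Φ.fn y) y := by
  induction A using Finset.induction_on with
  | empty =>
    filter_upwards [Lp.coeFn_zero HV 2 (volume : Measure ℝ)] with y hy
    simp only [Finset.sum_empty, hy, Pi.zero_apply]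
    simp
  | insert Φ A hΦ ih =>
    have ih' := ih fun Φ' h' => hreg Φ' (Finset.mem_insert_of_mem h')
    have h1 := xv_vec_ae (hreg Φ (Finset.mem_insert_self _ _))
    rw [Finset.sum_insert hΦ]
    filter_upwards [ih', h1, Lp.coeFn_add (c Φ • Φ.vec U) (∑ Φ ∈ A, c Φ • Φ.vec U), Lp.coeFn_smul (c Φ) (Φ.vec U)]
      with y a1 a2 a3 a4
    rw [a3, Pi.add_apply, a4, Pi.smul_apply, a1, a2]
    by_cases hy : y ∈ U.set
    · simp only [Set.indicator_of_mem hy]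
      rw [Finset.sum_insert hΦ]
    · simp only [Set.indicator_of_notMem hy]
      simp

theorem s8a_coord_sum_fn (k : ℕ) (A : Finset Col) (c : Col → ℂ) (y : ℝ) :
    ((∑ Φ ∈ A, c Φ • Φ.fn y : HV)) k = ∑ Φ ∈ A, c Φ * (Φ.fn y : HV) k := by
  have := map_sum (xvEval k) (fun Φ : Col => c Φ • Φ.fn y) A
  simp only [xv_eval_apply, map_smul, smul_eq_mul] at this
  exact this

theorem s8a_prim_reg (h : S.Ok p D1 εx G0) {l : Fin 4} {G : ℕ} {U : Cell} {Φ : Col} (hΦ : Φ ∈ S.prim l G U) (I : Cell) :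
    Φ.Reg I := xv_reg_of_measurable (h.col_phi l G U Φ hΦ) I

theorem Z_eq (h : S.Ok p D1 εx G0) {l : Fin 4} {G : ℕ} {U : Cell} (hl : S.isB l = true) (hU : S.toMode.cert G U) :
    S.Z l G U = ∑ Φ ∈ S.prim l G U, S.bet l G U Φ • Φ.vec U := by
  have hex : ∃ c : Col → ℂ, S.Z l G U = ∑ Φ ∈ S.prim l G U, c Φ • Φ.vec U :=
    xv_mem_colSpan_iff.1 (h.Z_span l G U hl hU)
  unfold bet
  rw [dif_pos hex]
  exact hex.choose_spec

/-- `Z` pointwise -/
theorem s8a_Z_ae (h : S.Ok p D1 εx G0) {l : Fin 4} {G : ℕ} {U : Cell} (hl : S.isB l = true) (hU : S.toMode.cert G U) :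
    ∀ᵐ y ∂(volume : Measure ℝ), (S.Z l G U : ℝ → HV) y
      = U.set.indicator (fun y => ∑ Φ ∈ S.prim l G U, S.bet l G U Φ • Φ.fn y) y := by
  have := s8a_comb_ae (S.prim l G U) (S.bet l G U) U fun Φ hΦ => s8a_prim_reg h hΦ U
  rw [← Z_eq h hl hU] at this
  exact this

theorem bet_le (h : S.Ok p D1 εx G0) {l : Fin 4} {G : ℕ} {U : Cell} (hl : S.isB l = true) (hU : S.toMode.cert G U)
    {Φ : Col} (hΦ : Φ ∈ S.prim l G U) : ‖S.bet l G U Φ‖ ≤ 2 * p.Dm := by
  have hco : ∀ᵐ y ∂(volume : Measure ℝ), y ∈ U.set →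
      ((S.Z l G U : ℝ → HV) y) (Φ.lab + 1) = S.bet l G U Φ * (Real.sqrt Φ.eps : ℂ) := by
    filter_upwards [s8a_Z_ae h hl hU] with y hy hyU
    rw [hy, Set.indicator_of_mem hyU, s8a_coord_sum_fn, Finset.sum_eq_single_of_mem Φ hΦ, xv_fn_lab]
    intro Φ' hΦ' hne
    rw [xv_fn_ne Φ' y (Nat.succ_ne_zero _), mul_zero]
    intro heq
    exact hne (h.prim_lab l G U l G U Φ' hΦ' Φ hΦ (Nat.succ_injective heq).symm)
  have hlen := cell_len_pos U
  have h1 : ‖restr U.set (S.Z l G U)‖ ^ 2 ≤ 4 * U.len := by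
    rw [xv_normsq_restr_eq]
    have h2 := h.Z_size l G U hl hU
    have h0 := xv_n2_nonneg U (S.Z l G U)
    have : n2 U (S.Z l G U) ^ 2 ≤ 4 := by nlinarith
    exact mul_le_mul_of_nonneg_right this hlen.le
  have h2 : ‖S.bet l G U Φ * (Real.sqrt Φ.eps : ℂ)‖ ^ 2 * U.len ≤ ‖restr U.set (S.Z l G U)‖ ^ 2 := by
    rw [xv_normsq_restr (cell_measurableSet U), mul_comm, ← cell_integral_const]
    refine setIntegral_mono_on_ae (integrableOn_const (cell_volume_ne_top U)) (xv_integrable_normsq _).integrableOn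
      (cell_measurableSet U) ?_
    filter_upwards [hco] with y hy hyU
    rw [← hy hyU]
    exact pow_le_pow_left₀ (norm_nonneg _) (xv_norm_coord_le _ _) 2
  obtain ⟨he1, -⟩ := h.col_eps l G U Φ hΦ
  have hDm : (0 : ℝ) < p.Dm := by exact_mod_cast h.Dm_pos
  have h3 : ‖S.bet l G U Φ * (Real.sqrt Φ.eps : ℂ)‖ ^ 2 ≤ 4 := by
    have := h2.trans h1
    exact le_of_mul_le_mul_right this hlen
  have h4 : ‖S.bet l G U Φ * (Real.sqrt Φ.eps : ℂ)‖ ≤ 2 := by
    have := norm_nonneg (S.bet l G U Φ * (Real.sqrt Φ.eps : ℂ))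
    nlinarith
  rw [norm_mul, Complex.norm_real, Real.norm_of_nonneg (Real.sqrt_nonneg _)] at h4
  have h5 : ‖S.bet l G U Φ‖ * (p.Dm : ℝ)⁻¹ ≤ 2 := (mul_le_mul_of_nonneg_left he1 (norm_nonneg _)).trans h4
  rwa [← div_eq_mul_inv, div_le_iff₀ hDm] at h5

theorem bet_sum (h : S.Ok p D1 εx G0) {l : Fin 4} {G : ℕ} {U : Cell} (hl : S.isB l = true) (hU : S.toMode.cert G U) :
    ∑ Φ ∈ S.prim l G U, ‖S.bet l G U Φ‖ ≤ 2 * (p.Dm : ℝ) ^ 2 := by
  have h1 : ∑ Φ ∈ S.prim l G U, ‖S.bet l G U Φ‖ ≤ ∑ _Φ ∈ S.prim l G U, 2 * (p.Dm : ℝ) :=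
    Finset.sum_le_sum fun Φ hΦ => bet_le h hl hU hΦ
  rw [Finset.sum_const, nsmul_eq_mul] at h1
  have h2 : ((S.prim l G U).card : ℝ) ≤ p.Dm := by exact_mod_cast prim_card h l G hU.1
  have h3 : (0 : ℝ) ≤ p.Dm := Nat.cast_nonneg _
  nlinarith

theorem alpha_code (h : S.Ok p D1 εx G0) {l : Fin 4} {G : ℕ} {U : Cell} {Φ : Col} (hΦ : Φ ∈ S.prim l G U) (i : ℕ) :
    S.alpha l G U (S.code l G Φ.lab (S.fmc l G Φ U) i) = S.bet l G U Φ * (S.ex l G Φ.lab (S.fmc l G Φ U)).a i := by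
  unfold alpha mamp
  rw [mpr_code, mex_code, midx_code]
  have : (S.prim l G U).filter (fun Φ' => Φ'.lab = Φ.lab) = {Φ} := by
    ext Φ'
    rw [Finset.mem_filter, Finset.mem_singleton]
    constructor
    · rintro ⟨h1, h2⟩
      exact h.prim_lab l G U l G U Φ' h1 Φ hΦ h2
    · rintro rfl
      exact ⟨hΦ, rfl⟩
  rw [this, Finset.sum_singleton]

/-- reindexing of sums over the list -/
theorem s8a_sum_lst (h : S.Ok p D1 εx G0) {E : Type*} [AddCommMonoid E] (l : Fin 4) (G : ℕ) (U : Cell) (f : ℕ → E) :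
    ∑ m ∈ S.lst l G U, f m = ∑ Φ ∈ S.prim l G U, ∑ i ∈ Finset.range (S.ex l G Φ.lab (S.fmc l G Φ U)).n,
      f (S.code l G Φ.lab (S.fmc l G Φ U) i) := by
  unfold lst
  rw [Finset.sum_biUnion]
  · refine Finset.sum_congr rfl fun Φ _ => ?_
    unfold modes
    rw [Finset.sum_image]
    intro i _ i' _ hii
    exact (S.code_inj hii).2.2.2.2
  · intro Φ hΦ Φ' hΦ' hne
    show Disjoint (S.modes l G Φ U) (S.modes l G Φ' U)
    rw [Finset.disjoint_left]
    intro m hm hm'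
    unfold modes at hm hm'
    obtain ⟨i, -, rfl⟩ := Finset.mem_image.1 hm
    obtain ⟨i', -, h2⟩ := Finset.mem_image.1 hm'
    exact hne (h.prim_lab l G U l G U Φ hΦ Φ' hΦ' (S.code_inj h2).2.2.1.symm)

theorem Ztil_eq (h : S.Ok p D1 εx G0) (l : Fin 4) (G : ℕ) (U : Cell) :
    S.toMode.Ztil l G U = ∑ Φ ∈ S.prim l G U, S.bet l G U Φ •
      ∑ i ∈ Finset.range (S.ex l G Φ.lab (S.fmc l G Φ U)).n,
        (S.ex l G Φ.lab (S.fmc l G Φ U)).a i • (S.toMode.psi l G (S.code l G Φ.lab (S.fmc l G Φ U) i)).vec U := by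
  unfold ModeSys.Ztil ModeSys.sub
  show ∑ m ∈ S.lst l G U, S.alpha l G U m • (S.toMode.psi l G m).vec U = _
  rw [s8a_sum_lst h]
  refine Finset.sum_congr rfl fun Φ hΦ => ?_
  rw [Finset.smul_sum]
  refine Finset.sum_congr rfl fun i _ => ?_
  rw [alpha_code h hΦ, mul_smul]

theorem alpha_sum (h : S.Ok p D1 εx G0) (l : Fin 4) (G : ℕ) (U : Cell) (hU : S.toMode.cert G U) :
    ∑ m ∈ S.lst l G U, ‖S.alpha l G U m‖ ≤ p.Ds := by
  cases hl : S.isB l with
  | false =>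
    rw [lst_U h l G U hl]
    simp
  | true =>
    rw [s8a_sum_lst h]
    have h1 : ∀ Φ ∈ S.prim l G U, ∑ i ∈ Finset.range (S.ex l G Φ.lab (S.fmc l G Φ U)).n,
        ‖S.alpha l G U (S.code l G Φ.lab (S.fmc l G Φ U) i)‖ ≤ ‖S.bet l G U Φ‖ * D1 := by
      intro Φ hΦ
      have h2 := (h.ex_ok l G U Φ hΦ).a_sum
      calc _ = ‖S.bet l G U Φ‖ * ∑ i ∈ Finset.range (S.ex l G Φ.lab (S.fmc l G Φ U)).n,
              ‖(S.ex l G Φ.lab (S.fmc l G Φ U)).a i‖ := by
            rw [Finset.mul_sum]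
            refine Finset.sum_congr rfl fun i _ => ?_
            rw [alpha_code h hΦ, norm_mul]
        _ ≤ _ := mul_le_mul_of_nonneg_left h2 (norm_nonneg _)
    refine (Finset.sum_le_sum h1).trans ?_
    rw [← Finset.sum_mul]
    have h3 := bet_sum h hl hU
    have h4 : ((2 * p.Dm ^ 2 * D1 : ℕ) : ℝ) ≤ p.Ds := by exact_mod_cast h.Ds_big
    push_cast at h4
    exact (mul_le_mul_of_nonneg_right h3 (Nat.cast_nonneg _)).trans h4

theorem Z_phys_le (h : S.Ok p D1 εx G0) {l : Fin 4} {G : ℕ} {U : Cell} (hl : S.isB l = true) (hU : S.toMode.cert G U) :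
    ∀ᵐ y ∂(volume : Measure ℝ), ‖physFn (S.Z l G U) y‖ ≤ 2 * (p.Dm : ℝ) ^ 2 := by
  filter_upwards [s8a_Z_ae h hl hU] with y hy
  unfold physFn phys
  rw [hy]
  by_cases hyU : y ∈ U.set
  · rw [Set.indicator_of_mem hyU, s8a_coord_sum_fn]
    refine (norm_sum_le _ _).trans (le_trans (Finset.sum_le_sum fun Φ hΦ => ?_) (bet_sum h hl hU))
    rw [norm_mul, xv_fn_zero]
    exact mul_le_of_le_one_right (norm_nonneg _) ((h.col_phi l G U Φ hΦ).2 y)
  · rw [Set.indicator_of_notMem hyU]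
    simp only [lp.coeFn_zero, Pi.zero_apply, norm_zero]
    positivity

end coefficients

/-! ### the norm of the lift -/
section norm
variable {S} {p : S8Par} {D1 : ℕ} {εx G0 : ℝ}

theorem s8a_mem_pairs {l : Fin 4} {G : ℕ} {P : Col × Cell} :
    P ∈ S.pairs l G ↔ ∃ U ∈ S.certCells G, P.1 ∈ S.prim l G U ∧ P.2 = S.fmc l G P.1 U := by
  unfold pairs
  rw [Finset.mem_biUnion]
  refine exists_congr fun U => and_congr_right fun _ => ?_
  rw [Finset.mem_image]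
  constructor
  · rintro ⟨Φ, hΦ, rfl⟩
    exact ⟨hΦ, rfl⟩
  · rintro ⟨h1, h2⟩
    exact ⟨P.1, h1, Prod.ext rfl h2.symm⟩

theorem s8a_gau_meas (h : S.Ok p D1 εx G0) (l : Fin 4) (G : ℕ) (c : ℝ) : Measurable ((S.gauge l G).gau c) := by
  unfold S8Gauge.gau
  exact (Complex.measurable_ofReal.comp (h.cut_meas l G)).mul
    (s8o_continuous_ee.measurable.comp ((h.pph_meas l G).const_mul c))

theorem s8a_gau_norm (h : S.Ok p D1 εx G0) (l : Fin 4) (G : ℕ) (c : ℝ) (y : ℝ) : ‖(S.gauge l G).gau c y‖ ≤ 1 := by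
  unfold S8Gauge.gau
  rw [norm_mul, s8o_norm_ee, mul_one, Complex.norm_real, Real.norm_of_nonneg (h.cut_range l G y).1]
  exact (h.cut_range l G y).2

theorem s8a_quad_meas (a b : ℝ) : Measurable fun y : ℝ => ee (a * y ^ 2 + b * y) :=
  s8o_continuous_ee.measurable.comp (by fun_prop)

theorem qerr_meas (h : S.Ok p D1 εx G0) {l : Fin 4} {G : ℕ} {P : Col × Cell} (hP : P ∈ S.pairs l G) :
    Measurable (S.qerr l G P.1 P.2) := by
  obtain ⟨U, -, hΦ, -⟩ := s8a_mem_pairs.1 hP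
  unfold qerr
  refine Measurable.sub ((s8a_gau_meas h l G _).mul ?_) ?_
  · exact Finset.measurable_fun_sum _ fun i _ => (s8a_quad_meas _ _).const_mul _
  · exact (Complex.measurable_ofReal.comp ((h.cut_meas l G).pow_const 2)).mul (h.col_phi l G U P.1 hΦ).1

theorem qerr_small (h : S.Ok p D1 εx G0) {l : Fin 4} {G : ℕ} {P : Col × Cell} (hP : P ∈ S.pairs l G) {y : ℝ}
    (hy : y ∈ P.2.set) : ‖S.qerr l G P.1 P.2 y‖ ≤ εx := by
  obtain ⟨U, -, hΦ, hP2⟩ := s8a_mem_pairs.1 hP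
  have h1 := (h.ex_ok l G U P.1 hΦ).approx y (hP2 ▸ hy)
  rw [← hP2] at h1
  have e : S.qerr l G P.1 P.2 y = -((S.gauge l G).gau (s8c4 l) y *
      (((S.gauge l G).cut y : ℂ) * P.1.phi y * ee (-(s8c4 l * (S.gauge l G).pph y))
        - ∑ i ∈ Finset.range (S.ex l G P.1.lab P.2).n,
          (S.ex l G P.1.lab P.2).a i * ee ((S.ex l G P.1.lab P.2).lam * y ^ 2 + (S.ex l G P.1.lab P.2).gam i * y))) := by
    unfold qerr S8Gauge.gau
    have h2 : ee (s8c4 l * (S.gauge l G).pph y) * ee (-(s8c4 l * (S.gauge l G).pph y)) = 1 := by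
      rw [← s8o_ee_add, add_neg_cancel, s4a_ee_zero]
    push_cast
    linear_combination (((S.gauge l G).cut y : ℂ) ^ 2 * P.1.phi y) * h2
  rw [e, norm_neg, norm_mul]
  calc _ ≤ 1 * εx := mul_le_mul (s8a_gau_norm h l G _ y) h1 (norm_nonneg _) zero_le_one
    _ = εx := one_mul _

/-- at most `Dm` pairs over a point of the root -/
theorem pairs_count (h : S.Ok p D1 εx G0) (l : Fin 4) (G : ℕ) (y : ℝ) :
    ((S.pairs l G).filter fun P => y ∈ P.2.set ∩ S.root.set).card ≤ p.Dm := by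
  by_cases hy : y ∈ S.root.set
  · obtain ⟨s, hs⟩ := Finset.exists_le (insert S.root.depth ((S.pairs l G).image fun P => P.1.birth.depth))
    have hinj : Set.InjOn (fun P : Col × Cell => P.1) ((S.pairs l G).filter fun P => y ∈ P.2.set ∩ S.root.set : Finset _) := by
      intro P hP P' hP' hPP
      rw [Finset.mem_coe, Finset.mem_filter] at hP hP'
      obtain ⟨U, -, hΦ, hP2⟩ := s8a_mem_pairs.1 hP.1
      obtain ⟨U', -, hΦ', hP2'⟩ := s8a_mem_pairs.1 hP'.1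
      have hPP' : P.1 = P'.1 := hPP
      refine Prod.ext hPP' ?_
      refine cell_eq_of_depth_of_mem ?_ hP.2.1 hP'.2.1
      rw [hP2, hP2', (fmc_spec h hΦ).2.2, (fmc_spec h hΦ').2.2, hPP']
    rw [← Finset.card_image_of_injOn hinj]
    refine h.count (Cell.atPt s y) (cell_atPt_le_iff.2 ⟨hs _ (Finset.mem_insert_self _ _), hy⟩) _ ?_
    intro Φ hΦ
    obtain ⟨P, hP, rfl⟩ := Finset.mem_image.1 hΦ
    rw [Finset.mem_filter] at hP
    obtain ⟨U, hU, hΦ, hP2⟩ := s8a_mem_pairs.1 hP.1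
    refine ⟨⟨l, G, U, ((mem_certCells h G U).1 hU).1, hΦ⟩, cell_atPt_le_iff.2 ⟨?_, ?_⟩⟩
    · exact hs _ (Finset.mem_insert_of_mem (Finset.mem_image_of_mem (fun P : Col × Cell => P.1.birth.depth) hP.1))
    · exact cell_set_subset (hP2 ▸ (fmc_spec h hΦ).2.1) hP.2.1
  · rw [Finset.filter_false_of_mem (fun P _ hP => hy hP.2)]
    simp

theorem s8a_inv_sqrt_le (h : S.Ok p D1 εx G0) {l : Fin 4} {G : ℕ} {U : Cell} {Φ : Col} (hΦ : Φ ∈ S.prim l G U) :
    0 < Real.sqrt Φ.eps ∧ (Real.sqrt Φ.eps)⁻¹ ≤ p.Dm := by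
  obtain ⟨he1, -⟩ := h.col_eps l G U Φ hΦ
  have hDm : (0 : ℝ) < p.Dm := by exact_mod_cast h.Dm_pos
  have hpos : 0 < Real.sqrt Φ.eps := lt_of_lt_of_le (inv_pos.2 hDm) he1
  exact ⟨hpos, (inv_le_comm₀ hpos hDm).2 he1⟩

/-- the contribution of one pair -/
theorem s8a_liftP_bound (h : S.Ok p D1 εx G0) {l : Fin 4} {G : ℕ} {P : Col × Cell} (hP : P ∈ S.pairs l G) (y : ℝ) (v : HV) :
    ‖S.liftP l G P y v‖ ≤ (if y ∈ P.2.set ∩ S.root.set then (p.Dm : ℝ) * (εx + Real.sqrt S.epsm * D1) else 0) * ‖v‖ := by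
  obtain ⟨U, -, hΦ, hP2⟩ := s8a_mem_pairs.1 hP
  unfold liftP
  rw [ContinuousLinearMap.smul_apply, norm_smul]
  split_ifs with hy
  · rw [Set.indicator_of_mem hy, one_mul, norm_inv, Complex.norm_real, Real.norm_of_nonneg (Real.sqrt_nonneg _)]
    obtain ⟨-, hinv⟩ := s8a_inv_sqrt_le h hΦ
    have hc : ‖v (P.1.lab + 1)‖ ≤ ‖v‖ := xv_norm_coord_le _ _
    have h1 : ‖(S.qerr l G P.1 P.2 y • xvR1 (P.1.lab + 1) (ofPhys 1)
        + ∑ i ∈ Finset.range (S.ex l G P.1.lab P.2).n,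
          (((Real.sqrt S.epsm : ℝ) : ℂ) * (S.ex l G P.1.lab P.2).a i) • xvR1 (P.1.lab + 1) (priv (S.code l G P.1.lab P.2 i))) v‖
        ≤ (εx + Real.sqrt S.epsm * D1) * ‖v‖ := by
      rw [ContinuousLinearMap.add_apply, ContinuousLinearMap.smul_apply, ContinuousLinearMap.sum_apply, add_mul]
      refine (norm_add_le _ _).trans (add_le_add ?_ ?_)
      · rw [norm_smul, xv_r1_apply, norm_smul, xv_norm_ofPhys, norm_one, mul_one]
        exact mul_le_mul (qerr_small h hP hy.1) hc (norm_nonneg _) h.εx_nonneg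
      · refine (norm_sum_le _ _).trans ?_
        have h2 := (h.ex_ok l G U P.1 hΦ).a_sum
        rw [← hP2] at h2
        calc _ ≤ ∑ i ∈ Finset.range (S.ex l G P.1.lab P.2).n, Real.sqrt S.epsm * ‖v‖ * ‖(S.ex l G P.1.lab P.2).a i‖ := by
              refine Finset.sum_le_sum fun i _ => ?_
              rw [ContinuousLinearMap.smul_apply, norm_smul, xv_r1_apply, norm_smul, xv_norm_priv, mul_one, norm_mul,
                Complex.norm_real, Real.norm_of_nonneg (Real.sqrt_nonneg _)]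
              have := mul_le_mul_of_nonneg_left hc
                (mul_nonneg (Real.sqrt_nonneg S.epsm) (norm_nonneg ((S.ex l G P.1.lab P.2).a i)))
              linarith
          _ = Real.sqrt S.epsm * ‖v‖ * ∑ i ∈ Finset.range (S.ex l G P.1.lab P.2).n, ‖(S.ex l G P.1.lab P.2).a i‖ := by
              rw [Finset.mul_sum]
          _ ≤ Real.sqrt S.epsm * ‖v‖ * D1 :=
              mul_le_mul_of_nonneg_left h2 (mul_nonneg (Real.sqrt_nonneg _) (norm_nonneg _))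
          _ = Real.sqrt S.epsm * D1 * ‖v‖ := by ring
    have h0 : 0 ≤ (εx + Real.sqrt S.epsm * D1) * ‖v‖ :=
      mul_nonneg (add_nonneg h.εx_nonneg (mul_nonneg (Real.sqrt_nonneg _) (Nat.cast_nonneg _))) (norm_nonneg _)
    calc _ ≤ (p.Dm : ℝ) * ((εx + Real.sqrt S.epsm * D1) * ‖v‖) :=
          mul_le_mul hinv h1 (norm_nonneg _) (Nat.cast_nonneg _)
      _ = _ := by ring
  · rw [Set.indicator_of_notMem hy]
    simp

theorem liftT_bound (h : S.Ok p D1 εx G0) (l : Fin 4) (G : ℕ) (y : ℝ) (v : HV) : ‖S.liftT l G y v‖ ≤ 3 * ‖v‖ := by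
  unfold liftT
  rw [ContinuousLinearMap.add_apply, ContinuousLinearMap.smul_apply, ContinuousLinearMap.sum_apply]
  have h1 : ‖(((S.gauge l G).cut y ^ 2 : ℝ) : ℂ) • xvR1 0 (ofPhys 1) v‖ ≤ ‖v‖ := by
    rw [norm_smul, xv_r1_apply, norm_smul, xv_norm_ofPhys, norm_one, mul_one, Complex.norm_real,
      Real.norm_of_nonneg (by positivity)]
    obtain ⟨c0, c1⟩ := h.cut_range l G y
    have hc : ‖v 0‖ ≤ ‖v‖ := xv_norm_coord_le _ _
    have h2 : (S.gauge l G).cut y ^ 2 ≤ 1 := pow_le_one₀ c0 c1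
    calc _ ≤ 1 * ‖v‖ := mul_le_mul h2 hc (norm_nonneg _) zero_le_one
      _ = ‖v‖ := one_mul _
  have h2 : ‖∑ P ∈ S.pairs l G, S.liftP l G P y v‖ ≤ 2 * ‖v‖ := by
    refine (norm_sum_le _ _).trans ((Finset.sum_le_sum fun P hP => s8a_liftP_bound h hP y v).trans ?_)
    rw [← Finset.sum_mul]
    refine mul_le_mul_of_nonneg_right ?_ (norm_nonneg _)
    rw [← Finset.sum_filter, Finset.sum_const, nsmul_eq_mul]
    have h3 : (((S.pairs l G).filter fun P => y ∈ P.2.set ∩ S.root.set).card : ℝ) ≤ p.Dm := by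
      exact_mod_cast pairs_count h l G y
    have h4 : 0 ≤ (p.Dm : ℝ) * (εx + Real.sqrt S.epsm * D1) :=
      mul_nonneg (Nat.cast_nonneg _) (add_nonneg h.εx_nonneg (mul_nonneg (Real.sqrt_nonneg _) (Nat.cast_nonneg _)))
    have h5 := h.εx_small
    have h6 := h.eps_hi
    calc _ ≤ (p.Dm : ℝ) * ((p.Dm : ℝ) * (εx + Real.sqrt S.epsm * D1)) := mul_le_mul_of_nonneg_right h3 h4
      _ = εx * (p.Dm : ℝ) ^ 2 + Real.sqrt S.epsm * D1 * (p.Dm : ℝ) ^ 2 := by ring
      _ ≤ 2 := by linarith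
  calc _ ≤ ‖v‖ + 2 * ‖v‖ := (norm_add_le _ _).trans (add_le_add h1 h2)
    _ = 3 * ‖v‖ := by ring

theorem liftT_memLp (h : S.Ok p D1 εx G0) (l : Fin 4) (G : ℕ) : MemLp (S.liftT l G) ∞ (volume : Measure ℝ) := by
  refine memLp_top_of_bound ?_ 3 (Filter.Eventually.of_forall fun y => ?_)
  · unfold liftT
    refine AEStronglyMeasurable.add ?_ ?_
    · exact ((Complex.measurable_ofReal.comp ((h.cut_meas l G).pow_const 2)).aestronglyMeasurable).smul_const _
    · refine Finset.aestronglyMeasurable_fun_sum _ fun P hP => ?_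
      unfold liftP
      have m1 : AEStronglyMeasurable (fun y => (P.2.set ∩ S.root.set).indicator (fun _ => (1 : ℂ)) y
          * ((Real.sqrt P.1.eps : ℝ) : ℂ)⁻¹) (volume : Measure ℝ) :=
        ((measurable_const.indicator ((cell_measurableSet _).inter (cell_measurableSet _))).mul_const _).aestronglyMeasurable
      have m2 : AEStronglyMeasurable (fun y => S.qerr l G P.1 P.2 y • xvR1 (P.1.lab + 1) (ofPhys 1)
          + ∑ i ∈ Finset.range (S.ex l G P.1.lab P.2).n,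
            (((Real.sqrt S.epsm : ℝ) : ℂ) * (S.ex l G P.1.lab P.2).a i) •
              xvR1 (P.1.lab + 1) (priv (S.code l G P.1.lab P.2 i))) (volume : Measure ℝ) :=
        (((qerr_meas h hP).aestronglyMeasurable).smul_const _).add aestronglyMeasurable_const
      exact m1.smul m2
  · exact ContinuousLinearMap.opNorm_le_bound _ (by norm_num) (liftT_bound h l G y)

end norm

/-! ### the lift maps the frozen outputs to the mode syntheses -/
section identity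
variable {S} {p : S8Par} {D1 : ℕ} {εx G0 : ℝ}

/-- a finite combination of an indexed family of columns on `U`, pointwise -/
theorem s8a_comb_ae' {ι : Type*} (A : Finset ι) (c : ι → ℂ) (Ψ : ι → Col) (U : Cell) (hreg : ∀ i ∈ A, (Ψ i).Reg U) :
    ∀ᵐ y ∂(volume : Measure ℝ), ((∑ i ∈ A, c i • (Ψ i).vec U : XV) : ℝ → HV) y
      = U.set.indicator (fun y => ∑ i ∈ A, c i • (Ψ i).fn y) y := by
  induction A using Finset.induction_on with
  | empty =>
    filter_upwards [Lp.coeFn_zero HV 2 (volume : Measure ℝ)] with y hy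
    simp only [Finset.sum_empty, hy, Pi.zero_apply]
    simp
  | insert j A hj ih =>
    have ih' := ih fun i hi => hreg i (Finset.mem_insert_of_mem hi)
    have h1 := xv_vec_ae (hreg j (Finset.mem_insert_self _ _))
    rw [Finset.sum_insert hj]
    filter_upwards [ih', h1, Lp.coeFn_add (c j • (Ψ j).vec U) (∑ i ∈ A, c i • (Ψ i).vec U),
      Lp.coeFn_smul (c j) ((Ψ j).vec U)] with y a1 a2 a3 a4
    rw [a3, Pi.add_apply, a4, Pi.smul_apply, a1, a2]
    by_cases hy : y ∈ U.set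
    · simp only [Set.indicator_of_mem hy]
      rw [Finset.sum_insert hj]
    · simp only [Set.indicator_of_notMem hy]
      simp

theorem s8a_coord_sum {ι : Type*} (k : ℕ) (A : Finset ι) (c : ι → ℂ) (w : ι → HV) :
    ((∑ i ∈ A, c i • w i : HV)) k = ∑ i ∈ A, c i * (w i) k := by
  have := map_sum (xvEval k) (fun i => c i • w i) A
  simp only [xv_eval_apply, map_smul, smul_eq_mul] at this
  exact this

theorem s8a_psi_fn (l : Fin 4) (G v : ℕ) (I : Cell) (i : ℕ) (y : ℝ) :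
    (S.toMode.psi l G (S.code l G v I i)).fn y =
      ((S.gauge l G).gau (s8c4 l) y * ee ((S.ex l G v I).lam * y ^ 2 + (S.ex l G v I).gam i * y)) • ofPhys 1
        + ((Real.sqrt S.epsm : ℝ) : ℂ) • priv (S.code l G v I i) := by
  show ofPhys ((S.gauge l G).gau (s8c4 l) y * ee (S.mlam (S.code l G v I i) * y ^ 2 + S.mgam (S.code l G v I i) * y))
    + ((Real.sqrt S.epsm : ℝ) : ℂ) • priv (S.code l G v I i) = _
  unfold mlam mgam
  rw [mex_code, midx_code, ← xv_ofPhys_smul, mul_one]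

theorem s8a_psi_reg (h : S.Ok p D1 εx G0) (l : Fin 4) (G m : ℕ) (I : Cell) : (S.toMode.psi l G m).Reg I := by
  refine xv_reg_of_measurable ⟨?_, fun y => ?_⟩ I
  · exact (s8a_gau_meas h l G _).mul (s8a_quad_meas _ _)
  · show ‖(S.gauge l G).gau (s8c4 l) y * ee (S.mlam m * y ^ 2 + S.mgam m * y)‖ ≤ 1
    rw [norm_mul, s8o_norm_ee, mul_one]
    exact s8a_gau_norm h l G _ y

theorem liftT_fn (h : S.Ok p D1 εx G0) {l : Fin 4} {G : ℕ} {U : Cell} (hU : S.toMode.cert G U) {Φ : Col}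
    (hΦ : Φ ∈ S.prim l G U) {y : ℝ} (hy : y ∈ U.set) :
    S.liftT l G y (Φ.fn y) = ∑ i ∈ Finset.range (S.ex l G Φ.lab (S.fmc l G Φ U)).n,
      (S.ex l G Φ.lab (S.fmc l G Φ U)).a i • (S.toMode.psi l G (S.code l G Φ.lab (S.fmc l G Φ U) i)).fn y := by
  obtain ⟨I₀, hI₀⟩ : ∃ I₀, I₀ = S.fmc l G Φ U := ⟨_, rfl⟩
  obtain ⟨hUI, hIb, hdep⟩ := fmc_spec h hΦ
  rw [← hI₀] at hUI hIb hdep ⊢
  have hyI : y ∈ I₀.set := cell_set_subset hUI hy
  have hyR : y ∈ S.root.set := cell_set_subset hU.1 hy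
  have hP0 : (Φ, I₀) ∈ S.pairs l G := s8a_mem_pairs.2 ⟨U, (mem_certCells h G U).2 hU, hΦ, hI₀⟩
  obtain ⟨hsq, -⟩ := s8a_inv_sqrt_le h hΦ
  have hother : ∀ P ∈ S.pairs l G, P ≠ (Φ, I₀) → S.liftP l G P y (Φ.fn y) = 0 := by
    intro P hP hne
    obtain ⟨U', -, hΦ', hP2⟩ := s8a_mem_pairs.1 hP
    unfold liftP
    by_cases hlab : P.1.lab = Φ.lab
    · have hPΦ : P.1 = Φ := h.prim_lab l G U' l G U P.1 hΦ' Φ hΦ hlab
      have hny : y ∉ P.2.set ∩ S.root.set := by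
        intro hy2
        apply hne
        refine Prod.ext hPΦ (cell_eq_of_depth_of_mem ?_ hy2.1 hyI)
        rw [hP2, (fmc_spec h hΦ').2.2, hdep, hPΦ]
      rw [Set.indicator_of_notMem hny]
      simp
    · have hz : (Φ.fn y : HV) (P.1.lab + 1) = 0 :=
        xv_fn_ne Φ y (Nat.succ_ne_zero _) (fun he => hlab (Nat.succ_injective he))
      simp only [ContinuousLinearMap.smul_apply, ContinuousLinearMap.add_apply, ContinuousLinearMap.sum_apply,
        xv_r1_apply, hz, zero_smul, smul_zero, Finset.sum_const_zero, add_zero]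
  unfold liftT
  rw [ContinuousLinearMap.add_apply, ContinuousLinearMap.smul_apply, ContinuousLinearMap.sum_apply,
    Finset.sum_eq_single_of_mem _ hP0 hother]
  unfold liftP
  simp only [ContinuousLinearMap.smul_apply, ContinuousLinearMap.add_apply, ContinuousLinearMap.sum_apply, xv_r1_apply]
  have hyIR : y ∈ I₀.set ∩ S.root.set := ⟨hyI, hyR⟩
  rw [Set.indicator_of_mem hyIR, one_mul, xv_fn_zero, xv_fn_lab]
  have hr : ((Real.sqrt Φ.eps : ℝ) : ℂ) ≠ 0 := by exact_mod_cast hsq.ne'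
  have k1 : ∀ (c : ℂ) (w : HV), ((Real.sqrt Φ.eps : ℝ) : ℂ)⁻¹ • (c • (((Real.sqrt Φ.eps : ℝ) : ℂ) • w)) = c • w := by
    intro c w
    rw [smul_smul, smul_smul]
    congr 1
    field_simp
  rw [smul_add, Finset.smul_sum, k1]
  simp only [s8a_psi_fn, smul_add, smul_smul]
  rw [Finset.sum_add_distrib, ← Finset.sum_smul, ← add_assoc, ← add_smul]
  congr 1
  · congr 1
    unfold qerr
    rw [Finset.mul_sum]
    have : ∀ i ∈ Finset.range (S.ex l G Φ.lab I₀).n,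
        (S.gauge l G).gau (s8c4 l) y * ((S.ex l G Φ.lab I₀).a i
          * ee ((S.ex l G Φ.lab I₀).lam * y ^ 2 + (S.ex l G Φ.lab I₀).gam i * y))
        = (S.ex l G Φ.lab I₀).a i * ((S.gauge l G).gau (s8c4 l) y
          * ee ((S.ex l G Φ.lab I₀).lam * y ^ 2 + (S.ex l G Φ.lab I₀).gam i * y)) := fun i _ => by ring
    rw [Finset.sum_congr rfl this]
    ring
  · refine Finset.sum_congr rfl fun i _ => ?_
    congr 1
    field_simp

/-- `Z̃` pointwise -/
theorem s8a_Ztil_ae (h : S.Ok p D1 εx G0) (l : Fin 4) (G : ℕ) (U : Cell) :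
    ∀ᵐ y ∂(volume : Measure ℝ), (S.toMode.Ztil l G U : ℝ → HV) y
      = U.set.indicator (fun y => ∑ Φ ∈ S.prim l G U, S.bet l G U Φ •
        ∑ i ∈ Finset.range (S.ex l G Φ.lab (S.fmc l G Φ U)).n,
          (S.ex l G Φ.lab (S.fmc l G Φ U)).a i • (S.toMode.psi l G (S.code l G Φ.lab (S.fmc l G Φ U) i)).fn y) y := by
  have h1 := s8a_comb_ae' (S.lst l G U) (S.alpha l G U) (S.toMode.psi l G) U fun m _ => s8a_psi_reg h l G m U
  filter_upwards [h1] with y hy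
  have e : S.toMode.Ztil l G U = ∑ m ∈ S.lst l G U, S.alpha l G U m • (S.toMode.psi l G m).vec U := rfl
  rw [e, hy]
  by_cases hyU : y ∈ U.set
  · rw [Set.indicator_of_mem hyU, Set.indicator_of_mem hyU, s8a_sum_lst h]
    refine Finset.sum_congr rfl fun Φ hΦ => ?_
    rw [Finset.smul_sum]
    refine Finset.sum_congr rfl fun i _ => ?_
    rw [alpha_code h hΦ, mul_smul]
  · rw [Set.indicator_of_notMem hyU, Set.indicator_of_notMem hyU]

/-- `𝓡_{l,G} Z_{l,G,U} = Z̃_{l,G,U}` exactly -/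
theorem lift_Z (h : S.Ok p D1 εx G0) {l : Fin 4} {G : ℕ} {U : Cell} (hl : S.isB l = true) (hU : S.toMode.cert G U) :
    S.lift l G (S.Z l G U) = S.toMode.Ztil l G U := by
  unfold lift
  refine xv_op_eq_of_ae (liftT_memLp h l G) ?_
  filter_upwards [s8a_Z_ae h hl hU, s8a_Ztil_ae h l G U] with y h1 h2
  rw [h1, h2]
  by_cases hyU : y ∈ U.set
  · rw [Set.indicator_of_mem hyU, Set.indicator_of_mem hyU, map_sum]
    refine Finset.sum_congr rfl fun Φ hΦ => ?_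
    rw [map_smul, liftT_fn h hU hΦ hyU]
  · rw [Set.indicator_of_notMem hyU, Set.indicator_of_notMem hyU, map_zero]

/-- the physical error -/
theorem phys_err (h : S.Ok p D1 εx G0) {l : Fin 4} {G : ℕ} {U : Cell} (hl : S.isB l = true) (hU : S.toMode.cert G U) :
    ∀ᵐ y ∂(volume : Measure ℝ), y ∈ U.set →
      physFn (S.Z l G U - S.toMode.Ztil l G U) y =
        (1 - (((S.gauge l G).cut y ^ 2 : ℝ) : ℂ)) * physFn (S.Z l G U) y
          - ∑ Φ ∈ S.prim l G U, S.bet l G U Φ * S.qerr l G Φ (S.fmc l G Φ U) y := by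
  filter_upwards [s8a_Z_ae h hl hU, s8a_Ztil_ae h l G U, xv_physFn_sub (S.Z l G U) (S.toMode.Ztil l G U)]
    with y h1 h2 h3 hyU
  rw [h3]
  unfold physFn phys
  rw [h1, h2, Set.indicator_of_mem hyU, Set.indicator_of_mem hyU, s8a_coord_sum, s8a_coord_sum, Finset.mul_sum,
    ← Finset.sum_sub_distrib, ← Finset.sum_sub_distrib]
  refine Finset.sum_congr rfl fun Φ _ => ?_
  rw [s8a_coord_sum, xv_fn_zero]
  unfold qerr
  have : ∀ i ∈ Finset.range (S.ex l G Φ.lab (S.fmc l G Φ U)).n,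
      (S.ex l G Φ.lab (S.fmc l G Φ U)).a i * ((S.toMode.psi l G (S.code l G Φ.lab (S.fmc l G Φ U) i)).fn y : HV) 0
      = (S.gauge l G).gau (s8c4 l) y * ((S.ex l G Φ.lab (S.fmc l G Φ U)).a i
        * ee ((S.ex l G Φ.lab (S.fmc l G Φ U)).lam * y ^ 2 + (S.ex l G Φ.lab (S.fmc l G Φ U)).gam i * y)) := by
    intro i _
    rw [s8a_psi_fn]
    simp only [lp.coeFn_add, lp.coeFn_smul, Pi.add_apply, Pi.smul_apply, smul_eq_mul, xv_ofPhys_zero,
      xv_priv_ne _ (Nat.succ_ne_zero _).symm, mul_zero, add_zero, mul_one]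
    ring
  rw [Finset.sum_congr rfl this, ← Finset.mul_sum]
  ring

end identity

/-! ### Lemma 8.8 and the error -/
section final
variable {S} {p : S8Par} {D1 : ℕ} {εx G0 : ℝ}

/-- **Lemma 8.8** -/
theorem rows' (h : S.Ok p D1 εx G0) (l : Fin 4) (hl : S.isB l = true) (ι : Type) [Fintype ι] (Ge : ι → ℕ) (Ue : ι → Cell)
    (Te : ι → XV →L[ℂ] XV) (Bz : ℝ) (hBz : 0 ≤ Bz) (hc : ∀ e, S.toMode.cert (Ge e) (Ue e))
    (hloc : ∀ e F, Te e (restr (Ue e).set F) = Te e F)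
    (hB : ∀ G F, ∑ e with Ge e = G, ‖Te e F‖ ^ 2 ≤ Bz * ‖F‖ ^ 2) :
    ∑ e, ‖Te e (S.toMode.Ztil l (Ge e) (Ue e))‖ ^ 2 ≤ 9 * G0 * Bz * S.root.len := by
  have key := h.rows l hl ι Ge Ue (fun e => (Te e).comp (S.lift l (Ge e))) (9 * Bz) (by positivity) hc
    (fun e F => by
      simp only [ContinuousLinearMap.comp_apply]
      unfold lift
      rw [xv_op_restr _ (cell_measurableSet _), hloc])
    (fun G F => by
      have h1 : ∑ e with Ge e = G, ‖((Te e).comp (S.lift l (Ge e))) F‖ ^ 2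
          = ∑ e with Ge e = G, ‖Te e (S.lift l G F)‖ ^ 2 := by
        refine Finset.sum_congr rfl fun e he => ?_
        rw [(Finset.mem_filter.1 he).2]
        rfl
      rw [h1]
      refine (hB G _).trans ?_
      have h2 : ‖S.lift l G F‖ ≤ 3 * ‖F‖ := xv_op_norm_le (liftT_memLp h l G) 3 (by norm_num) (liftT_bound h l G) F
      have h3 : ‖S.lift l G F‖ ^ 2 ≤ 9 * ‖F‖ ^ 2 := by nlinarith [norm_nonneg (S.lift l G F), norm_nonneg F]
      calc Bz * ‖S.lift l G F‖ ^ 2 ≤ Bz * (9 * ‖F‖ ^ 2) := mul_le_mul_of_nonneg_left h3 hBz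
        _ = 9 * Bz * ‖F‖ ^ 2 := by ring)
  have e : ∀ e, ((Te e).comp (S.lift l (Ge e))) (S.Z l (Ge e) (Ue e)) = Te e (S.toMode.Ztil l (Ge e) (Ue e)) :=
    fun e => by rw [ContinuousLinearMap.comp_apply, lift_Z h hl (hc e)]
  simp only [e] at key
  calc _ ≤ G0 * (9 * Bz) * S.root.len := key
    _ = _ := by ring

/-- the error at a live use is the restriction of `Z_U - Z̃_U`, `U` = the frozen cell -/
theorem Ec_eq (h : S.Ok p D1 εx G0) {l : Fin 4} (hl : S.isB l = true) (G : ℕ) {I : Cell} (hI : s8Live p.K S.root I) :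
    S.toMode.Ec p S.Z l G I =
      restr I.set (S.Z l G (s8Frz p.K S.root I) - S.toMode.Ztil l G (s8Frz p.K S.root I)) := by
  have hI' : s8Live p.K S.toMode.root I := hI
  have hl' : S.toMode.isB l = true := hl
  unfold ModeSys.Ec ModeSys.Zf ModeSys.Ac ModeSys.Vc
  rw [if_pos hl', if_pos hI', if_pos hI', if_pos hI', map_sub]
  congr 1
  unfold ModeSys.Ztil ModeSys.sub ModeSys.coreL ModeSys.sideL
  rw [Finset.sum_filter_add_sum_filter_not, map_sum, ModeSys.lstJ_pre]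
  refine Finset.sum_congr rfl fun m _ => ?_
  rw [map_smul, xv_restr_vec (s8a_psi_reg h l G m _) (s8g_le_frz _ _ _)]
  rfl

theorem Ec_dead {l : Fin 4} (G : ℕ) {I : Cell} (hI : ¬ s8Live p.K S.root I) : S.toMode.Ec p S.Z l G I = 0 := by
  have hI' : ¬ s8Live p.K S.toMode.root I := hI
  unfold ModeSys.Ec ModeSys.Zf ModeSys.Ac ModeSys.Vc
  rw [if_neg hI', if_neg hI', if_neg hI']
  simp

theorem s8a_live_K {K : ℕ} {R I : Cell} (h : s8Live K R I) : 0 < K := by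
  rcases Nat.eq_zero_or_pos K with rfl | hK
  · have := h.2
    unfold s8Blk at this
    simp at this
  · exact hK

theorem s8a_phys_sq_int (z : XV) : Integrable (fun y => ‖physFn z y‖ ^ 2) (volume : Measure ℝ) := by
  have := (xv_physFn_memLp z).integrable_norm_rpow (by norm_num) (by norm_num)
  simpa using this

theorem s8a_Zf_bound (h : S.Ok p D1 εx G0) {l : Fin 4} (hl : S.isB l = true) {u : ℕ × Cell} (hu : u ∈ S.uses) :
    ∀ᵐ y ∂(volume : Measure ℝ), ‖physFn (S.toMode.Zf p S.Z l u.1 u.2) y‖ ≤ 2 * (p.Dm : ℝ) ^ 2 := by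
  unfold ModeSys.Zf
  split_ifs with hlive
  · have hcert : S.toMode.cert u.1 (s8Frz p.K S.toMode.root u.2) :=
      ModeSys.cert_frz (M := S.toMode) (s8a_live_K hlive) hu hlive
    filter_upwards [xv_physFn_restr (cell_measurableSet u.2) (S.Z l u.1 (s8Frz p.K S.toMode.root u.2)),
      Z_phys_le h hl hcert] with y h1 h2
    rw [h1]
    by_cases hy : y ∈ u.2.set
    · rw [Set.indicator_of_mem hy]; exact h2
    · rw [Set.indicator_of_notMem hy, norm_zero]; positivity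
  · filter_upwards [xv_physFn_zero] with y hy
    rw [hy, norm_zero]
    positivity

/-- the frozen arguments are bounded by the main budget on their own cells -/
theorem Zf_sq_le (h : S.Ok p D1 εx G0) {l : Fin 4} (hl : S.isB l = true) :
    ∑ u ∈ S.uses, ∫ y in u.2.set, ‖physFn (S.toMode.Zf p S.Z l u.1 u.2) y‖ ^ 2
      ≤ 4 * (p.Dm : ℝ) ^ 4 * ∑ u ∈ S.uses, u.2.len := by
  rw [Finset.mul_sum]
  refine Finset.sum_le_sum fun u hu => ?_
  rw [mul_comm, ← cell_integral_const]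
  refine setIntegral_mono_on_ae (s8a_phys_sq_int _).integrableOn (integrableOn_const (cell_volume_ne_top u.2))
    (cell_measurableSet u.2) ?_
  filter_upwards [s8a_Zf_bound h hl hu] with y hy _
  calc _ ≤ (2 * (p.Dm : ℝ) ^ 2) ^ 2 := pow_le_pow_left₀ (norm_nonneg _) hy 2
    _ = _ := by ring

theorem s8a_off_int (h : S.Ok p D1 εx G0) (l : Fin 4) (G : ℕ) (z : XV) :
    Integrable (fun y => (1 - (S.gauge l G).cut y ^ 2) ^ 2 * ‖physFn z y‖ ^ 2) (volume : Measure ℝ) := by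
  refine (s8a_phys_sq_int z).mono' ?_ (Filter.Eventually.of_forall fun y => ?_)
  · exact ((measurable_const.sub ((h.cut_meas l G).pow_const 2)).pow_const 2).aestronglyMeasurable.mul
      (s8a_phys_sq_int z).aestronglyMeasurable
  · obtain ⟨c0, c1⟩ := h.cut_range l G y
    have h2 : (S.gauge l G).cut y ^ 2 ≤ 1 := pow_le_one₀ c0 c1
    have h3 : 0 ≤ (S.gauge l G).cut y ^ 2 := by positivity
    have h4 : (1 - (S.gauge l G).cut y ^ 2) ^ 2 ≤ 1 := pow_le_one₀ (by linarith) (by linarith)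
    rw [Real.norm_of_nonneg (by positivity)]
    exact mul_le_of_le_one_left (by positivity) h4

/-- the error of one use -/
theorem s8a_err_one (h : S.Ok p D1 εx G0) {l : Fin 4} (hl : S.isB l = true) {u : ℕ × Cell} (hu : u ∈ S.uses) :
    ∫ y in u.2.set, ‖physFn (S.toMode.Ec p S.Z l u.1 u.2) y‖ ^ 2
      ≤ 2 * (∫ y in u.2.set, (1 - (S.gauge l u.1).cut y ^ 2) ^ 2 * ‖physFn (S.toMode.Zf p S.Z l u.1 u.2) y‖ ^ 2)
        + 8 * (p.Dm : ℝ) ^ 4 * εx ^ 2 * u.2.len := by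
  have hint := (s8a_off_int h l u.1 (S.toMode.Zf p S.Z l u.1 u.2)).integrableOn (s := u.2.set)
  by_cases hlive : s8Live p.K S.root u.2
  · have hcert : S.toMode.cert u.1 (s8Frz p.K S.root u.2) :=
      ModeSys.cert_frz (M := S.toMode) (s8a_live_K hlive) hu hlive
    have hIU : u.2 ≤ s8Frz p.K S.root u.2 := s8g_le_frz _ _ _
    have hZf : S.toMode.Zf p S.Z l u.1 u.2 = restr u.2.set (S.Z l u.1 (s8Frz p.K S.root u.2)) := by
      unfold ModeSys.Zf
      exact if_pos hlive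
    have hpt : ∀ᵐ y ∂(volume : Measure ℝ), y ∈ u.2.set →
        ‖physFn (S.toMode.Ec p S.Z l u.1 u.2) y‖ ^ 2
          ≤ 2 * ((1 - (S.gauge l u.1).cut y ^ 2) ^ 2 * ‖physFn (S.toMode.Zf p S.Z l u.1 u.2) y‖ ^ 2)
            + 8 * (p.Dm : ℝ) ^ 4 * εx ^ 2 := by
      rw [Ec_eq h hl u.1 hlive, hZf]
      filter_upwards [xv_physFn_restr (cell_measurableSet u.2)
          (S.Z l u.1 (s8Frz p.K S.root u.2) - S.toMode.Ztil l u.1 (s8Frz p.K S.root u.2)),
        xv_physFn_restr (cell_measurableSet u.2) (S.Z l u.1 (s8Frz p.K S.root u.2)), phys_err h hl hcert]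
        with y h1 h2 h3 hy
      rw [h1, h2, Set.indicator_of_mem hy, Set.indicator_of_mem hy, h3 (cell_set_subset hIU hy)]
      have hb : ‖∑ Φ ∈ S.prim l u.1 (s8Frz p.K S.root u.2), S.bet l u.1 (s8Frz p.K S.root u.2) Φ
          * S.qerr l u.1 Φ (S.fmc l u.1 Φ (s8Frz p.K S.root u.2)) y‖ ≤ 2 * (p.Dm : ℝ) ^ 2 * εx := by
        refine (norm_sum_le _ _).trans ?_
        calc _ ≤ ∑ Φ ∈ S.prim l u.1 (s8Frz p.K S.root u.2), ‖S.bet l u.1 (s8Frz p.K S.root u.2) Φ‖ * εx := by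
              refine Finset.sum_le_sum fun Φ hΦ => ?_
              rw [norm_mul]
              refine mul_le_mul_of_nonneg_left ?_ (norm_nonneg _)
              have hP : (Φ, S.fmc l u.1 Φ (s8Frz p.K S.root u.2)) ∈ S.pairs l u.1 :=
                s8a_mem_pairs.2 ⟨_, (mem_certCells h _ _).2 hcert, hΦ, rfl⟩
              exact qerr_small h hP (cell_set_subset (hIU.trans (fmc_spec h hΦ).1) hy)
          _ = (∑ Φ ∈ S.prim l u.1 (s8Frz p.K S.root u.2), ‖S.bet l u.1 (s8Frz p.K S.root u.2) Φ‖) * εx := by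
              rw [Finset.sum_mul]
          _ ≤ _ := mul_le_mul_of_nonneg_right (bet_sum h hl hcert) h.εx_nonneg
      have ha : ‖(1 - (((S.gauge l u.1).cut y ^ 2 : ℝ) : ℂ)) * physFn (S.Z l u.1 (s8Frz p.K S.root u.2)) y‖ ^ 2
          = (1 - (S.gauge l u.1).cut y ^ 2) ^ 2 * ‖physFn (S.Z l u.1 (s8Frz p.K S.root u.2)) y‖ ^ 2 := by
        have e1 : (1 - (((S.gauge l u.1).cut y ^ 2 : ℝ) : ℂ)) = ((1 - (S.gauge l u.1).cut y ^ 2 : ℝ) : ℂ) := by
          push_cast; ring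
        rw [norm_mul, e1, Complex.norm_real, mul_pow, Real.norm_eq_abs, sq_abs]
      rw [← ha]
      have hsub := norm_sub_le ((1 - (((S.gauge l u.1).cut y ^ 2 : ℝ) : ℂ)) * physFn (S.Z l u.1 (s8Frz p.K S.root u.2)) y)
        (∑ Φ ∈ S.prim l u.1 (s8Frz p.K S.root u.2), S.bet l u.1 (s8Frz p.K S.root u.2) Φ
          * S.qerr l u.1 Φ (S.fmc l u.1 Φ (s8Frz p.K S.root u.2)) y)
      set A := ‖(1 - (((S.gauge l u.1).cut y ^ 2 : ℝ) : ℂ)) * physFn (S.Z l u.1 (s8Frz p.K S.root u.2)) y‖ with hA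
      set B := ‖∑ Φ ∈ S.prim l u.1 (s8Frz p.K S.root u.2), S.bet l u.1 (s8Frz p.K S.root u.2) Φ
          * S.qerr l u.1 Φ (S.fmc l u.1 Φ (s8Frz p.K S.root u.2)) y‖ with hBdef
      have hA0 : 0 ≤ A := norm_nonneg _
      have hB0 : 0 ≤ B := norm_nonneg _
      have h5 : B ^ 2 ≤ (2 * (p.Dm : ℝ) ^ 2 * εx) ^ 2 := pow_le_pow_left₀ hB0 hb 2
      have h6 := pow_le_pow_left₀ (norm_nonneg _) hsub 2
      have h7 : (A + B) ^ 2 ≤ 2 * A ^ 2 + 2 * B ^ 2 := by nlinarith [sq_nonneg (A - B)]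
      calc _ ≤ (A + B) ^ 2 := h6
        _ ≤ 2 * A ^ 2 + 2 * B ^ 2 := h7
        _ ≤ 2 * A ^ 2 + 2 * (2 * (p.Dm : ℝ) ^ 2 * εx) ^ 2 := by linarith
        _ = _ := by ring
    have hcst : IntegrableOn (fun _ : ℝ => 8 * (p.Dm : ℝ) ^ 4 * εx ^ 2) u.2.set volume :=
      integrableOn_const (cell_volume_ne_top u.2)
    calc _ ≤ ∫ y in u.2.set, (2 * ((1 - (S.gauge l u.1).cut y ^ 2) ^ 2 * ‖physFn (S.toMode.Zf p S.Z l u.1 u.2) y‖ ^ 2)
            + 8 * (p.Dm : ℝ) ^ 4 * εx ^ 2) :=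
          setIntegral_mono_on_ae (s8a_phys_sq_int _).integrableOn
            (Integrable.fun_add (hint.const_mul 2) hcst) (cell_measurableSet u.2) hpt
      _ = _ := by
          rw [integral_add (hint.const_mul 2) hcst, integral_const_mul, cell_integral_const]
          ring
  · rw [Ec_dead u.1 hlive]
    have h0 : ∫ y in u.2.set, ‖physFn (0 : XV) y‖ ^ 2 = 0 := by
      refine integral_eq_zero_of_ae ?_
      filter_upwards [ae_restrict_of_ae xv_physFn_zero] with y hy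
      rw [hy]
      simp
    rw [h0]
    have h1 : 0 ≤ ∫ y in u.2.set, (1 - (S.gauge l u.1).cut y ^ 2) ^ 2 * ‖physFn (S.toMode.Zf p S.Z l u.1 u.2) y‖ ^ 2 :=
      integral_nonneg fun y => by positivity
    have h2 := cell_len_pos u.2
    positivity

/-- **Sec. 8.8**: the integrated physical error, given good offsets (`hoff`) and the total length of the uses (`hlen`) -/
theorem err_le (h : S.Ok p D1 εx G0) {l : Fin 4} (hl : S.isB l = true) (sm1 Muse : ℝ)
    (hoff : ∑ u ∈ S.uses, ∫ y in u.2.set, (1 - (S.gauge l u.1).cut y ^ 2) ^ 2 * ‖physFn (S.toMode.Zf p S.Z l u.1 u.2) y‖ ^ 2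
      ≤ sm1 * S.root.len)
    (hlen : ∑ u ∈ S.uses, u.2.len ≤ Muse * S.root.len) :
    ∑ u ∈ S.uses, ∫ y in u.2.set, ‖physFn (S.toMode.Ec p S.Z l u.1 u.2) y‖ ^ 2
      ≤ (2 * sm1 + 8 * (p.Dm : ℝ) ^ 4 * εx ^ 2 * Muse) * S.root.len := by
  refine (Finset.sum_le_sum fun u hu => s8a_err_one h hl hu).trans ?_
  rw [Finset.sum_add_distrib, ← Finset.mul_sum, ← Finset.mul_sum]
  have h1 : 0 ≤ 8 * (p.Dm : ℝ) ^ 4 * εx ^ 2 := by positivity
  have h2 := mul_le_mul_of_nonneg_left hlen h1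
  linarith

/-- **Layer (A), abstract form, part 1.** -/
theorem valid (h : S.Ok p D1 εx G0) : S.toMode.Valid p (9 * G0) where
  G0_nonneg := by have := h.G0_nonneg; positivity
  uses_le := h.uses_le
  lst_U := fun l G U hl => lst_U h l G U hl
  lst_mono := fun l G U U' hU hU' => lst_mono h l G U U' hU hU'
  lst_inj := fun l G U l' G' U' m hm hm' => lst_inj l G U l' G' U' m hm hm'
  lst_count := fun l U hU => lst_count h l U hU
  prim_count := fun l G U hU => prim_count h l G U hU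
  curv := fun l G U hU m hm => curv h l G U hU m hm
  lam_prim := fun l G U m hm m' hm' hpr => lam_prim h l G U m hm m' hm' hpr
  gam_prim := fun l G U m hm m' hm' hpr => gam_prim h l G U m hm m' hm' hpr
  alpha_sum := fun l G U hU => alpha_sum h l G U hU
  eps_lo := h.eps_lo
  eps_le := h.eps_le
  cut_meas := h.cut_meas
  cut_range := h.cut_range
  pph_meas := h.pph_meas
  cut_fourier := h.cut_fourier
  rows := fun l hl ι _ Ge Ue Te Bz hBz hc hloc hB => rows' h l hl ι Ge Ue Te Bz hBz hc hloc hB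

/-- **Layer (A), abstract form, part 2.** -/
theorem link (h : S.Ok p D1 εx G0) (sm1 Muse : ℝ)
    (hoff : ∀ l, S.isB l = true →
      ∑ u ∈ S.uses, ∫ y in u.2.set, (1 - (S.gauge l u.1).cut y ^ 2) ^ 2 * ‖physFn (S.toMode.Zf p S.Z l u.1 u.2) y‖ ^ 2
        ≤ sm1 * S.root.len)
    (hlen : ∑ u ∈ S.uses, u.2.len ≤ Muse * S.root.len) :
    S.toMode.Link p S.Z 3 (2 * sm1 + 8 * (p.Dm : ℝ) ^ 4 * εx ^ 2 * Muse) where
  lift := by
    intro l G U I hl hU _
    rw [← lift_Z h hl hU]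
    exact xv_op_n2_le (liftT_memLp h l G) 3 (by norm_num) (liftT_bound h l G) I _
  err := fun l hl => err_le h hl sm1 Muse (hoff l hl) hlen

end final

end PrimSys

end

end Claimed.Agent.R258
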