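/-
Row 258 (S0498), Sec. 8.3, parameter order (linearization.tex l.300-345), layer (A).  Architect: helper61.
FILE APar: an EXPLICIT choice `s8ParOf d Dm Ds Bs` of the remaining parameters (`A0, Js, Hh, tau, K`, `δ_* = 1/1024`), its validity `S8Par.Ok` and polynomial bounds.   Mathlib-level arithmetic, no paper.

LEAVES
 P-S8A-PAR-OK = `s8_par_ok`.   PLAN (field by field; write `Cs = s8cCr (2d) Ds`, `R' = clog₂ Cs + 30`, `n = R' - 10 = clog₂ Cs + 20 ≥ 1`, `a = 2 d Cs Ds`, `b = d Cs³ Ds`):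
   `stab.Cs_lt`: `Cs ≤ 2^(clog₂ Cs) < 2^n` (`Nat.le_pow_clog`);  `stab.cube`: `1 + 2d ≤ Cs²` since `Cs ≥ 10·2d·Ds ≥ 20 d` (`Nat.le_self_pow`);  `stab.A0_big`: `A0 ≥ 6 (a + b)`, `A0^n ≥ 6^n (a+b)^n ≥ 6^n (a + b) ≥ 6^n a + b`;
   `Js_big`, `Js_big'`: `δ_* = 1/1024`, `Nat.le_ceil`;  `Hh_big`: equality;  `TT_big`, `TT_cr`: `x < 2^(clog₂ (x + …) + 1)` (`Nat.lt_pow_succ_log_self`/`Nat.le_pow_clog`), casts;  `K_big`, `K_lag`: by definition (`Nat.le_pow_clog`, monotonicity of `2^·`).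
 P-S8A-PAR-BD = `s8_par_bd`.   PLAN: with `x = d + log Ds + log (Bs + 1)` (so `d ≤ x`, `log Ds ≤ x`): `log (s8cCr (2d) H) = 100 (2d)^4 log (20 d H)`; `clog₂ n ≤ log n / log 2 + 1`; `s8cLog Dm ≤ log Dm / log 1.1`; `harmonic n ≤ 1 + log n` (`harmonic_le_one_add_log`);
   `log (u + v) ≤ log 2 + max …` or `u + v ≤ 2 u v` for `u, v ≥ 1`; propagate through `A0, Js, Hh, tau, K` with the calculus `s4a_pl_add/mul/pow/comp` of S4a/Qp.lean; take for `C` whatever comes out.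
-/
import Claimed.Agent.R258.Pack013
import Claimed.Agent.R258.S4a.Qp
import Claimed.Agent.R258.S4a.QpAuto

set_option autoImplicit false

namespace Claimed.Agent.R258

noncomputable section

/-- `A_0` -/
def s8pA0 (d Ds Bs : ℕ) : ℕ :=
  Bs + 6 * (2 * d * s8cCr (2 * d) Ds * Ds + d * s8cCr (2 * d) Ds ^ 3 * Ds) + 6

/-- `J_*` -/
def s8pJs (d Dm Ds : ℕ) : ℕ :=
  ⌈(2048 : ℝ) * (10 * ((s8cLog Dm : ℝ) + 1)
      + 10 * (((3 * d + 1) * (Nat.clog 2 (s8cCr (2 * d) Ds) + 30) : ℕ) : ℝ) * (harmonic Dm : ℝ))⌉₊ + 2048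

/-- `𝓗` -/
def s8pHh (d Dm Ds Bs : ℕ) : ℕ := Ds * 6 ^ s8pJs d Dm Ds + Ds ^ 2 * s8pA0 d Ds Bs ^ (s8pJs d Dm Ds + 1)

/-- `log₂ 𝒯` -/
def s8pTau (d Dm Ds Bs : ℕ) : ℕ := Nat.clog 2 (Ds ^ 1001 + 2 * d * s8cCr (2 * d) (s8pHh d Dm Ds Bs) + 1) + 1

/-- `K` -/
def s8pK (d Dm Ds Bs : ℕ) : ℕ :=
  Nat.clog 2 (2 * d * s8cCr (2 * d) (s8pHh d Dm Ds Bs) + 1) + 2 * s8pTau d Dm Ds Bs + Nat.clog 2 (Ds ^ 1000) + 1

/-- the parameters of Sec. 8.3 as explicit functions of the dimension, the main budget, the mode budget and the Fourier cutoff -/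
def s8ParOf (d Dm Ds Bs : ℕ) : S8Par where
  K := s8pK d Dm Ds Bs
  Dm := Dm
  Ds := Ds
  Bs := Bs
  A0 := s8pA0 d Ds Bs
  Js := s8pJs d Dm Ds
  Hh := s8pHh d Dm Ds Bs
  tau := s8pTau d Dm Ds Bs
  δs := 1 / 1024

theorem s8p_stab (d Ds Bs : ℕ) (hd : 2 ≤ d) (hDs : 100 ≤ Ds) :
    S8cStabPar (2 * d) d Ds (s8cCr (2 * d) Ds) (s8pA0 d Ds Bs) 10 (Nat.clog 2 (s8cCr (2 * d) Ds) + 30) := by
  set Cs := s8cCr (2 * d) Ds with hCs
  have hCs1 : 1 + 2 * d ≤ Cs := by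
    have h1 : 10 * (2 * d) * Ds ≤ Cs := by
      rw [hCs]; unfold s8cCr
      exact Nat.le_self_pow (by positivity) _
    have h2 : 10 * (2 * d) * 100 ≤ 10 * (2 * d) * Ds := Nat.mul_le_mul_left _ hDs
    omega
  have hn : Nat.clog 2 Cs + 30 - 10 = Nat.clog 2 Cs + 20 := by omega
  refine ⟨by omega, le_rfl, by unfold s8pA0; omega, by omega, ?_, ?_, ?_⟩
  · rw [hn]
    calc Cs ≤ 2 ^ Nat.clog 2 Cs := Nat.le_pow_clog (by norm_num) _
      _ < 2 ^ (Nat.clog 2 Cs + 20) := Nat.pow_lt_pow_right (by norm_num) (by omega)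
  · calc (1 + 2 * d) * Cs ≤ Cs * Cs := Nat.mul_le_mul_right _ hCs1
      _ ≤ Cs * Cs * Cs := Nat.le_mul_of_pos_right _ (by omega)
      _ = Cs ^ 3 := by ring
  · rw [hn]
    set n := Nat.clog 2 Cs + 20 with hn'
    set a := 2 * d * Cs * Ds with ha
    set b := d * Cs ^ 3 * Ds with hb
    have hA : 6 * (a + b) ≤ s8pA0 d Ds Bs := by
      unfold s8pA0
      rw [← hCs, ← ha, ← hb]
      omega
    calc 6 ^ n * (2 * d) * Cs * Ds + b = 6 ^ n * a + b := by rw [ha]; ring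
      _ ≤ 6 ^ n * a + 6 ^ n * b := Nat.add_le_add_left (Nat.le_mul_of_pos_left _ (by positivity)) _
      _ = 6 ^ n * (a + b) := by ring
      _ ≤ 6 ^ n * (a + b) ^ n := Nat.mul_le_mul_left _ (Nat.le_self_pow (by omega) _)
      _ = (6 * (a + b)) ^ n := (mul_pow _ _ _).symm
      _ ≤ _ := Nat.pow_le_pow_left hA n

theorem s8_par_ok (d Dm Ds Bs : ℕ) (hd : 2 ≤ d) (hDm : 1 ≤ Dm) (hle : Dm ≤ Ds) (hDs : 100 ≤ Ds) :
    (s8ParOf d Dm Ds Bs).Ok d := by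
  have htau : ∀ X : ℕ, X ≤ Ds ^ 1001 + 2 * d * s8cCr (2 * d) (s8pHh d Dm Ds Bs) →
      (X : ℝ) < (2 : ℝ) ^ s8pTau d Dm Ds Bs := by
    intro X hX
    have h1 : X < 2 ^ s8pTau d Dm Ds Bs := by
      unfold s8pTau
      calc X < Ds ^ 1001 + 2 * d * s8cCr (2 * d) (s8pHh d Dm Ds Bs) + 1 := by omega
        _ ≤ 2 ^ Nat.clog 2 (Ds ^ 1001 + 2 * d * s8cCr (2 * d) (s8pHh d Dm Ds Bs) + 1) :=
          Nat.le_pow_clog (by norm_num) _
        _ ≤ 2 ^ (Nat.clog 2 (Ds ^ 1001 + 2 * d * s8cCr (2 * d) (s8pHh d Dm Ds Bs) + 1) + 1) :=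
          Nat.pow_le_pow_right (by norm_num) (by omega)
    exact_mod_cast h1
  refine
    { d_ge := hd
      K_pos := ?_
      Ds_ge := hDs
      Dm_pos := hDm
      Dm_le := hle
      δ_pos := ?_
      δ_le := ?_
      stab := s8p_stab d Ds Bs hd hDs
      Bs_le := ?_
      Js_big := ?_
      Js_big' := ?_
      Hh_big := le_rfl
      TT_big := ?_
      TT_cr := ?_
      K_big := ?_
      K_lag := ?_ }
  · show 0 < s8pK d Dm Ds Bs
    unfold s8pK; omega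
  · show (0 : ℝ) < 1 / 1024
    norm_num
  · show (1 / 1024 : ℝ) ≤ 1 / 1024
    exact le_rfl
  · show Bs ≤ s8pA0 d Ds Bs
    unfold s8pA0; omega
  · show 2 * ((10 : ℝ) * ((s8cLog Dm : ℝ) + 1) + 10 * (((3 * d + 1) * (Nat.clog 2 (s8cCr (2 * d) Ds) + 30) : ℕ) : ℝ) *
      (harmonic Dm : ℝ)) / (1 / 1024) ≤ ((s8pJs d Dm Ds : ℕ) : ℝ) + 1
    unfold s8pJs
    have h := Nat.le_ceil ((2048 : ℝ) * (10 * ((s8cLog Dm : ℝ) + 1)
      + 10 * (((3 * d + 1) * (Nat.clog 2 (s8cCr (2 * d) Ds) + 30) : ℕ) : ℝ) * (harmonic Dm : ℝ)))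
    rw [Nat.cast_add]
    generalize (⌈(2048 : ℝ) * (10 * ((s8cLog Dm : ℝ) + 1)
      + 10 * (((3 * d + 1) * (Nat.clog 2 (s8cCr (2 * d) Ds) + 30) : ℕ) : ℝ) * (harmonic Dm : ℝ))⌉₊ : ℝ) = c at h ⊢
    generalize (10 * ((s8cLog Dm : ℝ) + 1)
      + 10 * (((3 * d + 1) * (Nat.clog 2 (s8cCr (2 * d) Ds) + 30) : ℕ) : ℝ) * (harmonic Dm : ℝ)) = y at h ⊢
    rw [div_div_eq_mul_div, div_one]
    push_cast
    linarith
  · show (2 : ℝ) / (1 / 1024) ≤ ((s8pJs d Dm Ds : ℕ) : ℝ)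
    unfold s8pJs
    rw [Nat.cast_add]
    have : (0 : ℝ) ≤ (⌈(2048 : ℝ) * (10 * ((s8cLog Dm : ℝ) + 1)
      + 10 * (((3 * d + 1) * (Nat.clog 2 (s8cCr (2 * d) Ds) + 30) : ℕ) : ℝ) * (harmonic Dm : ℝ))⌉₊ : ℝ) := Nat.cast_nonneg _
    have h2 : (2 : ℝ) / (1 / 1024) = 2048 := by norm_num
    rw [h2]
    push_cast
    linarith
  · show (Ds : ℝ) * (Ds : ℝ) ^ 1000 < (2 : ℝ) ^ s8pTau d Dm Ds Bs
    have := htau (Ds ^ 1001) (Nat.le_add_right _ _)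
    rw [← pow_succ']
    rw [Nat.cast_pow] at this
    exact this
  · show ((2 * d : ℕ) : ℝ) * (s8cCr (2 * d) (s8pHh d Dm Ds Bs) : ℝ) < (2 : ℝ) ^ s8pTau d Dm Ds Bs
    have := htau (2 * d * s8cCr (2 * d) (s8pHh d Dm Ds Bs)) (Nat.le_add_left _ _)
    exact_mod_cast this
  · show Nat.clog 2 (2 * d * s8cCr (2 * d) (s8pHh d Dm Ds Bs) + 1) + 2 * s8pTau d Dm Ds Bs ≤ s8pK d Dm Ds Bs
    unfold s8pK; omega
  · show (Ds : ℝ) ^ 1000 ≤ (2 : ℝ) ^ s8pK d Dm Ds Bs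
    have h1 : Ds ^ 1000 ≤ 2 ^ s8pK d Dm Ds Bs := by
      calc Ds ^ 1000 ≤ 2 ^ Nat.clog 2 (Ds ^ 1000) := Nat.le_pow_clog (by norm_num) _
        _ ≤ _ := Nat.pow_le_pow_right (by norm_num) (by unfold s8pK; omega)
    exact_mod_cast h1

theorem s8pb_clog_le (n : ℕ) (hn : 1 ≤ n) : ((Nat.clog 2 n : ℕ) : ℝ) ≤ 2 * Real.log n + 1 := by
  rcases Nat.lt_or_ge 1 n with h | h
  · have h1 := Nat.pow_pred_clog_lt_self (b := 2) (by norm_num) h
    have h2 : ((2 : ℝ) ^ (Nat.clog 2 n).pred) < n := by exact_mod_cast h1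
    have h3 : Real.log ((2 : ℝ) ^ (Nat.clog 2 n).pred) < Real.log n := Real.log_lt_log (by positivity) h2
    rw [Real.log_pow] at h3
    have h4 : (0:ℝ) < Nat.clog 2 n := by exact_mod_cast Nat.clog_pos (by norm_num) h
    have h5 : (((Nat.clog 2 n).pred : ℕ) : ℝ) = (Nat.clog 2 n : ℝ) - 1 := by
      have : (Nat.clog 2 n).pred + 1 = Nat.clog 2 n := Nat.succ_pred_eq_of_pos (Nat.clog_pos (by norm_num) h)
      have h6 : (((Nat.clog 2 n).pred + 1 : ℕ) : ℝ) = (Nat.clog 2 n : ℝ) := by rw [this]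
      push_cast at h6; linarith
    rw [h5] at h3
    have h7 : (0.5 : ℝ) < Real.log 2 := by have := Real.log_two_gt_d9; linarith
    have h8 : (0:ℝ) ≤ (Nat.clog 2 n : ℝ) - 1 := by
      have : 1 ≤ Nat.clog 2 n := Nat.clog_pos (by norm_num) h
      have : (1:ℝ) ≤ (Nat.clog 2 n : ℝ) := by exact_mod_cast this
      linarith
    nlinarith
  · have : n = 1 := le_antisymm h hn
    subst this
    simp

variable {P : Type*} {V : P → Prop} {x : P → ℝ}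

theorem s8pb_clog (hx : ∀ p, V p → 0 ≤ x p) {n : P → ℕ} (hn : s4a_IsQP V x (fun p => (n p : ℝ)))
    (h1 : ∀ p, V p → 1 ≤ n p) : s4a_IsPL V x (fun p => ((Nat.clog 2 (n p) : ℕ) : ℝ)) := by
  have hl := s4a_IsQP.log hn (fun p hp => by exact_mod_cast h1 p hp)
  have := ((s4a_IsPL.const hx 2 (by norm_num)).mul hx hl).add hx (s4a_IsPL.const hx 1 zero_le_one)
  exact this.mono (fun p _ => Nat.cast_nonneg _) (fun p hp => s8pb_clog_le _ (h1 p hp))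

theorem s8pb_cr (hx : ∀ p, V p → 0 ≤ x p) {d H : P → ℕ} (hd : s4a_IsPL V x (fun p => (d p : ℝ)))
    (hH : s4a_IsQP V x (fun p => (H p : ℝ))) : s4a_IsQP V x (fun p => ((s8cCr (2 * d p) (H p) : ℕ) : ℝ)) := by
  have hb : s4a_IsQP V x (fun p => 10 * (2 * (d p : ℝ)) * (H p : ℝ)) :=
    ((s4a_IsQP.const hx 10 (by norm_num)).mul hx
      ((s4a_IsQP.const hx 2 (by norm_num)).mul hx (s4a_IsQP.of_pl hx hd))).mul hx hH
  have he : s4a_IsPL V x (fun p => ((100 * (2 * d p) ^ 4 : ℕ) : ℝ)) := by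
    have := (s4a_IsPL.const hx 100 (by norm_num)).mul hx (((s4a_IsPL.const hx 2 (by norm_num)).mul hx hd).pow hx 4)
    exact this.mono (fun p _ => Nat.cast_nonneg _) (fun p _ => by push_cast; exact le_rfl)
  have := s4a_IsQP.pow hx hb he
  exact this.mono (fun p _ => Nat.cast_nonneg _) (fun p _ => by unfold s8cCr; push_cast; exact le_rfl)

/-- all logarithms, `J_*` and `K` are polynomial in `d + log D_* + log B_*` -/
theorem s8_par_bd : ∃ C : ℕ, ∀ (d Dm Ds Bs : ℕ), 2 ≤ d → 1 ≤ Dm → Dm ≤ Ds → 100 ≤ Ds →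
    ((s8pK d Dm Ds Bs : ℕ) : ℝ) ≤ s4a_pl C ((d : ℝ) + Real.log Ds + Real.log ((Bs : ℝ) + 1)) ∧
    ((s8pJs d Dm Ds : ℕ) : ℝ) ≤ s4a_pl C ((d : ℝ) + Real.log Ds + Real.log ((Bs : ℝ) + 1)) ∧
    Real.log (s8pA0 d Ds Bs : ℕ) ≤ s4a_pl C ((d : ℝ) + Real.log Ds + Real.log ((Bs : ℝ) + 1)) ∧
    Real.log (s8pHh d Dm Ds Bs : ℕ) ≤ s4a_pl C ((d : ℝ) + Real.log Ds + Real.log ((Bs : ℝ) + 1)) ∧
    ((s8pTau d Dm Ds Bs : ℕ) : ℝ) ≤ s4a_pl C ((d : ℝ) + Real.log Ds + Real.log ((Bs : ℝ) + 1)) := by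
  set V : ℕ × ℕ × ℕ × ℕ → Prop := fun p => 2 ≤ p.1 ∧ 1 ≤ p.2.1 ∧ p.2.1 ≤ p.2.2.1 ∧ 100 ≤ p.2.2.1 with hV
  set x : ℕ × ℕ × ℕ × ℕ → ℝ := fun p => (p.1 : ℝ) + Real.log p.2.2.1 + Real.log ((p.2.2.2 : ℝ) + 1) with hxdef
  have hDs1 : ∀ p, V p → (1 : ℝ) ≤ p.2.2.1 := fun p hp => by
    have : 1 ≤ p.2.2.1 := le_trans (by norm_num) hp.2.2.2
    exact_mod_cast this
  have hlDs : ∀ p, V p → 0 ≤ Real.log p.2.2.1 := fun p hp => Real.log_nonneg (hDs1 p hp)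
  have hlBs : ∀ p : ℕ × ℕ × ℕ × ℕ, 0 ≤ Real.log ((p.2.2.2 : ℝ) + 1) := fun p =>
    Real.log_nonneg (by linarith [(Nat.cast_nonneg p.2.2.2 : (0:ℝ) ≤ p.2.2.2)])
  have hx : ∀ p, V p → 0 ≤ x p := fun p hp => by
    have := hlDs p hp
    have := hlBs p
    have : (0:ℝ) ≤ p.1 := Nat.cast_nonneg _
    simp only [hxdef]; linarith
  have cp : ∀ c : ℝ, 0 ≤ c → s4a_IsPL V x (fun _ => c) := fun c hc => s4a_IsPL.const hx c hc
  have cq : ∀ c : ℝ, 0 ≤ c → s4a_IsQP V x (fun _ => c) := fun c hc => s4a_IsQP.const hx c hc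
  have pd : s4a_IsPL V x (fun p => (p.1 : ℝ)) :=
    (s4a_IsPL.size hx).mono (fun p _ => Nat.cast_nonneg _) (fun p hp => by
      have := hlDs p hp
      have := hlBs p
      simp only [hxdef]; linarith)
  have qd := s4a_IsQP.of_pl hx pd
  have plDs : s4a_IsPL V x (fun p => Real.log p.2.2.1) :=
    (s4a_IsPL.size hx).mono hlDs (fun p hp => by
      have := hlBs p
      have : (0:ℝ) ≤ p.1 := Nat.cast_nonneg _
      simp only [hxdef]; linarith)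
  have qDs : s4a_IsQP V x (fun p => (p.2.2.1 : ℝ)) :=
    s4a_IsQP.of_log plDs (fun p hp => by linarith [hDs1 p hp]) (fun p _ => le_rfl)
  have qBs : s4a_IsQP V x (fun p => (p.2.2.2 : ℝ)) := by
    have h1 : s4a_IsQP V x (fun p => (p.2.2.2 : ℝ) + 1) :=
      s4a_IsQP.of_log (s4a_IsPL.size hx) (fun p _ => by positivity) (fun p hp => by
        have := hlDs p hp
        have : (0:ℝ) ≤ p.1 := Nat.cast_nonneg _
        simp only [hxdef]; linarith)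
    exact h1.mono (fun p _ => Nat.cast_nonneg _) (fun p _ => by linarith)
  have hDm1 : ∀ p, V p → (1 : ℝ) ≤ p.2.1 := fun p hp => by exact_mod_cast hp.2.1
  have hDmDs : ∀ p, V p → (p.2.1 : ℝ) ≤ p.2.2.1 := fun p hp => by exact_mod_cast hp.2.2.1
  have plDm : s4a_IsPL V x (fun p => Real.log p.2.1) :=
    plDs.mono (fun p hp => Real.log_nonneg (hDm1 p hp))
      (fun p hp => Real.log_le_log (by linarith [hDm1 p hp]) (hDmDs p hp))
  have qCr : s4a_IsQP V x (fun p => ((s8cCr (2 * p.1) p.2.2.1 : ℕ) : ℝ)) := s8pb_cr hx pd qDs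
  have hCr1 : ∀ (d H : ℕ), 1 ≤ d → 1 ≤ H → 1 ≤ s8cCr (2 * d) H := fun d H hd hH => by
    unfold s8cCr
    exact Nat.one_le_pow _ _ (by positivity)
  -- A0
  have qA0 : s4a_IsQP V x (fun p => ((s8pA0 p.1 p.2.2.1 p.2.2.2 : ℕ) : ℝ)) := by
    have := (qBs.add hx ((cq 6 (by norm_num)).mul hx
      (((((cq 2 (by norm_num)).mul hx qd).mul hx qCr).mul hx qDs).add hx
        ((qd.mul hx (qCr.pow_const hx 3)).mul hx qDs)))).add hx (cq 6 (by norm_num))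
    exact this.mono (fun p _ => Nat.cast_nonneg _) (fun p _ => by unfold s8pA0; push_cast; exact le_rfl)
  have hA01 : ∀ d Ds Bs : ℕ, 1 ≤ s8pA0 d Ds Bs := fun d Ds Bs => by unfold s8pA0; omega
  have plA0 : s4a_IsPL V x (fun p => Real.log ((s8pA0 p.1 p.2.2.1 p.2.2.2 : ℕ) : ℝ)) :=
    qA0.log (fun p _ => by exact_mod_cast hA01 _ _ _)
  -- Js
  have plLog : s4a_IsPL V x (fun p => ((s8cLog p.2.1 : ℕ) : ℝ)) := by
    have := (cp 11 (by norm_num)).mul hx plDm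
    refine this.mono (fun p _ => Nat.cast_nonneg _) (fun p hp => ?_)
    unfold s8cLog
    have h0 : 0 ≤ Real.log (p.2.1 : ℝ) := Real.log_nonneg (hDm1 p hp)
    have h1 : (1 / 11 : ℝ) ≤ Real.log 1.1 := by
      have := Real.one_sub_inv_le_log_of_pos (show (0:ℝ) < 1.1 by norm_num)
      norm_num at this ⊢
      linarith
    have h2 : 0 ≤ Real.logb 1.1 (p.2.1 : ℝ) := by
      unfold Real.logb
      exact div_nonneg h0 (by linarith)
    refine (Nat.floor_le h2).trans ?_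
    unfold Real.logb
    rw [div_le_iff₀ (by linarith)]
    nlinarith
  have plHarm : s4a_IsPL V x (fun p => ((harmonic p.2.1 : ℚ) : ℝ)) := by
    have := (cp 1 zero_le_one).add hx plDm
    refine this.mono (fun p _ => ?_) (fun p _ => harmonic_le_one_add_log _)
    have : (0 : ℚ) ≤ harmonic p.2.1 := by
      unfold harmonic
      exact Finset.sum_nonneg fun i _ => by positivity
    exact_mod_cast this
  have plclCr : s4a_IsPL V x (fun p => ((Nat.clog 2 (s8cCr (2 * p.1) p.2.2.1) : ℕ) : ℝ)) :=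
    s8pb_clog hx qCr (fun p hp => hCr1 _ _ (le_trans (by norm_num) hp.1) (le_trans (by norm_num) hp.2.2.2))
  have plJs : s4a_IsPL V x (fun p => ((s8pJs p.1 p.2.1 p.2.2.1 : ℕ) : ℝ)) := by
    have h1 := ((cp 2048 (by norm_num)).mul hx
      (((cp 10 (by norm_num)).mul hx (plLog.add hx (cp 1 zero_le_one))).add hx
        (((cp 10 (by norm_num)).mul hx
          ((((cp 3 (by norm_num)).mul hx pd).add hx (cp 1 zero_le_one)).mul hx
            (plclCr.add hx (cp 30 (by norm_num))))).mul hx plHarm)))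
    obtain ⟨C1, hC1⟩ := h1
    have h2 := (show s4a_IsPL V x _ from ⟨C1, hC1⟩).add hx (cp 2049 (by norm_num))
    refine h2.mono (fun p _ => Nat.cast_nonneg _) (fun p hp => ?_)
    unfold s8pJs
    have h3 := (hC1 p hp).1
    push_cast
    push_cast at h3
    have h4 := Nat.ceil_lt_add_one h3
    linarith
  -- Hh
  have plJs1 : s4a_IsPL V x (fun p => ((s8pJs p.1 p.2.1 p.2.2.1 + 1 : ℕ) : ℝ)) :=
    (plJs.add hx (cp 1 zero_le_one)).mono (fun p _ => Nat.cast_nonneg _) (fun p _ => by push_cast; exact le_rfl)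
  have qHh : s4a_IsQP V x (fun p => ((s8pHh p.1 p.2.1 p.2.2.1 p.2.2.2 : ℕ) : ℝ)) := by
    have := (qDs.mul hx ((cq 6 (by norm_num)).pow hx plJs)).add hx ((qDs.pow_const hx 2).mul hx (qA0.pow hx plJs1))
    exact this.mono (fun p _ => Nat.cast_nonneg _) (fun p _ => by unfold s8pHh; push_cast; exact le_rfl)
  have hHh1 : ∀ p, V p → 1 ≤ s8pHh p.1 p.2.1 p.2.2.1 p.2.2.2 := fun p hp => by
    unfold s8pHh
    have h1 : 1 ≤ p.2.2.1 * 6 ^ s8pJs p.1 p.2.1 p.2.2.1 :=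
      Nat.one_le_iff_ne_zero.2 (Nat.mul_ne_zero (by have := hp.2.2.2; omega) (by positivity))
    omega
  have plHh : s4a_IsPL V x (fun p => Real.log ((s8pHh p.1 p.2.1 p.2.2.1 p.2.2.2 : ℕ) : ℝ)) :=
    qHh.log (fun p hp => by exact_mod_cast hHh1 p hp)
  have qCrH : s4a_IsQP V x (fun p => ((s8cCr (2 * p.1) (s8pHh p.1 p.2.1 p.2.2.1 p.2.2.2) : ℕ) : ℝ)) :=
    s8pb_cr hx pd qHh
  -- tau
  have plTau : s4a_IsPL V x (fun p => ((s8pTau p.1 p.2.1 p.2.2.1 p.2.2.2 : ℕ) : ℝ)) := by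
    have q1 : s4a_IsQP V x (fun p => ((p.2.2.1 ^ 1001 + 2 * p.1 * s8cCr (2 * p.1) (s8pHh p.1 p.2.1 p.2.2.1 p.2.2.2) + 1 : ℕ) : ℝ)) := by
      have := ((qDs.pow_const hx 1001).add hx (((cq 2 (by norm_num)).mul hx qd).mul hx qCrH)).add hx (cq 1 zero_le_one)
      exact this.mono (fun p _ => Nat.cast_nonneg _) (fun p _ => by push_cast; exact le_rfl)
    have := (s8pb_clog hx q1 (fun p _ => by omega)).add hx (cp 1 zero_le_one)
    exact this.mono (fun p _ => Nat.cast_nonneg _) (fun p _ => by unfold s8pTau; push_cast; exact le_rfl)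
  -- K
  have plK : s4a_IsPL V x (fun p => ((s8pK p.1 p.2.1 p.2.2.1 p.2.2.2 : ℕ) : ℝ)) := by
    have q1 : s4a_IsQP V x (fun p => ((2 * p.1 * s8cCr (2 * p.1) (s8pHh p.1 p.2.1 p.2.2.1 p.2.2.2) + 1 : ℕ) : ℝ)) := by
      have := (((cq 2 (by norm_num)).mul hx qd).mul hx qCrH).add hx (cq 1 zero_le_one)
      exact this.mono (fun p _ => Nat.cast_nonneg _) (fun p _ => by push_cast; exact le_rfl)
    have q2 : s4a_IsQP V x (fun p => ((p.2.2.1 ^ 1000 : ℕ) : ℝ)) :=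
      (qDs.pow_const hx 1000).mono (fun p _ => Nat.cast_nonneg _) (fun p _ => by push_cast; exact le_rfl)
    have := (((s8pb_clog hx q1 (fun p _ => by omega)).add hx ((cp 2 (by norm_num)).mul hx plTau)).add hx
      (s8pb_clog hx q2 (fun p hp => Nat.one_le_pow _ _ (le_trans (by norm_num) hp.2.2.2)))).add hx (cp 1 zero_le_one)
    exact this.mono (fun p _ => Nat.cast_nonneg _) (fun p _ => by unfold s8pK; push_cast; exact le_rfl)
  obtain ⟨C1, h1⟩ := plK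
  obtain ⟨C2, h2⟩ := plJs
  obtain ⟨C3, h3⟩ := plA0
  obtain ⟨C4, h4⟩ := plHh
  obtain ⟨C5, h5⟩ := plTau
  refine ⟨C1 + C2 + C3 + C4 + C5, fun d Dm Ds Bs hd hDm hle hDs => ?_⟩
  have hp : V (d, Dm, Ds, Bs) := ⟨hd, hDm, hle, hDs⟩
  have hx0 := hx _ hp
  refine ⟨(h1 _ hp).2.trans (s4a_pl_mono (by omega) hx0 le_rfl), (h2 _ hp).2.trans (s4a_pl_mono (by omega) hx0 le_rfl),
    (h3 _ hp).2.trans (s4a_pl_mono (by omega) hx0 le_rfl), (h4 _ hp).2.trans (s4a_pl_mono (by omega) hx0 le_rfl),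
    (h5 _ hp).2.trans (s4a_pl_mono (by omega) hx0 le_rfl)⟩

end

end Claimed.Agent.R258
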