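/-
Row 258 (S0498), Sec. 8, layer (A): THE TOP THEOREM.   Architect: helper61.

`s8_layerA0` (non-asymptotic form): from one leaf `κ` of a valid localization system, the endpoint splittings, and Lemma 8.8 without the lift (`RowsGoal`), for EVERY cutoff width / accuracy `δ` (small against the main budget `D2`):
numerical choices `ν`, offsets `jo`, parameters `p` with
   `p.Ok ν.d`,   `(Y.primSys κ cells ν jo).Ok p ν.D1 ν.εx G0`  (hence `toMode.Valid p (9 G0)` by `PrimSys.valid`, and all of layer (B)),   `toMode.Link p (Y.Z κ) 3 small`,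
   `small = ⌈D2⌉^4 (D M) δ (80 d + 8)`,     all logarithms and `K, J_*` bounded by `s4a_pl Cq (log D2 + log Hp + log 1/δ)`  (`Cq` ABSOLUTE),
   the progression multiplier of Sec. 8.3 in truncated form (`s8MultOk`) and the lower bound for the average cutoff (for the fresh offset of a side role in Sec. 9).
The mode system is `M = (Y.primSys κ cells ν jo).toMode`; by `rfl`: `M.root = Y.X.root`, `M.isB l = !Y.pat l`, `M.uses = Y.usesOn κ cells`, `M.grps = Y.grpsOn κ cells`, `M.gauge l G = s8GaugeOf ν.d (Y.ctag κ cells G) ν.δ ν.N (jo l G)`.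

QUANTIFIERS (memo #4 of the captain).  `Cq` is absolute.  With `log D2 ≤ k^Cm`, `log Hp ≤ (k+P)^Cm`, `δ = exp(-k^Cc)`:  `K, log D_*, … ≤ Cq (1 + k^Cm + (k+P)^Cm + k^Cc)^Cq`, and `small ≤ exp(6 k^Cm - k^Cc)`;
the exponent `Cc` is chosen from the exponents of Secs. 5, 6 only (`Cc = Cm + 2`), NOT from the prescribed exponent `Cfar`: `exp(-k^(Cm+1)) ≤ exp(-Cfar k - k^Cm)` for `k ≥ kmin(Cfar)`.

LEAVES
 P-S8A-NUM  = `s8a_num`  (explicit numbers; calculus of S4a/Qp.lean).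
 `s8_layerA0`, `s8a_cutF_of`, `s8a_multOk_of` are PROVED (pure glue; every field of `PrimSys.Ok` is one lemma of ALoc.lean).
ROUTE of `s8_layerA0`.  `Cq1, Cq2, Cq3` from `s8a_expand, s8a_cut_fourier, s8a_mult`, `C4` from `s8_par_bd`, `Cq` from `s8a_num`.  Given the data: `n : S8NumOk …` from `s8a_num`; `p = s8ParOf d pDm Ds Bs` (`s8_par_ok`);
 `ν = ⟨d, δ, N, Hp, D1, δ, epsm, N0⟩`;  `jo` from `s8l_offsets` with `tg = Y.ctag κ cells`, `w l u y = ‖physFn (Zf …) y‖²` (the frozen argument does not depend on `jo`: `ModeSys.Zf` only uses `root`, `K`, `Z`; integrable by `xv_physFn_memLp`);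
 fields of `Ok`: `uses_le` `s8l_uses_le`; `prim_U, prim_root, prim_birth` `s8l_mem_prim`; `prim_mono, prim_lab` idem; `prim_fm` `s8l_fm`; `count` `s8l_count` + `Nat.le_ceil`/`Nat.cast_le`; `col_eps, col_phi` `s8l_col` (`Dm ≤ D2 ≤ pDm`, `inv_anti₀`);
 `grp_count` `s8l_grp_count`; `Z_span, Z_size` `s8l_cert`, `s8l_Z_span`, `s8l_Z_size` (`U ∈ X.T` by `tree.conv`); `ex_ok`: the `dif_pos` branch: existence by `Cq1` (`s8l_col`, `s4a_cplx_mono`, `s8l_ctag`, `s8l_fm`, `fmc_spec`-type depth computation: here directly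
 `(fmc).depth = birth.depth + fm` from `cell_depth_anc` and `s8l_fm`), then `Exists.choose_spec`, rewrite `Φ.phi = chart.eval`; gauge fields: `s8a_cut_meas, s8a_cut_range, s8a_pph_meas, s8a_cutF_of`; `rows`: `hR` + `s8l_cert`.
 `Link`: `PrimSys.link` with `sm1 = 10 d δ 4 pDm⁴ Muse` (`Zf_sq_le`, `s8l_use_len`), `Muse = D M`; arithmetic `2 sm1 + 8 pDm⁴ δ² Muse ≤ pDm⁴ Muse δ (80 d + 8)` (`δ ≤ 1`).
-/
import Claimed.Agent.R258.S8.ALoc
import Claimed.Agent.R258.S8.AMult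
import Claimed.Agent.R258.S8.APar

set_option autoImplicit false
open MeasureTheory

namespace Claimed.Agent.R258

open scoped BigOperators
open Classical

noncomputable section

/-- the progression multiplier of Sec. 8.3 in truncated form, for all quadruples of offsets of the grid -/
def s8MultOk (d : ℕ) (t : LocTag) (δ : ℝ) (N : ℕ) (p : S8Par) : Prop :=
  ∀ js : Fin 4 → ℕ, (∀ l, js l < N) → ∃ c : (Fin d ⊕ Fin d → ℤ) → ℂ,
    ∑ n ∈ Fintype.piFinset (fun _ : Fin d ⊕ Fin d => Finset.Icc (-(p.Bs : ℤ)) p.Bs), ‖c n‖ ≤ p.Ds ∧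
    ∀ y s : ℝ, ‖∏ l : Fin 4, (s8GaugeOf d t δ N (js l)).gau (s8c4 l) (y + (l : ℝ) * s)
        - ∑ n ∈ Fintype.piFinset (fun _ : Fin d ⊕ Fin d => Finset.Icc (-(p.Bs : ℤ)) p.Bs),
            c n * ee ((s8GaugeOf d t δ N 0).dotv (fun i => n (Sum.inl i)) * y
              + (s8GaugeOf d t δ N 0).dotv (fun i => n (Sum.inr i)) * s)‖ ≤ ((p.Ds : ℝ) ^ 300)⁻¹

/-- the inequalities between the numbers of layer (A); `Cq1, Cq2, Cq3` = the constants of `s8a_expand, s8a_cut_fourier, s8a_mult` -/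
structure S8NumOk (Cq1 Cq2 Cq3 : ℕ) (D2 Hp δ : ℝ) (d pDm N D1 Ds Bs : ℕ) (epsm : ℝ) : Prop where
  d_ge : 2 ≤ d
  d_lo : Real.log D2 ≤ d
  d_hi : (d : ℝ) ≤ Real.log (21 * D2)
  pDm_lo : D2 ≤ pDm
  pDm_hi : (pDm : ℝ) ≤ D2 + 1
  N_lo : 1 ≤ δ * N
  D1_ge : s4b_qp Cq1 (Real.log (21 * D2) + Real.log Hp + Real.log (1 / δ) + Real.log (1 / δ)) ≤ D1
  Ds_cut : s4b_qp Cq2 (Real.log (21 * D2) + Real.log (1 / δ)) ≤ Ds
  Bs_cut : s4b_qp Cq2 (Real.log (21 * D2) + Real.log (1 / δ)) / ((Bs : ℝ) + 1) ≤ ((Ds : ℝ) ^ 300)⁻¹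
  Ds_mul : s4b_qp Cq3 (Real.log (21 * D2) + Real.log (1 / δ)) ≤ Ds
  Bs_mul : s4b_qp Cq3 (Real.log (21 * D2) + Real.log (1 / δ)) / ((Bs : ℝ) + 1) ≤ ((Ds : ℝ) ^ 300)⁻¹
  eps_hi : Real.sqrt epsm * D1 * (pDm : ℝ) ^ 2 ≤ 1
  eps_lo : ((Ds : ℝ))⁻¹ ≤ Real.sqrt epsm
  eps_le : epsm ≤ 1
  Ds_big : 2 * pDm ^ 2 * D1 ≤ Ds
  Ds_ge : 100 ≤ Ds
  pDm_le : pDm ≤ Ds

theorem s8an_ceil {P : Type*} {V : P → Prop} {x : P → ℝ} (hx : ∀ p, V p → 0 ≤ x p) {f : P → ℝ}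
    (hf : s4a_IsQP V x f) : s4a_IsQP V x (fun p => ((⌈f p⌉₊ : ℕ) : ℝ)) := by
  obtain ⟨C, hC⟩ := hf
  have h2 := (show s4a_IsQP V x f from ⟨C, hC⟩).add hx (s4a_IsQP.const hx 1 zero_le_one)
  exact h2.mono (fun p _ => Nat.cast_nonneg _) (fun p hp => (Nat.ceil_lt_add_one (hC p hp).1).le)

/-- the explicit numbers -/
theorem s8an_ok (Cq1 Cq2 Cq3 : ℕ) (D2 Hp δ : ℝ) (hD2 : Real.exp 2 ≤ D2) (hδ : 0 < δ)
    (d pDm N D1 Ds Bs : ℕ) (hd : d = ⌈Real.log D2⌉₊) (hpDm : pDm = ⌈D2⌉₊) (hN : N = ⌈1 / δ⌉₊)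
    (hD1 : D1 = ⌈s4b_qp Cq1 (Real.log (21 * D2) + Real.log Hp + Real.log (1 / δ) + Real.log (1 / δ))⌉₊)
    (hDs : Ds = ⌈s4b_qp Cq2 (Real.log (21 * D2) + Real.log (1 / δ))⌉₊ + ⌈s4b_qp Cq3 (Real.log (21 * D2) + Real.log (1 / δ))⌉₊
      + 2 * pDm ^ 2 * D1 + 100 + pDm)
    (hBs : Bs = ⌈(s4b_qp Cq2 (Real.log (21 * D2) + Real.log (1 / δ)) + s4b_qp Cq3 (Real.log (21 * D2) + Real.log (1 / δ)))
      * (Ds : ℝ) ^ 300⌉₊) :
    S8NumOk Cq1 Cq2 Cq3 D2 Hp δ d pDm N D1 Ds Bs (((Ds : ℝ)⁻¹) ^ 2) := by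
  have he2 : (1 : ℝ) ≤ Real.exp 2 := Real.one_le_exp (by norm_num)
  have hD20 : 0 < D2 := by linarith
  have hl2 : 2 ≤ Real.log D2 := by
    calc (2 : ℝ) = Real.log (Real.exp 2) := (Real.log_exp 2).symm
      _ ≤ _ := Real.log_le_log (Real.exp_pos _) hD2
  have hDs100 : 100 ≤ Ds := by omega
  have hDsR : (100 : ℝ) ≤ Ds := by exact_mod_cast hDs100
  have hDs0 : (0 : ℝ) < Ds := by linarith
  have hq2 := s4a_qp_pos Cq2 (Real.log (21 * D2) + Real.log (1 / δ))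
  have hq3 := s4a_qp_pos Cq3 (Real.log (21 * D2) + Real.log (1 / δ))
  have hc2 := Nat.le_ceil (s4b_qp Cq2 (Real.log (21 * D2) + Real.log (1 / δ)))
  have hc3 := Nat.le_ceil (s4b_qp Cq3 (Real.log (21 * D2) + Real.log (1 / δ)))
  have hBs' := Nat.le_ceil ((s4b_qp Cq2 (Real.log (21 * D2) + Real.log (1 / δ)) + s4b_qp Cq3 (Real.log (21 * D2) + Real.log (1 / δ)))
      * (Ds : ℝ) ^ 300)
  rw [← hBs] at hBs'
  have hbig : 2 * pDm ^ 2 * D1 ≤ Ds := by omega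
  have hbigR : 2 * (pDm : ℝ) ^ 2 * D1 ≤ Ds := by exact_mod_cast hbig
  have hpow : (0 : ℝ) < (Ds : ℝ) ^ 300 := by positivity
  have hsqrt : Real.sqrt (((Ds : ℝ)⁻¹) ^ 2) = (Ds : ℝ)⁻¹ := Real.sqrt_sq (by positivity)
  refine
    { d_ge := ?_
      d_lo := ?_
      d_hi := ?_
      pDm_lo := ?_
      pDm_hi := ?_
      N_lo := ?_
      D1_ge := ?_
      Ds_cut := ?_
      Bs_cut := ?_
      Ds_mul := ?_
      Bs_mul := ?_
      eps_hi := ?_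
      eps_lo := ?_
      eps_le := ?_
      Ds_big := hbig
      Ds_ge := hDs100
      pDm_le := by omega }
  · have : (2 : ℝ) ≤ d := by rw [hd]; exact hl2.trans (Nat.le_ceil _)
    exact_mod_cast this
  · rw [hd]; exact Nat.le_ceil _
  · rw [hd]
    have h1 := (Nat.ceil_lt_add_one (show 0 ≤ Real.log D2 by linarith)).le
    have h21 : Real.log (21 * D2) = Real.log 21 + Real.log D2 := Real.log_mul (by norm_num) (by linarith)
    have hl21 : 1 ≤ Real.log 21 := by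
      rw [Real.le_log_iff_exp_le (by norm_num)]
      have := Real.exp_one_lt_d9
      linarith
    linarith
  · rw [hpDm]; exact Nat.le_ceil _
  · rw [hpDm]; exact (Nat.ceil_lt_add_one hD20.le).le
  · rw [hN]
    have h1 := Nat.le_ceil (1 / δ)
    calc (1 : ℝ) = δ * (1 / δ) := by field_simp
      _ ≤ _ := mul_le_mul_of_nonneg_left h1 hδ.le
  · rw [hD1]; exact Nat.le_ceil _
  · refine hc2.trans ?_
    have : ⌈s4b_qp Cq2 (Real.log (21 * D2) + Real.log (1 / δ))⌉₊ ≤ Ds := by omega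
    exact_mod_cast this
  · rw [div_le_iff₀ (by positivity), ← div_eq_inv_mul, le_div_iff₀ hpow]
    have : 0 ≤ s4b_qp Cq3 (Real.log (21 * D2) + Real.log (1 / δ)) * (Ds : ℝ) ^ 300 := by positivity
    linarith
  · refine hc3.trans ?_
    have : ⌈s4b_qp Cq3 (Real.log (21 * D2) + Real.log (1 / δ))⌉₊ ≤ Ds := by omega
    exact_mod_cast this
  · rw [div_le_iff₀ (by positivity), ← div_eq_inv_mul, le_div_iff₀ hpow]
    have : 0 ≤ s4b_qp Cq2 (Real.log (21 * D2) + Real.log (1 / δ)) * (Ds : ℝ) ^ 300 := by positivity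
    linarith
  · rw [hsqrt, mul_assoc, inv_mul_le_iff₀ hDs0, mul_one]
    have : 0 ≤ (pDm : ℝ) ^ 2 * D1 := by positivity
    linarith
  · rw [hsqrt]
  · have : (Ds : ℝ)⁻¹ ≤ 1 := inv_le_one_of_one_le₀ (by linarith)
    exact pow_le_one₀ (by positivity) this

/-- existence of the numbers, with polynomial logarithms (`C4` = the constant of `s8_par_bd`) -/
theorem s8a_num (Cq1 Cq2 Cq3 C4 : ℕ) : ∃ Cq : ℕ, ∀ (D2 Hp δ : ℝ), Real.exp 2 ≤ D2 → 1 ≤ Hp → 0 < δ → δ ≤ 1 / 8 →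
    ∃ (d pDm N D1 Ds Bs : ℕ) (epsm : ℝ), S8NumOk Cq1 Cq2 Cq3 D2 Hp δ d pDm N D1 Ds Bs epsm ∧
      Real.log Ds ≤ s4a_pl Cq (Real.log D2 + Real.log Hp + Real.log (1 / δ)) ∧
      Real.log ((Bs : ℝ) + 1) ≤ s4a_pl Cq (Real.log D2 + Real.log Hp + Real.log (1 / δ)) ∧
      s4a_pl C4 ((d : ℝ) + Real.log Ds + Real.log ((Bs : ℝ) + 1)) ≤ s4a_pl Cq (Real.log D2 + Real.log Hp + Real.log (1 / δ)) := by
  set V : ℝ × ℝ × ℝ → Prop := fun p => Real.exp 2 ≤ p.1 ∧ 1 ≤ p.2.1 ∧ 0 < p.2.2 ∧ p.2.2 ≤ 1 / 8 with hV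
  set x : ℝ × ℝ × ℝ → ℝ := fun p => Real.log p.1 + Real.log p.2.1 + Real.log (1 / p.2.2) with hxdef
  have he2 : (1 : ℝ) ≤ Real.exp 2 := Real.one_le_exp (by norm_num)
  have hl1 : ∀ p, V p → 0 ≤ Real.log p.1 := fun p hp => Real.log_nonneg (he2.trans hp.1)
  have hl2 : ∀ p, V p → 0 ≤ Real.log p.2.1 := fun p hp => Real.log_nonneg hp.2.1
  have hl3 : ∀ p, V p → 0 ≤ Real.log (1 / p.2.2) := fun p hp => Real.log_nonneg (by
    rw [le_div_iff₀ hp.2.2.1]; linarith [hp.2.2.2])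
  have hx : ∀ p, V p → 0 ≤ x p := fun p hp => by
    have := hl1 p hp
    have := hl2 p hp
    have := hl3 p hp
    simp only [hxdef]; linarith
  have cp : ∀ c : ℝ, 0 ≤ c → s4a_IsPL V x (fun _ => c) := fun c hc => s4a_IsPL.const hx c hc
  have cq : ∀ c : ℝ, 0 ≤ c → s4a_IsQP V x (fun _ => c) := fun c hc => s4a_IsQP.const hx c hc
  have p1 : s4a_IsPL V x (fun p => Real.log p.1) :=
    (s4a_IsPL.size hx).mono hl1 (fun p hp => by
      have := hl2 p hp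
      have := hl3 p hp
      simp only [hxdef]; linarith)
  have p2 : s4a_IsPL V x (fun p => Real.log p.2.1) :=
    (s4a_IsPL.size hx).mono hl2 (fun p hp => by
      have := hl1 p hp
      have := hl3 p hp
      simp only [hxdef]; linarith)
  have p3 : s4a_IsPL V x (fun p => Real.log (1 / p.2.2)) :=
    (s4a_IsPL.size hx).mono hl3 (fun p hp => by
      have := hl1 p hp
      have := hl2 p hp
      simp only [hxdef]; linarith)
  have p21 : s4a_IsPL V x (fun p => Real.log (21 * p.1)) := by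
    refine ((cp (Real.log 21) (Real.log_nonneg (by norm_num))).add hx p1).mono (fun p hp => ?_) (fun p hp => ?_)
    · exact Real.log_nonneg (by linarith [he2.trans hp.1])
    · rw [Real.log_mul (by norm_num) (by linarith [he2.trans hp.1])]
  have qD2 : s4a_IsQP V x (fun p => p.1) :=
    s4a_IsQP.of_log p1 (fun p hp => by linarith [he2.trans hp.1]) (fun p _ => le_rfl)
  -- the numbers
  set dF : ℝ × ℝ × ℝ → ℕ := fun p => ⌈Real.log p.1⌉₊ with hdF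
  set mF : ℝ × ℝ × ℝ → ℕ := fun p => ⌈p.1⌉₊ with hmF
  set D1F : ℝ × ℝ × ℝ → ℕ := fun p =>
    ⌈s4b_qp Cq1 (Real.log (21 * p.1) + Real.log p.2.1 + Real.log (1 / p.2.2) + Real.log (1 / p.2.2))⌉₊ with hD1F
  set DsF : ℝ × ℝ × ℝ → ℕ := fun p =>
    ⌈s4b_qp Cq2 (Real.log (21 * p.1) + Real.log (1 / p.2.2))⌉₊ + ⌈s4b_qp Cq3 (Real.log (21 * p.1) + Real.log (1 / p.2.2))⌉₊
      + 2 * mF p ^ 2 * D1F p + 100 + mF p with hDsF
  set BsF : ℝ × ℝ × ℝ → ℕ := fun p =>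
    ⌈(s4b_qp Cq2 (Real.log (21 * p.1) + Real.log (1 / p.2.2)) + s4b_qp Cq3 (Real.log (21 * p.1) + Real.log (1 / p.2.2)))
      * (DsF p : ℝ) ^ 300⌉₊ with hBsF
  have pd : s4a_IsPL V x (fun p => (dF p : ℝ)) :=
    (p1.add hx (cp 1 zero_le_one)).mono (fun p _ => Nat.cast_nonneg _)
      (fun p hp => (Nat.ceil_lt_add_one (hl1 p hp)).le)
  have qm : s4a_IsQP V x (fun p => (mF p : ℝ)) := s8an_ceil hx qD2
  have qD1 : s4a_IsQP V x (fun p => (D1F p : ℝ)) :=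
    s8an_ceil hx (s4a_IsQP.comp hx Cq1 (((p21.add hx p2).add hx p3).add hx p3))
  have q2 : s4a_IsQP V x (fun p => s4b_qp Cq2 (Real.log (21 * p.1) + Real.log (1 / p.2.2))) :=
    s4a_IsQP.comp hx Cq2 (p21.add hx p3)
  have q3 : s4a_IsQP V x (fun p => s4b_qp Cq3 (Real.log (21 * p.1) + Real.log (1 / p.2.2))) :=
    s4a_IsQP.comp hx Cq3 (p21.add hx p3)
  have qDs : s4a_IsQP V x (fun p => (DsF p : ℝ)) := by
    have := (((((s8an_ceil hx q2).add hx (s8an_ceil hx q3)).add hx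
      (((cq 2 (by norm_num)).mul hx (qm.pow_const hx 2)).mul hx qD1)).add hx (cq 100 (by norm_num))).add hx qm)
    exact this.mono (fun p _ => Nat.cast_nonneg _) (fun p _ => by simp only [hDsF]; push_cast; exact le_rfl)
  have qBs : s4a_IsQP V x (fun p => (BsF p : ℝ) + 1) :=
    (s8an_ceil hx ((q2.add hx q3).mul hx (qDs.pow_const hx 300))).add hx (cq 1 zero_le_one)
  have hDs1 : ∀ p, (1 : ℝ) ≤ DsF p := fun p => by
    have : 1 ≤ DsF p := by simp only [hDsF]; omega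
    exact_mod_cast this
  have plDs : s4a_IsPL V x (fun p => Real.log (DsF p : ℝ)) := qDs.log (fun p _ => hDs1 p)
  have plBs : s4a_IsPL V x (fun p => Real.log ((BsF p : ℝ) + 1)) :=
    qBs.log (fun p _ => by linarith [(Nat.cast_nonneg (BsF p) : (0:ℝ) ≤ BsF p)])
  have pl4 : s4a_IsPL V x (fun p => s4a_pl C4 ((dF p : ℝ) + Real.log (DsF p : ℝ) + Real.log ((BsF p : ℝ) + 1))) :=
    s4a_IsPL.comp hx C4 ((pd.add hx plDs).add hx plBs)
  obtain ⟨C1, h1⟩ := plDs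
  obtain ⟨C2, h2⟩ := plBs
  obtain ⟨C3, h3⟩ := pl4
  refine ⟨C1 + C2 + C3, fun D2 Hp δ hD2 hHp hδ hδ8 => ?_⟩
  have hp : V (D2, Hp, δ) := ⟨hD2, hHp, hδ, hδ8⟩
  have hx0 := hx _ hp
  refine ⟨dF (D2, Hp, δ), mF (D2, Hp, δ), ⌈1 / δ⌉₊, D1F (D2, Hp, δ), DsF (D2, Hp, δ), BsF (D2, Hp, δ), _,
    s8an_ok Cq1 Cq2 Cq3 D2 Hp δ hD2 hδ _ _ _ _ _ _ rfl rfl rfl rfl rfl rfl,
    (h1 _ hp).2.trans (s4a_pl_mono (by omega) hx0 le_rfl), (h2 _ hp).2.trans (s4a_pl_mono (by omega) hx0 le_rfl),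
    (h3 _ hp).2.trans (s4a_pl_mono (by omega) hx0 le_rfl)⟩

/-- the truncated Fourier series of `(ζ^ρ)²` from the kit -/
theorem s8a_cutF_of {Cq2 : ℕ}
    (h2 : ∀ (d : ℕ) (t : LocTag) (δ H : ℝ) (N j : ℕ), t.dim ≤ d → Real.exp 2 ≤ H →
      (d : ℝ) ≤ Real.log H → (∀ i k, (qHeight (t.C i k) : ℝ) ≤ H) → 0 < δ → δ ≤ 1 / 8 →
      ∃ c : (Fin d → ℤ) → ℂ, Summable (fun n => ‖c n‖ * (1 + ‖n‖) ^ 1) ∧
        ∑' n, ‖c n‖ * (1 + ‖n‖) ^ 1 ≤ s4b_qp Cq2 (Real.log H + Real.log (1 / δ)) ∧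
        ∀ y, HasSum (fun n => c n * ee ((s8GaugeOf d t δ N j).dotv n * y)) ((((s8GaugeOf d t δ N j).cut y) ^ 2 : ℝ) : ℂ))
    (d : ℕ) (t : LocTag) (δ H : ℝ) (N j Ds Bs : ℕ) (ht : t.dim ≤ d) (hH : Real.exp 2 ≤ H) (hd : (d : ℝ) ≤ Real.log H)
    (hC : ∀ i k, (qHeight (t.C i k) : ℝ) ≤ H) (hδ : 0 < δ) (hδ' : δ ≤ 1 / 8)
    (hDs : s4b_qp Cq2 (Real.log H + Real.log (1 / δ)) ≤ Ds)
    (hBs : s4b_qp Cq2 (Real.log H + Real.log (1 / δ)) / ((Bs : ℝ) + 1) ≤ ((Ds : ℝ) ^ 300)⁻¹) :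
    ∃ c : (Fin d → ℤ) → ℂ,
      ∑ n ∈ Fintype.piFinset (fun _ : Fin d => Finset.Icc (-(Bs : ℤ)) Bs), ‖c n‖ ≤ Ds ∧
      ∀ y, ‖(((s8GaugeOf d t δ N j).cut y ^ 2 : ℝ) : ℂ)
          - ∑ n ∈ Fintype.piFinset (fun _ : Fin d => Finset.Icc (-(Bs : ℤ)) Bs),
              c n * ee ((s8GaugeOf d t δ N j).dotv n * y)‖ ≤ ((Ds : ℝ) ^ 300)⁻¹ := by
  obtain ⟨c, hs, hsum, hhs⟩ := h2 d t δ H N j ht hH hd hC hδ hδ'
  refine ⟨c, ?_, fun y => ?_⟩
  · exact le_trans (s8a_box_trunc c (fun n => ee ((s8GaugeOf d t δ N j).dotv n * 0)) (fun n => (s4a_ee_norm _).le) _ Bs hs hsum _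
      (hhs 0)).1 hDs
  · exact le_trans (s8a_box_trunc c (fun n => ee ((s8GaugeOf d t δ N j).dotv n * y)) (fun n => (s4a_ee_norm _).le) _ Bs hs hsum _
      (hhs y)).2 hBs

/-- the truncated multiplier from the kit -/
theorem s8a_multOk_of {Cq3 : ℕ}
    (h3 : ∀ (d : ℕ) (t : LocTag) (δ H : ℝ) (N : ℕ) (js : Fin 4 → ℕ), t.dim ≤ d → Real.exp 2 ≤ H →
      (d : ℝ) ≤ Real.log H → (∀ i k, (qHeight (t.C i k) : ℝ) ≤ H) → 0 < δ → δ ≤ 1 / 8 → 0 < N → (∀ l, js l < N) →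
      ∃ c : (Fin d ⊕ Fin d → ℤ) → ℂ, Summable (fun n => ‖c n‖ * (1 + ‖n‖) ^ 1) ∧
        ∑' n, ‖c n‖ * (1 + ‖n‖) ^ 1 ≤ s4b_qp Cq3 (Real.log H + Real.log (1 / δ)) ∧
        ∀ y s : ℝ, HasSum
          (fun n => c n * ee ((s8GaugeOf d t δ N 0).dotv (fun i => n (Sum.inl i)) * y
            + (s8GaugeOf d t δ N 0).dotv (fun i => n (Sum.inr i)) * s))
          (∏ l : Fin 4, (s8GaugeOf d t δ N (js l)).gau (s8c4 l) (y + (l : ℝ) * s)))
    (d : ℕ) (t : LocTag) (δ H : ℝ) (N : ℕ) (p : S8Par) (ht : t.dim ≤ d) (hH : Real.exp 2 ≤ H) (hd : (d : ℝ) ≤ Real.log H)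
    (hC : ∀ i k, (qHeight (t.C i k) : ℝ) ≤ H) (hδ : 0 < δ) (hδ' : δ ≤ 1 / 8) (hN : 0 < N)
    (hDs : s4b_qp Cq3 (Real.log H + Real.log (1 / δ)) ≤ p.Ds)
    (hBs : s4b_qp Cq3 (Real.log H + Real.log (1 / δ)) / ((p.Bs : ℝ) + 1) ≤ ((p.Ds : ℝ) ^ 300)⁻¹) :
    s8MultOk d t δ N p := by
  intro js hjs
  obtain ⟨c, hs, hsum, hhs⟩ := h3 d t δ H N js ht hH hd hC hδ hδ' hN hjs
  refine ⟨c, ?_, fun y s => ?_⟩
  · exact le_trans (s8a_box_trunc c _ (fun n => (s4a_ee_norm _).le) _ p.Bs hs hsum _ (hhs 0 0)).1 hDs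
  · exact le_trans (s8a_box_trunc c _ (fun n => (s4a_ee_norm _).le) _ p.Bs hs hsum _ (hhs y s)).2 hBs

/-- **LAYER (A) OF SEC. 8**, non-asymptotic form. -/
theorem s8_layerA0 : ∃ Cq : ℕ, ∀ (Y : LocSys LocTag) (c0 C0 q η D M LU Dm D2 Hp G0 δ : ℝ) (m0 κ N0 : ℕ) (cells : Finset Cell),
    Y.X.Valid c0 C0 q η D M LU → 2 ≤ q → 0 ≤ M → Y.Valid Dm m0 →
    (∀ Φ ∈ Y.cat.cols, (Y.cat.chart Φ.lab).tag (Y.cat.slot Φ.lab) = Y.B.tag (Y.cat.vtx Φ.lab)) →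
    Y.EndpointGoal Hp → 0 ≤ G0 → Y.RowsGoal κ G0 → cells ⊆ Y.X.S →
    Real.exp 2 ≤ Dm → Dm ≤ D2 → ((Y.p.D * (Y.p.d0 ^ 8 + 1) : ℕ) : ℝ) ≤ D2 → 1 ≤ Hp → 0 < δ → δ * (D2 + 1) ^ 2 ≤ 1 / 100 →
    ∃ (ν : S8Num) (jo : Fin 4 → ℕ → ℕ) (p : S8Par),
      ν.N0 = N0 ∧ ν.δ = δ ∧ ν.εx = δ ∧ ν.Hp = Hp ∧ (∀ l G, jo l G < ν.N) ∧ 1 ≤ δ * ν.N ∧
      p.Ok ν.d ∧ (Y.primSys κ cells ν jo).Ok p ν.D1 ν.εx G0 ∧
      (Y.primSys κ cells ν jo).toMode.Link p (Y.Z κ) 3 ((p.Dm : ℝ) ^ 4 * ((Y.p.D : ℝ) * M) * δ * (80 * ν.d + 8)) ∧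
      (∀ G, (Y.ctag κ cells G).dim ≤ ν.d ∧ s8MultOk ν.d (Y.ctag κ cells G) ν.δ ν.N p) ∧
      Real.log D2 ≤ ν.d ∧ (ν.d : ℝ) ≤ Real.log D2 + 4 ∧ D2 ≤ p.Dm ∧ (p.Dm : ℝ) ≤ D2 + 1 ∧ p.δs = 1 / 1024 ∧
      Real.log p.Ds ≤ s4a_pl Cq (Real.log D2 + Real.log Hp + Real.log (1 / δ)) ∧
      Real.log ((p.Bs : ℝ) + 1) ≤ s4a_pl Cq (Real.log D2 + Real.log Hp + Real.log (1 / δ)) ∧
      (p.K : ℝ) ≤ s4a_pl Cq (Real.log D2 + Real.log Hp + Real.log (1 / δ)) ∧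
      (p.Js : ℝ) ≤ s4a_pl Cq (Real.log D2 + Real.log Hp + Real.log (1 / δ)) ∧
      Real.log p.A0 ≤ s4a_pl Cq (Real.log D2 + Real.log Hp + Real.log (1 / δ)) ∧
      Real.log p.Hh ≤ s4a_pl Cq (Real.log D2 + Real.log Hp + Real.log (1 / δ)) ∧
      (p.tau : ℝ) ≤ s4a_pl Cq (Real.log D2 + Real.log Hp + Real.log (1 / δ)) := by
  obtain ⟨Cq1, h1⟩ := s8a_expand
  obtain ⟨Cq2, h2⟩ := s8a_cut_fourier
  obtain ⟨Cq3, h3⟩ := s8a_mult
  obtain ⟨C4, h4⟩ := s8_par_bd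
  obtain ⟨Cq, hnum⟩ := s8a_num Cq1 Cq2 Cq3 C4
  refine ⟨Cq, ?_⟩
  intro Y c0 C0 q η D M LU Dm D2 Hp G0 δ m0 κ N0 cells hX hq hM hV htag hE hG0 hR hc hDm hD2 hgrp hHp hδ hδs
  have he2 : (1 : ℝ) ≤ Real.exp 2 := Real.one_le_exp (by norm_num)
  have hD2e : Real.exp 2 ≤ D2 := hDm.trans hD2
  have hDm1 : 1 ≤ Dm := he2.trans hDm
  have hD21 : 1 ≤ D2 := he2.trans hD2e
  have hsq1 : 1 ≤ (D2 + 1) ^ 2 := by nlinarith
  have hδ100 : δ ≤ 1 / 100 := by nlinarith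
  have hδ8 : δ ≤ 1 / 8 := by linarith
  obtain ⟨d, pDm, N, D1, Ds, Bs, epsm, n, hb1, hb2, hb3⟩ := hnum D2 Hp δ hD2e hHp hδ hδ8
  have hpDm1 : 1 ≤ pDm := by
    have : (1 : ℝ) ≤ pDm := hD21.trans n.pDm_lo
    exact_mod_cast this
  have hpOk : (s8ParOf d pDm Ds Bs).Ok d := s8_par_ok d pDm Ds Bs n.d_ge hpDm1 n.pDm_le n.Ds_ge
  have hN0 : 0 < N := by
    rcases Nat.eq_zero_or_pos N with h | h
    · have := n.N_lo; rw [h] at this; norm_num at this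
    · exact h
  have htg := fun G => LocSys.s8l_ctag (κ := κ) (cells := cells) hV htag hDm1 G
  have hlogmono : Real.log Dm ≤ Real.log D2 := Real.log_le_log (by linarith) hD2
  have hdim : ∀ G, (Y.ctag κ cells G).dim ≤ d := by
    intro G
    have : ((Y.ctag κ cells G).dim : ℝ) ≤ d := ((htg G).1.trans hlogmono).trans n.d_lo
    exact_mod_cast this
  have hH : Real.exp 2 ≤ 21 * D2 := by linarith
  have hht : ∀ G i k, (qHeight ((Y.ctag κ cells G).C i k) : ℝ) ≤ 21 * D2 := by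
    intro G i k
    have := (htg G).2 i k
    linarith
  -- the numerical record and the offsets
  obtain ⟨jo, hjo, hoff⟩ := LocSys.s8l_offsets d (Y.ctag κ cells) δ N hdim hδ hδ8 n.N_lo (Y.usesOn κ cells)
    (fun l u y => ‖physFn ((Y.primSys κ cells ⟨d, δ, N, Hp, D1, δ, epsm, N0⟩ (fun _ _ => 0)).toMode.Zf (s8ParOf d pDm Ds Bs)
      (Y.Z κ) l u.1 u.2) y‖ ^ 2)
    (fun l u _ => ((xv_physFn_memLp _).integrable_norm_pow (by norm_num)).integrableOn)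
    (fun l u y => by positivity)
  have hP : 1 ≤ Y.p.P := hV.P_pos
  have hOk : (Y.primSys κ cells ⟨d, δ, N, Hp, D1, δ, epsm, N0⟩ jo).Ok (s8ParOf d pDm Ds Bs) D1 δ G0 :=
    { G0_nonneg := hG0
      uses_le := LocSys.s8l_uses_le hX hc
      prim_U := by
        intro l G U hl
        apply Finset.eq_empty_of_forall_notMem
        intro Φ hΦ
        have := (LocSys.s8l_mem_prim.1 hΦ).1
        have hl' : (!Y.pat l) = false := hl
        rw [this] at hl'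
        simp at hl'
      prim_root := fun l G U Φ hΦ => (LocSys.s8l_mem_prim.1 hΦ).2.2.1
      prim_birth := fun l G U Φ hΦ => (LocSys.s8l_mem_prim.1 hΦ).2.2.2.2.1
      prim_mono := fun l G U U' hU hU' => LocSys.s8l_prim_mono l G U U' hU hU'
      prim_lab := fun l G U l' G' U' Φ hΦ Φ' hΦ' h => LocSys.s8l_prim_lab hV l G U l' G' U' Φ hΦ Φ' hΦ' h
      prim_fm := fun l G U Φ hΦ => (LocSys.s8l_fm htag hE hΦ).1
      count := by
        intro I hI A hA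
        have h := LocSys.s8l_count hV I hI A hA
        have : (A.card : ℝ) ≤ pDm := (h.trans hD2).trans n.pDm_lo
        exact_mod_cast this
      col_eps := by
        intro l G U Φ hΦ
        obtain ⟨_, _, _, _, h5, h6⟩ := LocSys.s8l_col hV hΦ
        refine ⟨le_trans ?_ h5, h6⟩
        exact inv_anti₀ (by linarith) (hD2.trans n.pDm_lo)
      col_phi := by
        intro l G U Φ hΦ
        obtain ⟨_, _, h3, h4, _, _⟩ := LocSys.s8l_col hV hΦ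
        exact ⟨h3, h4⟩
      grp_count := by
        intro l U _
        have h := LocSys.s8l_grp_count (Y := Y) (κ := κ) (cells := cells) (ν := ⟨d, δ, N, Hp, D1, δ, epsm, N0⟩) (jo := jo) l U
        have h' : ((Y.p.D * (Y.p.d0 ^ 8 + 1) : ℕ) : ℝ) ≤ pDm := hgrp.trans n.pDm_lo
        exact h.trans (by exact_mod_cast h')
      Z_span := by
        intro l G U hl hU
        obtain ⟨hG, hUr, _⟩ := LocSys.s8l_cert hc hU
        have hl' : Y.pat l = false := by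
          have : (!Y.pat l) = true := hl
          simpa using this
        exact LocSys.s8l_Z_span hP hl' hG hUr
      Z_size := by
        intro l G U hl hU
        obtain ⟨hG, hUr, I, hI, hIU, _⟩ := LocSys.s8l_cert hc hU
        have hl' : Y.pat l = false := by
          have : (!Y.pat l) = true := hl
          simpa using this
        exact LocSys.s8l_Z_size hX hq hP hl' G (hX.tree.conv I (hX.S_sub hI) U hIU hUr)
      ex_ok := by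
        intro l G U Φ hΦ
        obtain ⟨hphi, hcplx, _, _, _, _⟩ := LocSys.s8l_col hV hΦ
        obtain ⟨hfm1, hfm2⟩ := LocSys.s8l_fm htag hE hΦ
        have hdepth : ((Y.primSys κ cells ⟨d, δ, N, Hp, D1, δ, epsm, N0⟩ jo).fmc l G Φ U).depth
            = Φ.birth.depth + ((Y.primSys κ cells ⟨d, δ, N, Hp, D1, δ, epsm, N0⟩ jo).fm l G Φ : ℤ) := by
          unfold PrimSys.fmc
          rw [cell_depth_anc]
          omega
        have had : (Y.cat.chart Φ.lab).d ≤ d := by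
          have : ((Y.cat.chart Φ.lab).d : ℝ) ≤ d := (hcplx.dim.trans hlogmono).trans n.d_lo
          exact_mod_cast this
        have hlog21 : Real.log D2 ≤ Real.log (21 * D2) := Real.log_le_log (by linarith) (by linarith)
        have hex := h1 d (Y.ctag κ cells G) (Y.cat.chart Φ.lab) l
          ((Y.primSys κ cells ⟨d, δ, N, Hp, D1, δ, epsm, N0⟩ jo).fmc l G Φ U) (21 * D2) Hp δ δ N (jo l G) D1 (hdim G) had
          (s4a_cplx_mono hcplx (by linarith)) (((htg G).1.trans hlogmono).trans hlog21) (hht G)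
          (by rw [hdepth]; exact hfm2) hHp hδ hδ8 hδ (by linarith) hN0 (hjo l G) n.D1_ge
        rw [hphi]
        have hex' : ∃ E : S8Exp, E.Ok (Y.s8gauge κ cells ⟨d, δ, N, Hp, D1, δ, epsm, N0⟩ jo l G) (s8c4 l)
            (Y.cat.chart Φ.lab).eval (s8PadV (S8Num.d ⟨d, δ, N, Hp, D1, δ, epsm, N0⟩) (Y.cat.chart Φ.lab).th)
            ((Y.primSys κ cells ⟨d, δ, N, Hp, D1, δ, epsm, N0⟩ jo).fmc l G Φ U)
            (S8Num.D1 ⟨d, δ, N, Hp, D1, δ, epsm, N0⟩) (S8Num.εx ⟨d, δ, N, Hp, D1, δ, epsm, N0⟩) := hex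
        show (dite _ _ _ : S8Exp).Ok _ _ _ _ _ _ _
        rw [dif_pos hex']
        exact hex'.choose_spec
      cut_meas := fun l G => s8a_cut_meas d _ δ N _ hδ
      cut_range := fun l G y => s8a_cut_range d _ δ N _ y
      pph_meas := fun l G => s8a_pph_meas d _ δ N _
      cut_fourier := fun l G => s8a_cutF_of h2 d (Y.ctag κ cells G) δ (21 * D2) N (jo l G) Ds Bs (hdim G) hH n.d_hi (hht G) hδ hδ8
        n.Ds_cut n.Bs_cut
      rows := by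
        intro l hl ι _ Ge Ue Te Bz hBz hcert hloc hB
        have hl' : Y.pat l = false := by
          have : (!Y.pat l) = true := hl
          simpa using this
        exact hR l hl' ι Ge Ue Te Bz hBz (fun e => (LocSys.s8l_cert hc (hcert e)).2) hloc hB
      Dm_pos := hpDm1
      εx_nonneg := hδ.le
      εx_small := by
        have h1 : (pDm : ℝ) ^ 2 ≤ (D2 + 1) ^ 2 := pow_le_pow_left₀ (by positivity) n.pDm_hi 2
        have : δ * (pDm : ℝ) ^ 2 ≤ δ * (D2 + 1) ^ 2 := mul_le_mul_of_nonneg_left h1 hδ.le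
        show δ * (pDm : ℝ) ^ 2 ≤ 1
        linarith
      eps_hi := n.eps_hi
      eps_lo := n.eps_lo
      eps_le := n.eps_le
      Ds_big := n.Ds_big }
  have hlen := LocSys.s8l_use_len (κ := κ) hX hM hc
  have hRlen : 0 ≤ Y.X.root.len := cell_len_nonneg _
  have hMuse : 0 ≤ (Y.p.D : ℝ) * M := by positivity
  have hoff' : ∀ l, (Y.primSys κ cells ⟨d, δ, N, Hp, D1, δ, epsm, N0⟩ jo).isB l = true →
      ∑ u ∈ (Y.primSys κ cells ⟨d, δ, N, Hp, D1, δ, epsm, N0⟩ jo).uses, ∫ y in u.2.set,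
        (1 - ((Y.primSys κ cells ⟨d, δ, N, Hp, D1, δ, epsm, N0⟩ jo).gauge l u.1).cut y ^ 2) ^ 2 *
          ‖physFn ((Y.primSys κ cells ⟨d, δ, N, Hp, D1, δ, epsm, N0⟩ jo).toMode.Zf (s8ParOf d pDm Ds Bs)
            (Y.primSys κ cells ⟨d, δ, N, Hp, D1, δ, epsm, N0⟩ jo).Z l u.1 u.2) y‖ ^ 2
        ≤ (10 * d * δ * (4 * (pDm : ℝ) ^ 4 * ((Y.p.D : ℝ) * M))) *
          (Y.primSys κ cells ⟨d, δ, N, Hp, D1, δ, epsm, N0⟩ jo).root.len := by
    intro l hl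
    have hz := PrimSys.Zf_sq_le hOk hl
    have hz' : ∑ u ∈ (Y.primSys κ cells ⟨d, δ, N, Hp, D1, δ, epsm, N0⟩ jo).uses, ∫ y in u.2.set,
        ‖physFn ((Y.primSys κ cells ⟨d, δ, N, Hp, D1, δ, epsm, N0⟩ jo).toMode.Zf (s8ParOf d pDm Ds Bs)
            (Y.primSys κ cells ⟨d, δ, N, Hp, D1, δ, epsm, N0⟩ jo).Z l u.1 u.2) y‖ ^ 2
        ≤ 4 * (pDm : ℝ) ^ 4 * ((Y.p.D : ℝ) * M * Y.X.root.len) :=
      hz.trans (mul_le_mul_of_nonneg_left hlen (by positivity))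
    refine (hoff l).trans ?_
    have h10 : (0 : ℝ) ≤ 10 * d * δ := by positivity
    calc 10 * (d : ℝ) * δ * _ ≤ 10 * (d : ℝ) * δ * (4 * (pDm : ℝ) ^ 4 * ((Y.p.D : ℝ) * M * Y.X.root.len)) :=
          mul_le_mul_of_nonneg_left hz' h10
      _ = _ := by
          show _ = (10 * d * δ * (4 * (pDm : ℝ) ^ 4 * ((Y.p.D : ℝ) * M))) * Y.X.root.len
          ring
  have hL := PrimSys.link hOk _ _ hoff' hlen
  obtain ⟨k1, k2, k3, k4, k5⟩ := h4 d pDm Ds Bs n.d_ge hpDm1 n.pDm_le n.Ds_ge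
  refine ⟨⟨d, δ, N, Hp, D1, δ, epsm, N0⟩, jo, s8ParOf d pDm Ds Bs, rfl, rfl, rfl, rfl, hjo, n.N_lo, hpOk, hOk,
    ⟨hL.lift, fun l hl => (hL.err l hl).trans ?_⟩, fun G => ⟨hdim G, ?_⟩, n.d_lo, ?_, n.pDm_lo, n.pDm_hi, rfl, hb1, hb2,
    k1.trans hb3, k2.trans hb3, k3.trans hb3, k4.trans hb3, k5.trans hb3⟩
  · apply mul_le_mul_of_nonneg_right _ hRlen
    show 2 * (10 * d * δ * (4 * (pDm : ℝ) ^ 4 * ((Y.p.D : ℝ) * M))) + 8 * (pDm : ℝ) ^ 4 * δ ^ 2 * ((Y.p.D : ℝ) * M)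
      ≤ (pDm : ℝ) ^ 4 * ((Y.p.D : ℝ) * M) * δ * (80 * d + 8)
    have hX0 : 0 ≤ (pDm : ℝ) ^ 4 * ((Y.p.D : ℝ) * M) * δ := by positivity
    have : δ ≤ 1 := by linarith
    nlinarith [mul_le_mul_of_nonneg_left this hX0]
  · exact s8a_multOk_of h3 d (Y.ctag κ cells G) δ (21 * D2) N (s8ParOf d pDm Ds Bs) (hdim G) hH n.d_hi (hht G) hδ hδ8 hN0
      n.Ds_mul n.Bs_mul
  · have h21 : Real.log (21 * D2) = Real.log 21 + Real.log D2 := Real.log_mul (by norm_num) (by linarith)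
    have hl21 : Real.log 21 ≤ 4 := by
      have : (21 : ℝ) ≤ Real.exp 4 := by
        have h := Real.add_one_le_exp (1 : ℝ)
        have h4 : Real.exp 4 = Real.exp 1 ^ 4 := by rw [← Real.exp_nat_mul]; norm_num
        rw [h4]
        have : (2 : ℝ) ≤ Real.exp 1 := by linarith
        have h5 : (2 : ℝ) ^ 4 ≤ Real.exp 1 ^ 4 := pow_le_pow_left₀ (by norm_num) this 4
        have h27 := Real.exp_one_gt_d9
        nlinarith [pow_le_pow_left₀ (by norm_num : (0:ℝ) ≤ 2.7) (by linarith : (2.7 : ℝ) ≤ Real.exp 1) 4]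
      calc Real.log 21 ≤ Real.log (Real.exp 4) := Real.log_le_log (by norm_num) this
        _ = 4 := Real.log_exp 4
    have := n.d_hi
    show (d : ℝ) ≤ Real.log D2 + 4
    linarith

end

end Claimed.Agent.R258
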