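/-
Row 258 (S0498), Sec. 8.3 (linearization.tex l.262-300), layer (A).  Architect: helper61.        THE COMMON PROGRESSION MULTIPLIER.
No paper reading is needed.  Consumer: Sec. 9 (helper41).

STATEMENT.  Four gauges of ONE tag `t` with four arbitrary offsets `js l` of the grid.  With `y_l = y + l s`, `c = (-1,3,-3,1)`:
      `∏_l ζ^{ρ_l}(y_l) e(c_l p^{ρ_l}(y_l)) = ∑_{(n,n')} c_{n,n'} e((n·ϑ) y + (n'·ϑ) s)`,      `∑ |c_{n,n'}| (1 + |(n,n')|) ≤ qp(log H + log 1/δ)`,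
uniformly in the offsets.  (The four cutoffs are kept INSIDE the multiplier: no enlarged cutoffs, no carry pieces.  Another anchor `y_{l'}`: substitute `y = y_{l'} - l' s`.)

DERIVATION (complete).  Put `θ, C, ρ_l` = padded data, `Q0 = s4a_den t.C`, and for `w ∈ ℝ^d`
      `s8mF l w = ζ(w - ρ_l) e(- c_l ∑_{i,k} w_i C_ik ⌊w_k - ρ_{l,k}⌋)`,          `s8mG x = ∏_l s8mF l (Q0 (x_inl + l x_inr))`,   `x ∈ ℝ^(d ⊕ d)`.
 (a) `s8m_diag`:  `dbr_k(y) = θ_k y - ⌊θ_k y - ρ_k⌋` (`s8a_dbr_eq`), so `c_l p^{ρ_l}(y_l) = c_l (λ + θᵀCθ) y_l² - c_l ∑ (θ_i y_l) C_ik ⌊θ_k y_l - ρ_k⌋`; `∑_l c_l y_l² = 0` (`Fin.sum_univ_four`, `ring`);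
     `ee` of a sum = product (`s4a_ee_add`); `θ y_l = Q0 (ϑ y + l ϑ s)`.
 (b) `s8m_per`:  under `x ↦ x + (a,b)`, `w_l ↦ w_l + Q0 m_l`, `m_l = a + l b ∈ ℤ^d`; `ζ` periodic; `⌊w + Q0 m - ρ⌋ = ⌊w - ρ⌋ + Q0 m` (`Int.floor_add_intCast`);
     the phase of the factor `l` changes by `- c_l [Q0 wᵀCm + Q0 mᵀCn + Q0² mᵀCm]`; the last two are integers (`s8a_padM_clears`, `c_l ∈ ℤ`; `s4a_ee_add_int`), and
     `∑_l c_l (u + l s)ᵀ C (a + l b) = (∑c_l) uᵀCa + (∑ l c_l)(uᵀCb + sᵀCa) + (∑ l² c_l) sᵀCb = 0`.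
 (c) `s8m_F_local`:  for `‖w - w₀‖_∞ < δ` and `n₀ = ⌊w₀ - ρ⌋`:  `s8mF l w = ζ(w - ρ) e(- c_l ∑ w_i C_ik n₀_k)`.   [If `⌊w_k - ρ_k⌋ ≠ n₀_k` for some `k`, an integer lies between `w_k - ρ_k` and `w₀_k - ρ_k`, hence within `δ` of `w_k - ρ_k`: `ζ = 0` (`gev_zetad_zero`).]
     `s8m_F_gev`:  `GevOn 2 1 (d 12000/δ + 2π · 3 d² H (M + 2)) (s8mF l) {w | ∀ i, |w i| ≤ M}`: smoothness by `contDiff_iff_contDiffAt` + `ContDiffAt.congr_of_eventuallyEq` from (c); bound by `gev_congr_near`-type transfer from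
     `w ↦ ζ(w - ρ) e(σ·w)`, `σ_i = - c_l ∑_k C_ik n₀_k`, `∑_i |σ_i| ≤ 3 d² H (M + 2)` (`gev_zetad`, `gev_comp_sub`, `gev_ofReal`, `gev_ee_lin`, `gev_mul`); `|n₀_k| ≤ M + 2` as `0 ≤ ρ ≤ 1`.
 (d) `s8m_G_gev`:  on `{x | ∀ i, |x i| ≤ 1}`: `|Q0 (x_inl + l x_inr)| ≤ 4 Q0`; `gev_comp_affine` (norm of `x ↦ Q0 (x_inl + l x_inr)` is `≤ 4 Q0`), `gev_prod`; then globally by periodicity
     (`iteratedFDeriv_comp_add_right`: `D^n G (x) = D^n G (x - ⌊x⌋)`).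
 (e) `s8a_mult`:  `s8a_per_l1` for `s8mG`, evaluation at `x = (ϑ y, ϑ s)`; numerics by S4a/Qp.lean (`d ≤ log H`, `Q0 ≤ H^(d²)`).
LEAVES:  P-S8A-MULT-A = (a),(b);   P-S8A-MULT-B = (c);   P-S8A-MULT-C = (d),(e).
-/
import Claimed.Agent.R258.S8.AGauge

set_option autoImplicit false
open MeasureTheory
open scoped ContDiff

namespace Claimed.Agent.R258

noncomputable section

/-- one factor as a function of `w = θ y` -/
def s8mF {d : ℕ} (g : S8Gauge d) (c : ℝ) (w : Fin d → ℝ) : ℂ :=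
  (g.zeta (fun i => w i - g.rho i) : ℂ) * ee (-(c * ∑ i, ∑ k, w i * ((g.C i k : ℚ) : ℝ) * (⌊w k - g.rho k⌋ : ℝ)))

/-- the multiplier on the torus of `(ϑ y, ϑ s)` -/
def s8mG {d : ℕ} (g : Fin 4 → S8Gauge d) (Q0 : ℕ) (x : Fin d ⊕ Fin d → ℝ) : ℂ :=
  ∏ l : Fin 4, s8mF (g l) (s8c4 l) fun i => (Q0 : ℝ) * (x (Sum.inl i) + (l : ℝ) * x (Sum.inr i))

section
variable (d : ℕ) (t : LocTag) (δ : ℝ) (N : ℕ) (js : Fin 4 → ℕ)

/-- one factor of the diagonal identity -/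
theorem s8m_diag_one (j : ℕ) (c z : ℝ) :
    (s8GaugeOf d t δ N j).gau c z =
      s8mF (s8GaugeOf d t δ N j) c (fun i => s8PadV d t.th i * z) *
        ee (c * ((t.lam + ∑ i, ∑ k, s8PadV d t.th i * ((s8PadM d t.C i k : ℚ) : ℝ) * s8PadV d t.th k) * z ^ 2)) := by
  unfold S8Gauge.gau s8mF S8Gauge.cut S8Gauge.pph
  rw [mul_assoc, ← gev_ee_add]
  congr 2
  simp_rw [s8a_dbr_eq]
  show c * (t.lam * z ^ 2 + ∑ i, ∑ k, s8PadV d t.th i * z * ((s8PadM d t.C i k : ℚ) : ℝ) *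
      (s8PadV d t.th k * z - (⌊s8PadV d t.th k * z - s8Rho t.dim d N j k⌋ : ℝ))) =
    -(c * ∑ i, ∑ k, s8PadV d t.th i * z * ((s8PadM d t.C i k : ℚ) : ℝ) * (⌊s8PadV d t.th k * z - s8Rho t.dim d N j k⌋ : ℝ)) +
      c * ((t.lam + ∑ i, ∑ k, s8PadV d t.th i * ((s8PadM d t.C i k : ℚ) : ℝ) * s8PadV d t.th k) * z ^ 2)
  have h : ∀ i k, s8PadV d t.th i * z * ((s8PadM d t.C i k : ℚ) : ℝ) *
      (s8PadV d t.th k * z - (⌊s8PadV d t.th k * z - s8Rho t.dim d N j k⌋ : ℝ)) =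
      s8PadV d t.th i * ((s8PadM d t.C i k : ℚ) : ℝ) * s8PadV d t.th k * z ^ 2 -
      s8PadV d t.th i * z * ((s8PadM d t.C i k : ℚ) : ℝ) * (⌊s8PadV d t.th k * z - s8Rho t.dim d N j k⌋ : ℝ) := by
    intro i k; ring
  simp_rw [h, Finset.sum_sub_distrib, ← Finset.sum_mul]
  ring

theorem s8m_diag (y s : ℝ) :
    ∏ l : Fin 4, (s8GaugeOf d t δ N (js l)).gau (s8c4 l) (y + (l : ℝ) * s) =
      s8mG (fun l => s8GaugeOf d t δ N (js l)) (s4a_den t.C)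
        (Sum.elim (fun i => (s8GaugeOf d t δ N 0).vth i * y) fun i => (s8GaugeOf d t δ N 0).vth i * s) := by
  have hQ : ((s4a_den t.C : ℕ) : ℝ) ≠ 0 := by
    have := s4a_den_pos t.C
    exact_mod_cast (by omega : s4a_den t.C ≠ 0)
  simp_rw [s8m_diag_one]
  rw [Finset.prod_mul_distrib]
  have h1 : ∏ l : Fin 4, ee (s8c4 l * ((t.lam + ∑ i, ∑ k, s8PadV d t.th i * ((s8PadM d t.C i k : ℚ) : ℝ) * s8PadV d t.th k)
      * (y + (l : ℝ) * s) ^ 2)) = 1 := by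
    rw [Fin.prod_univ_four, ← gev_ee_add, ← gev_ee_add, ← gev_ee_add, ← gev_ee_zero]
    congr 1
    simp [s8c4]
    ring
  rw [h1, mul_one]
  unfold s8mG
  refine Finset.prod_congr rfl fun l _ => ?_
  congr 1
  funext i
  show s8PadV d t.th i * (y + (l : ℝ) * s) = ((s4a_den t.C : ℕ) : ℝ) *
    (s8PadV d t.th i / ((s4a_den t.C : ℕ) : ℝ) * y + (l : ℝ) * (s8PadV d t.th i / ((s4a_den t.C : ℕ) : ℝ) * s))
  field_simp


theorem s8m_c4_int (l : Fin 4) : ∃ z : ℤ, s8c4 l = (z : ℝ) := by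
  fin_cases l
  · exact ⟨-1, by simp [s8c4]⟩
  · exact ⟨3, by simp [s8c4]⟩
  · exact ⟨-3, by simp [s8c4]⟩
  · exact ⟨1, by simp [s8c4]⟩

/-- translation of one factor by `Q0 m` -/
theorem s8m_F_shift (j : ℕ) (cz : ℤ) (w : Fin d → ℝ) (m : Fin d → ℤ) :
    s8mF (s8GaugeOf d t δ N j) (cz : ℝ) (fun i => w i + ((s4a_den t.C : ℕ) : ℝ) * (m i : ℝ)) =
      s8mF (s8GaugeOf d t δ N j) (cz : ℝ) w *
        ee (-((cz : ℝ) * ∑ i, ∑ k, w i * ((s8PadM d t.C i k : ℚ) : ℝ) * (((s4a_den t.C : ℕ) : ℝ) * (m k : ℝ)))) := by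
  choose z hz using fun i k => s8a_padM_clears d t.C i k
  have hz' : ∀ i k, ((s4a_den t.C : ℕ) : ℝ) * ((s8PadM d t.C i k : ℚ) : ℝ) = (z i k : ℝ) := by
    intro i k
    have := congrArg (fun q : ℚ => (q : ℝ)) (hz i k)
    push_cast at this
    exact this
  obtain ⟨Q, hQ⟩ : ∃ Q : ℕ, Q = s4a_den t.C := ⟨_, rfl⟩
  rw [← hQ] at hz' ⊢
  obtain ⟨ρ, hρ⟩ : ∃ ρ : Fin d → ℝ, ρ = s8Rho t.dim d N j := ⟨_, rfl⟩
  show ((gevZetad δ (fun i => w i + (Q : ℝ) * (m i : ℝ) - s8Rho t.dim d N j i) : ℝ) : ℂ) *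
      ee (-((cz : ℝ) * ∑ i, ∑ k, (w i + (Q : ℝ) * (m i : ℝ)) * ((s8PadM d t.C i k : ℚ) : ℝ) *
        (⌊w k + (Q : ℝ) * (m k : ℝ) - s8Rho t.dim d N j k⌋ : ℝ))) =
    ((gevZetad δ (fun i => w i - s8Rho t.dim d N j i) : ℝ) : ℂ) *
      ee (-((cz : ℝ) * ∑ i, ∑ k, w i * ((s8PadM d t.C i k : ℚ) : ℝ) * (⌊w k - s8Rho t.dim d N j k⌋ : ℝ))) * _
  rw [← hρ]
  have e1 : gevZetad δ (fun i => w i + (Q : ℝ) * (m i : ℝ) - ρ i) = gevZetad δ (fun i => w i - ρ i) := by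
    rw [← gev_zetad_periodic δ (fun i => w i - ρ i) (fun i => (Q : ℤ) * m i)]
    congr 1
    funext i
    push_cast
    ring
  have e2 : ∀ k, ⌊w k + (Q : ℝ) * (m k : ℝ) - ρ k⌋ = ⌊w k - ρ k⌋ + (Q : ℤ) * m k := by
    intro k
    rw [← Int.floor_add_intCast]
    congr 1
    push_cast
    ring
  rw [e1, mul_assoc, ← gev_ee_add]
  congr 1
  simp_rw [e2]
  have h : ∀ i k, (w i + (Q : ℝ) * (m i : ℝ)) * ((s8PadM d t.C i k : ℚ) : ℝ) * ((⌊w k - ρ k⌋ + (Q : ℤ) * m k : ℤ) : ℝ) =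
      w i * ((s8PadM d t.C i k : ℚ) : ℝ) * (⌊w k - ρ k⌋ : ℝ) + w i * ((s8PadM d t.C i k : ℚ) : ℝ) * ((Q : ℝ) * (m k : ℝ))
        + ((m i * z i k * (⌊w k - ρ k⌋ + (Q : ℤ) * m k) : ℤ) : ℝ) := by
    intro i k
    push_cast
    linear_combination ((m i : ℝ) * ((⌊w k - ρ k⌋ : ℝ) + (Q : ℝ) * (m k : ℝ))) * hz' i k
  simp_rw [h, Finset.sum_add_distrib, ← Int.cast_sum]
  rw [mul_add, neg_add, gev_ee_add]
  have e3 : -((cz : ℝ) * ((∑ i, ∑ k, m i * z i k * (⌊w k - ρ k⌋ + (Q : ℤ) * m k) : ℤ) : ℝ)) =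
      ((-(cz * ∑ i, ∑ k, m i * z i k * (⌊w k - ρ k⌋ + (Q : ℤ) * m k)) : ℤ) : ℝ) := by
    push_cast
    ring
  rw [e3, gev_ee_int, mul_one, mul_add, neg_add]

theorem s8m_per : s4a_Per (s8mG (fun l => s8GaugeOf d t δ N (js l)) (s4a_den t.C)) := by
  intro x n
  unfold s8mG
  obtain ⟨Q, hQ⟩ : ∃ Q : ℕ, Q = s4a_den t.C := ⟨_, rfl⟩
  have h1 : ∀ l : Fin 4, s8mF (s8GaugeOf d t δ N (js l)) (s8c4 l)
      (fun i => ((s4a_den t.C : ℕ) : ℝ) * (x (Sum.inl i) + (n (Sum.inl i) : ℝ) + (l : ℝ) * (x (Sum.inr i) + (n (Sum.inr i) : ℝ)))) =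
      s8mF (s8GaugeOf d t δ N (js l)) (s8c4 l) (fun i => ((s4a_den t.C : ℕ) : ℝ) * (x (Sum.inl i) + (l : ℝ) * x (Sum.inr i))) *
        ee (-(s8c4 l * ∑ i, ∑ k, (((s4a_den t.C : ℕ) : ℝ) * (x (Sum.inl i) + (l : ℝ) * x (Sum.inr i))) *
          ((s8PadM d t.C i k : ℚ) : ℝ) * (((s4a_den t.C : ℕ) : ℝ) * ((n (Sum.inl k) : ℝ) + (l : ℝ) * (n (Sum.inr k) : ℝ))))) := by
    intro l
    obtain ⟨cz, hcz⟩ := s8m_c4_int l
    rw [hcz]
    have := s8m_F_shift d t δ N (js l) cz (fun i => ((s4a_den t.C : ℕ) : ℝ) * (x (Sum.inl i) + (l : ℝ) * x (Sum.inr i)))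
      (fun i => n (Sum.inl i) + ((l : ℕ) : ℤ) * n (Sum.inr i))
    push_cast at this
    rw [← this]
    congr 1
    funext i
    ring
  simp_rw [h1]
  rw [Finset.prod_mul_distrib]
  rw [← hQ]
  have h2 : ∏ l : Fin 4, ee (-(s8c4 l * ∑ i, ∑ k, ((Q : ℝ) * (x (Sum.inl i) + (l : ℝ) * x (Sum.inr i))) *
      ((s8PadM d t.C i k : ℚ) : ℝ) * ((Q : ℝ) * ((n (Sum.inl k) : ℝ) + (l : ℝ) * (n (Sum.inr k) : ℝ))))) = 1 := by
    rw [Fin.prod_univ_four, ← gev_ee_add, ← gev_ee_add, ← gev_ee_add, ← gev_ee_zero]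
    congr 1
    simp only [Finset.mul_sum, ← Finset.sum_neg_distrib, ← Finset.sum_add_distrib]
    refine Finset.sum_eq_zero fun i _ => Finset.sum_eq_zero fun k _ => ?_
    simp [s8c4]
    ring
  rw [h2, mul_one]


theorem s8m_F_local (j : ℕ) (c : ℝ) (hδ : 0 < δ) (w₀ w : Fin d → ℝ) (hw : ∀ i, |w i - w₀ i| < δ) :
    s8mF (s8GaugeOf d t δ N j) c w =
      ((s8GaugeOf d t δ N j).zeta (fun i => w i - (s8GaugeOf d t δ N j).rho i) : ℂ) *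
        ee (-(c * ∑ i, ∑ k, w i * (((s8GaugeOf d t δ N j).C i k : ℚ) : ℝ) * (⌊w₀ k - (s8GaugeOf d t δ N j).rho k⌋ : ℝ))) := by
  unfold s8mF
  by_cases h : ∀ k, ⌊w k - (s8GaugeOf d t δ N j).rho k⌋ = ⌊w₀ k - (s8GaugeOf d t δ N j).rho k⌋
  · simp_rw [h]
  · push Not at h
    obtain ⟨k, hk⟩ := h
    have hz : (s8GaugeOf d t δ N j).zeta (fun i => w i - (s8GaugeOf d t δ N j).rho i) = 0 := by
      show gevZetad δ (fun i => w i - (s8GaugeOf d t δ N j).rho i) = 0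
      have h4 := abs_lt.1 (hw k)
      rcases lt_or_gt_of_ne hk with h1 | h1
      · refine gev_zetad_zero hδ k ⌊w₀ k - (s8GaugeOf d t δ N j).rho k⌋ ?_
        have h2 := Int.floor_lt.1 h1
        have h3 := Int.floor_le (w₀ k - (s8GaugeOf d t δ N j).rho k)
        rw [abs_le]
        constructor <;> linarith
      · refine gev_zetad_zero hδ k ⌊w k - (s8GaugeOf d t δ N j).rho k⌋ ?_
        have h2 := Int.floor_lt.1 h1
        have h3 := Int.floor_le (w k - (s8GaugeOf d t δ N j).rho k)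
        rw [abs_le]
        constructor <;> linarith
    rw [hz]
    simp

/-- the local model: cutoff times a linear phase -/
theorem s8m_loc_gev (hδ : 0 < δ) (ρ σ : Fin d → ℝ) :
    Gev 2 1 ((d : ℝ) * (12000 / δ) + 2 * Real.pi * ∑ i, |σ i|)
      (fun w : Fin d → ℝ => ((gevZetad δ (fun i => w i - ρ i) : ℝ) : ℂ) * ee (∑ i, σ i * w i + 0)) := by
  have h1 : Gev 2 1 ((d : ℝ) * (12000 / δ)) (fun w : Fin d → ℝ => gevZetad δ (fun i => w i - ρ i)) := by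
    have h := gev_comp_sub (gev_zetad (ι := Fin d) hδ) ρ
    rw [Fintype.card_fin] at h
    exact gev_congr (gev_mono_set h (fun x _ => Set.mem_univ _)) (fun x => rfl)
  have h2 : Gev 2 1 (2 * Real.pi * ∑ i, |σ i|) (fun w : Fin d → ℝ => ee (∑ i, σ i * w i + 0)) :=
    gev_mono (gev_ee_lin σ 0) (by norm_num) le_rfl
      (mul_nonneg (by positivity) (Finset.sum_nonneg fun _ _ => abs_nonneg _)) le_rfl (fun x hx => hx)
  have h3 := gev_mul (by positivity) (mul_nonneg (by positivity) (Finset.sum_nonneg fun _ _ => abs_nonneg _))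
    (gev_ofReal h1) h2
  rw [one_mul] at h3
  exact h3

theorem s8m_c4_abs (l : Fin 4) : |s8c4 l| ≤ 3 := by
  fin_cases l <;> simp [s8c4]

theorem s8m_padM_abs (H : ℝ) (hH : 1 ≤ H) (hC : ∀ i k, (qHeight (t.C i k) : ℝ) ≤ H) (i k : Fin d) :
    |((s8PadM d t.C i k : ℚ) : ℝ)| ≤ H := by
  unfold s8PadM
  by_cases h : i.val < t.dim ∧ k.val < t.dim
  · rw [dif_pos h]
    exact (wy_abs_le_qHeight _).trans (hC _ _)
  · rw [dif_neg h]
    simp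
    linarith

theorem s8m_rho_range (hN : 0 < N) (j : ℕ) (hj : j < N) (k : Fin d) :
    0 ≤ s8Rho t.dim d N j k ∧ s8Rho t.dim d N j k ≤ 1 := by
  unfold s8Rho
  have hN' : (0 : ℝ) < N := by exact_mod_cast hN
  have hj' : (j : ℝ) ≤ N := by exact_mod_cast hj.le
  split_ifs
  · exact ⟨by positivity, by rw [div_le_one hN']; exact hj'⟩
  · constructor <;> norm_num

theorem s8m_F_gev (j : ℕ) (l : Fin 4) (H M : ℝ) (hδ : 0 < δ) (hN : 0 < N) (hj : j < N) (hM : 0 ≤ M) (hH : 1 ≤ H)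
    (hC : ∀ i k, (qHeight (t.C i k) : ℝ) ≤ H) :
    GevOn 2 1 ((d : ℝ) * (12000 / δ) + 2 * Real.pi * (3 * (d : ℝ) ^ 2 * H * (M + 2)))
      (s8mF (s8GaugeOf d t δ N j) (s8c4 l)) {w | ∀ i, |w i| ≤ M} := by
  obtain ⟨ρ, hρ⟩ : ∃ ρ : Fin d → ℝ, ρ = s8Rho t.dim d N j := ⟨_, rfl⟩
  obtain ⟨σ, hσ⟩ : ∃ σ : (Fin d → ℝ) → Fin d → ℝ,
      σ = fun x i => -(s8c4 l * ∑ k, ((s8PadM d t.C i k : ℚ) : ℝ) * (⌊x k - ρ k⌋ : ℝ)) := ⟨_, rfl⟩
  have hloc : ∀ x : Fin d → ℝ, s8mF (s8GaugeOf d t δ N j) (s8c4 l) =ᶠ[nhds x]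
      (fun w : Fin d → ℝ => ((gevZetad δ (fun i => w i - ρ i) : ℝ) : ℂ) * ee (∑ i, σ x i * w i + 0)) := by
    intro x
    filter_upwards [Metric.ball_mem_nhds x hδ] with w hw
    rw [s8m_F_local d t δ N j (s8c4 l) hδ x w (fun i => by
      have := (dist_pi_lt_iff hδ).1 hw i
      rwa [Real.dist_eq] at this)]
    show ((gevZetad δ (fun i => w i - s8Rho t.dim d N j i) : ℝ) : ℂ) *
      ee (-(s8c4 l * ∑ i, ∑ k, w i * ((s8PadM d t.C i k : ℚ) : ℝ) * (⌊x k - s8Rho t.dim d N j k⌋ : ℝ))) = _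
    rw [← hρ, hσ]
    congr 2
    rw [add_zero, Finset.mul_sum, ← Finset.sum_neg_distrib]
    refine Finset.sum_congr rfl fun i _ => ?_
    dsimp only
    rw [Finset.mul_sum, Finset.mul_sum, neg_mul, Finset.sum_mul]
    congr 1
    refine Finset.sum_congr rfl fun k _ => ?_
    ring
  refine ⟨contDiff_iff_contDiffAt.2 fun x =>
    ((s8m_loc_gev d δ hδ ρ (σ x)).smooth.contDiffAt).congr_of_eventuallyEq (hloc x), fun x hx n => ?_⟩
  rw [((hloc x).iteratedFDeriv ℝ n).eq_of_nhds]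
  have hd0 : (0 : ℝ) ≤ (d : ℝ) := by positivity
  have hsum : ∑ i, |σ x i| ≤ 3 * (d : ℝ) ^ 2 * H * (M + 2) := by
    have h1 : ∀ i, |σ x i| ≤ 3 * ((d : ℝ) * (H * (M + 2))) := by
      intro i
      rw [hσ]
      dsimp only
      rw [abs_neg, abs_mul]
      refine mul_le_mul (s8m_c4_abs l) ?_ (abs_nonneg _) (by norm_num)
      refine (Finset.abs_sum_le_sum_abs _ _).trans ?_
      have h2 : ∀ k ∈ (Finset.univ : Finset (Fin d)), |((s8PadM d t.C i k : ℚ) : ℝ) * (⌊x k - ρ k⌋ : ℝ)| ≤ H * (M + 2) := by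
        intro k _
        rw [abs_mul]
        refine mul_le_mul (s8m_padM_abs d t H hH hC i k) ?_ (abs_nonneg _) (by linarith)
        have h3 := abs_le.1 (hx k)
        have h4 := s8m_rho_range d t N hN j hj k
        rw [← hρ] at h4
        have h5 := Int.floor_le (x k - ρ k)
        have h6 := Int.lt_floor_add_one (x k - ρ k)
        rw [abs_le]
        constructor <;> linarith [h3.1, h3.2, h4.1, h4.2]
      refine (Finset.sum_le_sum h2).trans (le_of_eq ?_)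
      rw [Finset.sum_const, Finset.card_univ, Fintype.card_fin, nsmul_eq_mul]
    refine (Finset.sum_le_sum fun i _ => h1 i).trans (le_of_eq ?_)
    rw [Finset.sum_const, Finset.card_univ, Fintype.card_fin, nsmul_eq_mul]
    ring
  have hg := gev_mono (s8m_loc_gev d δ hδ ρ (σ x)) le_rfl le_rfl
    (add_nonneg (by positivity) (mul_nonneg (by positivity) (Finset.sum_nonneg fun _ _ => abs_nonneg _)))
    (A' := (d : ℝ) * (12000 / δ) + 2 * Real.pi * (3 * (d : ℝ) ^ 2 * H * (M + 2)))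
    (by
      have := mul_le_mul_of_nonneg_left hsum (by positivity : (0 : ℝ) ≤ 2 * Real.pi)
      linarith) (fun y hy => hy)
  exact hg.bound x (Set.mem_univ x) n


/-- the linear map `x ↦ Q (x_inl + l x_inr)` -/
def s8mL (d : ℕ) (Q a : ℝ) : (Fin d ⊕ Fin d → ℝ) →L[ℝ] (Fin d → ℝ) :=
  ContinuousLinearMap.pi fun i => Q • (ContinuousLinearMap.proj (R := ℝ) (φ := fun _ : Fin d ⊕ Fin d => ℝ) (Sum.inl i)
    + a • ContinuousLinearMap.proj (R := ℝ) (φ := fun _ : Fin d ⊕ Fin d => ℝ) (Sum.inr i))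

theorem s8m_L_apply (Q a : ℝ) (x : Fin d ⊕ Fin d → ℝ) (i : Fin d) :
    s8mL d Q a x i = Q * (x (Sum.inl i) + a * x (Sum.inr i)) := by
  simp [s8mL]
  ring

theorem s8m_L_coord (Q a : ℝ) (hQ : 0 ≤ Q) (ha0 : 0 ≤ a) (ha : a ≤ 3) (x : Fin d ⊕ Fin d → ℝ) (r : ℝ)
    (hx : ∀ i, |x i| ≤ r) (i : Fin d) : |s8mL d Q a x i| ≤ 4 * Q * r := by
  rw [s8m_L_apply, abs_mul, abs_of_nonneg hQ]
  have h1 := hx (Sum.inl i)
  have h2 := hx (Sum.inr i)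
  have hr : 0 ≤ r := (abs_nonneg _).trans h1
  have h3 : |x (Sum.inl i) + a * x (Sum.inr i)| ≤ 4 * r := by
    refine (abs_add_le _ _).trans ?_
    rw [abs_mul, abs_of_nonneg ha0]
    nlinarith [abs_nonneg (x (Sum.inr i))]
  calc Q * |x (Sum.inl i) + a * x (Sum.inr i)| ≤ Q * (4 * r) := mul_le_mul_of_nonneg_left h3 hQ
    _ = 4 * Q * r := by ring

theorem s8m_L_norm (Q a : ℝ) (hQ : 0 ≤ Q) (ha0 : 0 ≤ a) (ha : a ≤ 3) : ‖s8mL d Q a‖ ≤ 4 * Q := by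
  refine ContinuousLinearMap.opNorm_le_bound _ (by positivity) fun x => ?_
  rw [pi_norm_le_iff_of_nonneg (by positivity)]
  intro i
  rw [Real.norm_eq_abs]
  exact s8m_L_coord d Q a hQ ha0 ha x ‖x‖ (fun k => by
    rw [← Real.norm_eq_abs]; exact norm_le_pi_norm x k) i

theorem s8m_G_gev (H : ℝ) (hδ : 0 < δ) (hN : 0 < N) (hj : ∀ l, js l < N) (hH : 1 ≤ H) (hC : ∀ i k, (qHeight (t.C i k) : ℝ) ≤ H) :
    Gev 2 1 (16 * ((s4a_den t.C : ℕ) : ℝ) *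
        ((d : ℝ) * (12000 / δ) + 2 * Real.pi * (3 * (d : ℝ) ^ 2 * H * (4 * ((s4a_den t.C : ℕ) : ℝ) + 2))))
      (s8mG (fun l => s8GaugeOf d t δ N (js l)) (s4a_den t.C)) := by
  have hper := s8m_per d t δ N js
  obtain ⟨Q, hQ⟩ : ∃ Q : ℝ, Q = ((s4a_den t.C : ℕ) : ℝ) := ⟨_, rfl⟩
  have hQ0 : 0 ≤ Q := by rw [hQ]; positivity
  obtain ⟨A, hA⟩ : ∃ A : ℝ, A = (d : ℝ) * (12000 / δ) + 2 * Real.pi * (3 * (d : ℝ) ^ 2 * H * (4 * Q + 2)) := ⟨_, rfl⟩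
  have hA0 : 0 ≤ A := by rw [hA]; positivity
  rw [← hQ, ← hA]
  have hl : ∀ l : Fin 4, (0 : ℝ) ≤ ((l : ℕ) : ℝ) ∧ ((l : ℕ) : ℝ) ≤ 3 := by
    intro l
    refine ⟨by positivity, ?_⟩
    have : (l : ℕ) ≤ 3 := by omega
    exact_mod_cast this
  have hbox : GevOn 2 1 (16 * Q * A) (s8mG (fun l => s8GaugeOf d t δ N (js l)) (s4a_den t.C)) {x | ∀ i, |x i| ≤ 1} := by
    have h1 : ∀ l ∈ (Finset.univ : Finset (Fin 4)), GevOn 2 ((fun _ => (1 : ℝ)) l) ((fun _ => A * (4 * Q)) l)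
        (fun x : Fin d ⊕ Fin d → ℝ => s8mF (s8GaugeOf d t δ N (js l)) (s8c4 l) (s8mL d Q ((l : ℕ) : ℝ) x + 0))
        {x | ∀ i, |x i| ≤ 1} := by
      intro l _
      have h2 := gev_comp_affine hA0 (hA ▸ s8m_F_gev d t δ N (js l) l H (4 * Q) hδ hN (hj l) (by positivity) hH hC)
        (s8mL d Q ((l : ℕ) : ℝ)) 0 (s8m_L_norm d Q _ hQ0 (hl l).1 (hl l).2)
      refine gev_mono_set h2 fun x hx i => ?_
      rw [add_zero]
      have := s8m_L_coord d Q _ hQ0 (hl l).1 (hl l).2 x 1 hx i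
      rwa [mul_one] at this
    have h3 := gev_prod Finset.univ (fun l _ => by positivity) h1
    simp only [Finset.prod_const_one, Finset.sum_const, Finset.card_univ, Fintype.card_fin, nsmul_eq_mul] at h3
    have e : ((4 : ℕ) : ℝ) * (A * (4 * Q)) = 16 * Q * A := by push_cast; ring
    rw [e] at h3
    refine gev_congr h3 fun x => ?_
    unfold s8mG
    refine Finset.prod_congr rfl fun l _ => ?_
    congr 1
    funext i
    rw [add_zero, s8m_L_apply, hQ]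
  refine ⟨hbox.smooth, fun x _ n => ?_⟩
  obtain ⟨a, ha⟩ : ∃ a : Fin d ⊕ Fin d → ℝ, a = fun i => ((-⌊x i⌋ : ℤ) : ℝ) := ⟨_, rfl⟩
  have hG : (fun z => s8mG (fun l => s8GaugeOf d t δ N (js l)) (s4a_den t.C) (z + a)) =
      s8mG (fun l => s8GaugeOf d t δ N (js l)) (s4a_den t.C) := by
    funext z
    rw [ha]
    exact hper z (fun i => -⌊x i⌋)
  have e1 : iteratedFDeriv ℝ n (s8mG (fun l => s8GaugeOf d t δ N (js l)) (s4a_den t.C)) x =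
      iteratedFDeriv ℝ n (s8mG (fun l => s8GaugeOf d t δ N (js l)) (s4a_den t.C)) (x + a) := by
    rw [← iteratedFDeriv_comp_add_right, hG]
  rw [e1]
  refine hbox.bound _ (fun i => ?_) n
  rw [ha]
  show |x i + ((-⌊x i⌋ : ℤ) : ℝ)| ≤ 1
  have h5 := Int.floor_le (x i)
  have h6 := Int.lt_floor_add_one (x i)
  push_cast
  rw [abs_le]
  constructor <;> linarith

end

/-- general numerics for `s8a_per_l1` -/
theorem s8m_num_gen (n : ℕ) (A a : ℝ) (hA : max 1 A ≤ Real.exp a) :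
    4 ^ n * (1 * max 1 A ^ (2 * n + 1) * (((2 * n + 1).factorial : ℝ)) ^ 2) ≤
      Real.exp ((n : ℝ) * 2 + (((2 * n + 1 : ℕ) : ℝ) * a + 2 * (((2 * n + 1 : ℕ) : ℝ) * ((2 * n + 1 : ℕ) : ℝ)))) := by
  have h2 : (2 : ℝ) ≤ Real.exp 1 := by linarith [Real.add_one_le_exp (1 : ℝ)]
  have h4 : (4 : ℝ) ≤ Real.exp 2 := by
    have e : Real.exp 2 = Real.exp 1 * Real.exp 1 := by rw [← Real.exp_add]; norm_num
    rw [e]
    nlinarith
  have h4d : (4 : ℝ) ^ n ≤ Real.exp ((n : ℝ) * 2) := by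
    rw [Real.exp_nat_mul]
    exact pow_le_pow_left₀ (by norm_num) h4 n
  have hAp : max 1 A ^ (2 * n + 1) ≤ Real.exp (((2 * n + 1 : ℕ) : ℝ) * a) := by
    rw [Real.exp_nat_mul]
    exact pow_le_pow_left₀ (le_trans zero_le_one (le_max_left _ _)) hA _
  have hf : (((2 * n + 1).factorial : ℝ)) ≤ Real.exp (((2 * n + 1 : ℕ) : ℝ) * ((2 * n + 1 : ℕ) : ℝ)) := by
    rw [Real.exp_nat_mul]
    have h6 : (((2 * n + 1).factorial : ℝ)) ≤ (((2 * n + 1 : ℕ) : ℝ)) ^ (2 * n + 1) := by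
      exact_mod_cast Nat.factorial_le_pow (2 * n + 1)
    refine le_trans h6 (pow_le_pow_left₀ (by positivity) ?_ _)
    linarith [Real.add_one_le_exp (((2 * n + 1 : ℕ) : ℝ))]
  have hf2 : (((2 * n + 1).factorial : ℝ)) ^ 2 ≤ Real.exp (2 * (((2 * n + 1 : ℕ) : ℝ) * ((2 * n + 1 : ℕ) : ℝ))) := by
    have e : Real.exp (2 * (((2 * n + 1 : ℕ) : ℝ) * ((2 * n + 1 : ℕ) : ℝ))) =
        Real.exp (((2 * n + 1 : ℕ) : ℝ) * ((2 * n + 1 : ℕ) : ℝ)) ^ 2 := by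
      rw [← Real.exp_nat_mul]
      norm_num
    rw [e]
    exact pow_le_pow_left₀ (by positivity) hf 2
  rw [Real.exp_add, Real.exp_add, one_mul]
  have hm0 : 0 ≤ max 1 A ^ (2 * n + 1) := pow_nonneg (le_trans zero_le_one (le_max_left _ _)) _
  exact mul_le_mul h4d (mul_le_mul hAp hf2 (by positivity) (Real.exp_pos _).le) (by positivity) (Real.exp_pos _).le

theorem s8m_poly (n m x : ℝ) (hx0 : 0 ≤ x) (hn0 : 0 ≤ n) (hn : n ≤ 2 * x) (hm : m = 2 * n + 1) :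
    n * 2 + (m * (194304 + 3 * x + 2 * x ^ 3) + 2 * (m * m)) ≤ 971599 * (1 + x) ^ 4 := by
  obtain ⟨u, hu⟩ : ∃ u : ℝ, u = 1 + x := ⟨_, rfl⟩
  rw [← hu]
  have hu1 : 1 ≤ u := by rw [hu]; linarith
  have hxu : x ≤ u := by rw [hu]; linarith
  have hm0 : 0 ≤ m := by rw [hm]; linarith
  have hm5 : m ≤ 5 * u := by rw [hm]; linarith
  have hu2 : u ^ 2 ≤ u ^ 4 := pow_le_pow_right₀ hu1 (by norm_num)
  have hu1' : u ≤ u ^ 4 := by
    calc u = u ^ 1 := (pow_one u).symm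
      _ ≤ u ^ 4 := pow_le_pow_right₀ hu1 (by norm_num)
  have hu3 : u ≤ u ^ 3 := by
    calc u = u ^ 1 := (pow_one u).symm
      _ ≤ u ^ 3 := pow_le_pow_right₀ hu1 (by norm_num)
  have hu30 : 1 ≤ u ^ 3 := one_le_pow₀ hu1
  have hx3 : x ^ 3 ≤ u ^ 3 := pow_le_pow_left₀ hx0 hxu 3
  have ha : 194304 + 3 * x + 2 * x ^ 3 ≤ 194309 * u ^ 3 := by linarith
  have ha0 : 0 ≤ 194304 + 3 * x + 2 * x ^ 3 := by positivity
  have h1 : m * (194304 + 3 * x + 2 * x ^ 3) ≤ 5 * u * (194309 * u ^ 3) := mul_le_mul hm5 ha ha0 (by positivity)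
  have h2 : m * m ≤ 5 * u * (5 * u) := mul_le_mul hm5 hm5 hm0 (by positivity)
  have e1 : 5 * u * (194309 * u ^ 3) = 971545 * u ^ 4 := by ring
  have e2 : 5 * u * (5 * u) = 25 * u ^ 2 := by ring
  have h3 : n * 2 ≤ 4 * u := by linarith
  linarith

/-- numerics of `s8a_mult` -/
theorem s8m_num (d : ℕ) (δ H Q : ℝ) (hH : Real.exp 2 ≤ H) (hd : (d : ℝ) ≤ Real.log H) (hδ : 0 < δ)
    (hδ' : δ ≤ 1 / 8) (hQ0 : 0 ≤ Q) (hQ : Q ≤ H ^ (d ^ 2)) :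
    4 ^ (d + d) * (1 * max 1 (16 * Q * ((d : ℝ) * (12000 / δ) + 2 * Real.pi * (3 * (d : ℝ) ^ 2 * H * (4 * Q + 2))))
        ^ (2 * (d + d) + 1) * (((2 * (d + d) + 1).factorial : ℝ)) ^ 2)
      ≤ s4b_qp 971599 (Real.log H + Real.log (1 / δ)) := by
  have hH0 : 0 < H := lt_of_lt_of_le (Real.exp_pos 2) hH
  obtain ⟨L, hL⟩ : ∃ L : ℝ, L = Real.log H := ⟨_, rfl⟩
  obtain ⟨M, hM⟩ : ∃ M : ℝ, M = Real.log (1 / δ) := ⟨_, rfl⟩
  rw [← hL, ← hM]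
  rw [← hL] at hd
  have hHe : H = Real.exp L := by rw [hL, Real.exp_log hH0]
  have hδe : 1 / δ = Real.exp M := by rw [hM, Real.exp_log (by positivity)]
  have hM0 : 0 ≤ M := by
    rw [hM]
    apply Real.log_nonneg
    rw [le_div_iff₀ hδ]
    linarith
  have hd0 : (0 : ℝ) ≤ (d : ℝ) := by positivity
  have hL0 : 0 ≤ L := le_trans hd0 hd
  obtain ⟨x, hx⟩ : ∃ x : ℝ, x = L + M := ⟨_, rfl⟩
  rw [← hx]
  have hx0 : 0 ≤ x := by rw [hx]; linarith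
  have hdx : (d : ℝ) ≤ x := by rw [hx]; linarith
  have hLx : L ≤ x := by rw [hx]; linarith
  have hMx : M ≤ x := by rw [hx]; linarith
  obtain ⟨e1, he1⟩ : ∃ e1 : ℝ, e1 = Real.exp x := ⟨_, rfl⟩
  obtain ⟨e3, he3⟩ : ∃ e3 : ℝ, e3 = Real.exp (x ^ 3) := ⟨_, rfl⟩
  have he11 : 1 ≤ e1 := by rw [he1]; exact Real.one_le_exp hx0
  have he31 : 1 ≤ e3 := by rw [he3]; exact Real.one_le_exp (by positivity)
  have hQe : Q ≤ e3 := by
    refine le_trans hQ ?_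
    rw [he3, hHe, ← Real.exp_nat_mul]
    apply Real.exp_le_exp.2
    push_cast
    have h5 : (d : ℝ) ^ 2 ≤ x ^ 2 := pow_le_pow_left₀ hd0 hdx 2
    calc (d : ℝ) ^ 2 * L ≤ x ^ 2 * x := mul_le_mul h5 hLx hL0 (by positivity)
      _ = x ^ 3 := by ring
  have hde : (d : ℝ) ≤ e1 := by rw [he1]; linarith [Real.add_one_le_exp x]
  have hδx : 1 / δ ≤ e1 := by rw [he1, hδe]; exact Real.exp_le_exp.2 hMx
  have hHx : H ≤ e1 := by rw [he1, hHe]; exact Real.exp_le_exp.2 hLx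
  have hδ0 : 0 ≤ 1 / δ := by positivity
  have hpi : Real.pi ≤ 4 := Real.pi_le_four
  have hpi0 : 0 ≤ Real.pi := Real.pi_pos.le
  have hA1 : 16 * Q * ((d : ℝ) * (12000 / δ) + 2 * Real.pi * (3 * (d : ℝ) ^ 2 * H * (4 * Q + 2))) ≤
      16 * e3 * (e1 * (12000 * e1) + 2 * 4 * (3 * e1 ^ 2 * e1 * (4 * e3 + 2))) := by
    have e : (12000 : ℝ) / δ = 12000 * (1 / δ) := by ring
    rw [e]
    gcongr
  have hA2 : 16 * e3 * (e1 * (12000 * e1) + 2 * 4 * (3 * e1 ^ 2 * e1 * (4 * e3 + 2))) ≤ 194304 * (e1 ^ 3 * e3 ^ 2) := by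
    have p1 : e1 ^ 2 * e3 ≤ e1 ^ 3 * e3 ^ 2 :=
      mul_le_mul (pow_le_pow_right₀ he11 (by norm_num)) (le_self_pow₀ he31 (by norm_num)) (by positivity) (by positivity)
    have p2 : e1 ^ 3 * e3 ≤ e1 ^ 3 * e3 ^ 2 :=
      mul_le_mul_of_nonneg_left (le_self_pow₀ he31 (by norm_num)) (by positivity)
    have e : 16 * e3 * (e1 * (12000 * e1) + 2 * 4 * (3 * e1 ^ 2 * e1 * (4 * e3 + 2))) =
        192000 * (e1 ^ 2 * e3) + 1536 * (e1 ^ 3 * e3 ^ 2) + 768 * (e1 ^ 3 * e3) := by ring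
    rw [e]
    linarith
  have hA3 : 194304 * (e1 ^ 3 * e3 ^ 2) ≤ Real.exp (194304 + 3 * x + 2 * x ^ 3) := by
    have hce : (194304 : ℝ) ≤ Real.exp 194304 := by linarith [Real.add_one_le_exp (194304 : ℝ)]
    have e : Real.exp (194304 + 3 * x + 2 * x ^ 3) = Real.exp 194304 * (e1 ^ 3 * e3 ^ 2) := by
      rw [he1, he3, ← Real.exp_nat_mul, ← Real.exp_nat_mul, ← Real.exp_add, ← Real.exp_add]
      congr 1
      push_cast
      ring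
    rw [e]
    exact mul_le_mul_of_nonneg_right hce (by positivity)
  have hAe : max 1 (16 * Q * ((d : ℝ) * (12000 / δ) + 2 * Real.pi * (3 * (d : ℝ) ^ 2 * H * (4 * Q + 2)))) ≤
      Real.exp (194304 + 3 * x + 2 * x ^ 3) :=
    max_le (Real.one_le_exp (by positivity)) (hA1.trans (hA2.trans hA3))
  refine le_trans (s8m_num_gen (d + d) _ _ hAe) (s4a_qp_of_exp ?_)
  refine le_trans ?_ (s4a_pl_of_le (N := 971599) (k := 4) (a := 971599) hx0 (by norm_num) (by norm_num))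
  exact s8m_poly _ _ x hx0 (by positivity) (by push_cast; linarith) (by push_cast; ring)

/-- **Sec. 8.3**: the common progression multiplier, uniformly in the four offsets. -/
theorem s8a_mult : ∃ Cq : ℕ, ∀ (d : ℕ) (t : LocTag) (δ H : ℝ) (N : ℕ) (js : Fin 4 → ℕ), t.dim ≤ d → Real.exp 2 ≤ H →
    (d : ℝ) ≤ Real.log H → (∀ i k, (qHeight (t.C i k) : ℝ) ≤ H) → 0 < δ → δ ≤ 1 / 8 → 0 < N → (∀ l, js l < N) →
    ∃ c : (Fin d ⊕ Fin d → ℤ) → ℂ, Summable (fun n => ‖c n‖ * (1 + ‖n‖) ^ 1) ∧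
      ∑' n, ‖c n‖ * (1 + ‖n‖) ^ 1 ≤ s4b_qp Cq (Real.log H + Real.log (1 / δ)) ∧
      ∀ y s : ℝ, HasSum
        (fun n => c n * ee ((s8GaugeOf d t δ N 0).dotv (fun i => n (Sum.inl i)) * y
          + (s8GaugeOf d t δ N 0).dotv (fun i => n (Sum.inr i)) * s))
        (∏ l : Fin 4, (s8GaugeOf d t δ N (js l)).gau (s8c4 l) (y + (l : ℝ) * s)) := by
  refine ⟨971599, fun d t δ H N js hdim hH hd hC hδ hδ' hN hj => ?_⟩
  have hH1 : (1 : ℝ) ≤ H := le_trans (Real.one_le_exp (by norm_num)) hH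
  have hQle : ((s4a_den t.C : ℕ) : ℝ) ≤ H ^ (d ^ 2) := by
    refine le_trans (s4a_den_le t.C H hC) ?_
    rw [Fintype.card_fin]
    exact pow_le_pow_right₀ hH1 (Nat.pow_le_pow_left hdim 2)
  have hG := s8m_G_gev d t δ N js H hδ hN hj hH1 hC
  obtain ⟨s1, s2, s3⟩ := s8a_per_l1 hG (by positivity) (s8m_per d t δ N js)
  refine ⟨_, s1, le_trans s2 ?_, fun y s => ?_⟩
  · rw [Fintype.card_sum, Fintype.card_fin]
    exact s8m_num d δ H _ hH hd hδ hδ' (by positivity) hQle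
  · have h := s3 (Sum.elim (fun i => (s8GaugeOf d t δ N 0).vth i * y) fun i => (s8GaugeOf d t δ N 0).vth i * s)
    rw [← s8m_diag] at h
    have e1 : ∀ ℓ : Fin d ⊕ Fin d → ℤ, ∑ i, (ℓ i : ℝ) *
        (Sum.elim (fun i => (s8GaugeOf d t δ N 0).vth i * y) (fun i => (s8GaugeOf d t δ N 0).vth i * s) i) =
        (s8GaugeOf d t δ N 0).dotv (fun i => ℓ (Sum.inl i)) * y + (s8GaugeOf d t δ N 0).dotv (fun i => ℓ (Sum.inr i)) * s := by
      intro ℓ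
      rw [Fintype.sum_sum_type]
      unfold S8Gauge.dotv
      rw [Finset.sum_mul, Finset.sum_mul]
      congr 1 <;> exact Finset.sum_congr rfl fun i _ => by simp only [Sum.elim_inl, Sum.elim_inr]; ring
    simp only [e1] at h
    exact h

end

end Claimed.Agent.R258
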