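/-
Row 258 (S0498), Sec. 8, layer (A): block A-S8-GOAL (architect helper63).   FILE GoalA: `s8_layerA1` = `s8_layerA0` (S8/AMain.lean, helper61) with the gauge kit of Sec. 9 (`ModeSys.S9Kit`, S9/Gauge.lean) among the conclusions.
Same proof as `s8_layerA0`; the numbers are taken from `s8a_num Cq1 Cq2 (max Cq3 Cq4) C4`, `Cq4` = the constant of `s9g_kit`;  new hypothesis `pD * M ≤ D2` (total length of the uses `≤ D_* |R|`).
-/
import Claimed.Agent.R258.S8.AMain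
import Claimed.Agent.R258.S9.Gauge

set_option autoImplicit false
open MeasureTheory

namespace Claimed.Agent.R258

open scoped BigOperators
open Classical

noncomputable section

theorem s8ga_log21 {d D2 : ℝ} (hD2 : 3 ≤ D2) (hd : d ≤ Real.log (21 * D2)) : d ≤ Real.log D2 + 4 := by
  have h21 : Real.log (21 * D2) = Real.log 21 + Real.log D2 := Real.log_mul (by norm_num) (by linarith)
  have hl21 : Real.log 21 ≤ 4 := by
    have : (21 : ℝ) ≤ Real.exp 4 := by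
      have h4 : Real.exp 4 = Real.exp 1 ^ 4 := by rw [← Real.exp_nat_mul]; norm_num
      rw [h4]
      have h27 := Real.exp_one_gt_d9
      nlinarith [pow_le_pow_left₀ (by norm_num : (0:ℝ) ≤ 2.7) (by linarith : (2.7 : ℝ) ≤ Real.exp 1) 4]
    calc Real.log 21 ≤ Real.log (Real.exp 4) := Real.log_le_log (by norm_num) this
      _ = 4 := Real.log_exp 4
  linarith

theorem s8ga_h40 {d δ D2 : ℝ} (hδ : 0 < δ) (hD2 : 3 ≤ D2) (hd : d ≤ Real.log D2 + 4) (hs : δ * (D2 + 1) ^ 2 ≤ 1 / 100) :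
    40 * d * δ ≤ 1 := by
  have hlogD2 : Real.log D2 ≤ D2 - 1 := Real.log_le_sub_one_of_pos (by linarith)
  have h1 : d ≤ (D2 + 1) ^ 2 := by nlinarith
  have h2 : d * δ ≤ (D2 + 1) ^ 2 * δ := mul_le_mul_of_nonneg_right h1 hδ.le
  nlinarith

theorem s8ga_dDs {d pDm D1 Ds : ℕ} {D2 : ℝ} (hD2 : 3 ≤ D2) (hd : (d : ℝ) ≤ Real.log D2 + 4) (hlo : D2 ≤ pDm) (hD1 : 1 ≤ D1)
    (hbig : 2 * pDm ^ 2 * D1 ≤ Ds) : d + 1 ≤ Ds := by
  have hlogD2 : Real.log D2 ≤ D2 - 1 := Real.log_le_sub_one_of_pos (by linarith)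
  have h1 : ((2 * pDm ^ 2 * D1 : ℕ) : ℝ) ≤ (Ds : ℝ) := by exact_mod_cast hbig
  have h2 : (1 : ℝ) ≤ (D1 : ℝ) := by exact_mod_cast hD1
  have h3 : D2 ^ 2 ≤ (pDm : ℝ) ^ 2 := pow_le_pow_left₀ (by linarith) hlo 2
  have h4 : 2 * (pDm : ℝ) ^ 2 ≤ 2 * (pDm : ℝ) ^ 2 * (D1 : ℝ) := le_mul_of_one_le_right (by positivity) h2
  push_cast at h1
  have h5 : (d : ℝ) + 1 ≤ (Ds : ℝ) := by nlinarith
  exact_mod_cast h5

/-- **LAYER (A) OF SEC. 8 with the gauge kit**, non-asymptotic form. -/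
theorem s8_layerA1 : ∃ Cq : ℕ, ∀ (Y : LocSys LocTag) (c0 C0 q η D M LU Dm D2 Hp G0 δ : ℝ) (m0 κ N0 : ℕ) (cells : Finset Cell),
    Y.X.Valid c0 C0 q η D M LU → 2 ≤ q → 0 ≤ M → Y.Valid Dm m0 →
    (∀ Φ ∈ Y.cat.cols, (Y.cat.chart Φ.lab).tag (Y.cat.slot Φ.lab) = Y.B.tag (Y.cat.vtx Φ.lab)) →
    Y.EndpointGoal Hp → 0 ≤ G0 → Y.RowsGoal κ G0 → cells ⊆ Y.X.S →
    Real.exp 2 ≤ Dm → Dm ≤ D2 → ((Y.p.D * (Y.p.d0 ^ 8 + 1) : ℕ) : ℝ) ≤ D2 → (Y.p.D : ℝ) * M ≤ D2 → 1 ≤ Hp → 0 < δ →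
    δ * (D2 + 1) ^ 2 ≤ 1 / 100 →
    ∃ (ν : S8Num) (jo : Fin 4 → ℕ → ℕ) (p : S8Par),
      p.Ok ν.d ∧ (Y.primSys κ cells ν jo).Ok p ν.D1 ν.εx G0 ∧
      (Y.primSys κ cells ν jo).toMode.Link p (Y.Z κ) 3 ((p.Dm : ℝ) ^ 4 * ((Y.p.D : ℝ) * M) * δ * (80 * ν.d + 8)) ∧
      (Y.primSys κ cells ν jo).toMode.S9Kit p ∧
      Real.log D2 ≤ ν.d ∧ (ν.d : ℝ) ≤ Real.log D2 + 4 ∧ D2 ≤ p.Dm ∧ (p.Dm : ℝ) ≤ D2 + 1 ∧ p.δs = 1 / 1024 ∧
      Real.log p.Ds ≤ s4a_pl Cq (Real.log D2 + Real.log Hp + Real.log (1 / δ)) ∧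
      (p.K : ℝ) ≤ s4a_pl Cq (Real.log D2 + Real.log Hp + Real.log (1 / δ)) ∧
      (p.Js : ℝ) ≤ s4a_pl Cq (Real.log D2 + Real.log Hp + Real.log (1 / δ)) ∧
      Real.log p.A0 ≤ s4a_pl Cq (Real.log D2 + Real.log Hp + Real.log (1 / δ)) := by
  obtain ⟨Cq1, h1⟩ := s8a_expand
  obtain ⟨Cq2, h2⟩ := s8a_cut_fourier
  obtain ⟨Cq3, _⟩ := s8a_mult
  obtain ⟨Cq4, h5k⟩ := s9g_kit
  obtain ⟨C4, h4⟩ := s8_par_bd
  obtain ⟨Cq, hnum⟩ := s8a_num Cq1 Cq2 (max Cq3 Cq4) C4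
  refine ⟨Cq, ?_⟩
  intro Y c0 C0 q η D M LU Dm D2 Hp G0 δ m0 κ N0 cells hX hq hM hV htag hE hG0 hR hc hDm hD2 hgrp hlenD hHp hδ hδs
  have he2 : (1 : ℝ) ≤ Real.exp 2 := Real.one_le_exp (by norm_num)
  have hD2e : Real.exp 2 ≤ D2 := hDm.trans hD2
  have hDm1 : 1 ≤ Dm := he2.trans hDm
  have hD21 : 1 ≤ D2 := he2.trans hD2e
  have hsq1 : 1 ≤ (D2 + 1) ^ 2 := by nlinarith
  have hδ100 : δ ≤ 1 / 100 := by nlinarith
  have hδ8 : δ ≤ 1 / 8 := by linarith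
  obtain ⟨d, pDm, N, D1, Ds, Bs, epsm, n, hb1, hb2, hb3⟩ := hnum D2 Hp δ hD2e hHp hδ hδ8
  have hpDm1 : 1 ≤ pDm := by
    have : (1 : ℝ) ≤ pDm := hD21.trans n.pDm_lo
    exact_mod_cast this
  have hpOk : (s8ParOf d pDm Ds Bs).Ok d := s8_par_ok d pDm Ds Bs n.d_ge hpDm1 n.pDm_le n.Ds_ge
  have hN0 : 0 < N := by
    rcases Nat.eq_zero_or_pos N with h | h
    · have := n.N_lo; rw [h] at this; norm_num at this
    · exact h
  have htg := fun G => LocSys.s8l_ctag (κ := κ) (cells := cells) hV htag hDm1 G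
  have hlogmono : Real.log Dm ≤ Real.log D2 := Real.log_le_log (by linarith) hD2
  have hdim : ∀ G, (Y.ctag κ cells G).dim ≤ d := by
    intro G
    have : ((Y.ctag κ cells G).dim : ℝ) ≤ d := ((htg G).1.trans hlogmono).trans n.d_lo
    exact_mod_cast this
  have hH : Real.exp 2 ≤ 21 * D2 := by linarith
  have hht : ∀ G i k, (qHeight ((Y.ctag κ cells G).C i k) : ℝ) ≤ 21 * D2 := by
    intro G i k
    have := (htg G).2 i k
    linarith
  -- the numerical record and the offsets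
  obtain ⟨jo, hjo, hoff⟩ := LocSys.s8l_offsets d (Y.ctag κ cells) δ N hdim hδ hδ8 n.N_lo (Y.usesOn κ cells)
    (fun l u y => ‖physFn ((Y.primSys κ cells ⟨d, δ, N, Hp, D1, δ, epsm, N0⟩ (fun _ _ => 0)).toMode.Zf (s8ParOf d pDm Ds Bs)
      (Y.Z κ) l u.1 u.2) y‖ ^ 2)
    (fun l u _ => ((xv_physFn_memLp _).integrable_norm_pow (by norm_num)).integrableOn)
    (fun l u y => by positivity)
  have hP : 1 ≤ Y.p.P := hV.P_pos
  have hOk : (Y.primSys κ cells ⟨d, δ, N, Hp, D1, δ, epsm, N0⟩ jo).Ok (s8ParOf d pDm Ds Bs) D1 δ G0 :=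
    { G0_nonneg := hG0
      uses_le := LocSys.s8l_uses_le hX hc
      prim_U := by
        intro l G U hl
        apply Finset.eq_empty_of_forall_notMem
        intro Φ hΦ
        have := (LocSys.s8l_mem_prim.1 hΦ).1
        have hl' : (!Y.pat l) = false := hl
        rw [this] at hl'
        simp at hl'
      prim_root := fun l G U Φ hΦ => (LocSys.s8l_mem_prim.1 hΦ).2.2.1
      prim_birth := fun l G U Φ hΦ => (LocSys.s8l_mem_prim.1 hΦ).2.2.2.2.1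
      prim_mono := fun l G U U' hU hU' => LocSys.s8l_prim_mono l G U U' hU hU'
      prim_lab := fun l G U l' G' U' Φ hΦ Φ' hΦ' h => LocSys.s8l_prim_lab hV l G U l' G' U' Φ hΦ Φ' hΦ' h
      prim_fm := fun l G U Φ hΦ => (LocSys.s8l_fm htag hE hΦ).1
      count := by
        intro I hI A hA
        have h := LocSys.s8l_count hV I hI A hA
        have : (A.card : ℝ) ≤ pDm := (h.trans hD2).trans n.pDm_lo
        exact_mod_cast this
      col_eps := by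
        intro l G U Φ hΦ
        obtain ⟨_, _, _, _, h5, h6⟩ := LocSys.s8l_col hV hΦ
        refine ⟨le_trans ?_ h5, h6⟩
        exact inv_anti₀ (by linarith) (hD2.trans n.pDm_lo)
      col_phi := by
        intro l G U Φ hΦ
        obtain ⟨_, _, h3, h4, _, _⟩ := LocSys.s8l_col hV hΦ
        exact ⟨h3, h4⟩
      grp_count := by
        intro l U _
        have h := LocSys.s8l_grp_count (Y := Y) (κ := κ) (cells := cells) (ν := ⟨d, δ, N, Hp, D1, δ, epsm, N0⟩) (jo := jo) l U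
        have h' : ((Y.p.D * (Y.p.d0 ^ 8 + 1) : ℕ) : ℝ) ≤ pDm := hgrp.trans n.pDm_lo
        exact h.trans (by exact_mod_cast h')
      Z_span := by
        intro l G U hl hU
        obtain ⟨hG, hUr, _⟩ := LocSys.s8l_cert hc hU
        have hl' : Y.pat l = false := by
          have : (!Y.pat l) = true := hl
          simpa using this
        exact LocSys.s8l_Z_span hP hl' hG hUr
      Z_size := by
        intro l G U hl hU
        obtain ⟨hG, hUr, I, hI, hIU, _⟩ := LocSys.s8l_cert hc hU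
        have hl' : Y.pat l = false := by
          have : (!Y.pat l) = true := hl
          simpa using this
        exact LocSys.s8l_Z_size hX hq hP hl' G (hX.tree.conv I (hX.S_sub hI) U hIU hUr)
      ex_ok := by
        intro l G U Φ hΦ
        obtain ⟨hphi, hcplx, _, _, _, _⟩ := LocSys.s8l_col hV hΦ
        obtain ⟨hfm1, hfm2⟩ := LocSys.s8l_fm htag hE hΦ
        have hdepth : ((Y.primSys κ cells ⟨d, δ, N, Hp, D1, δ, epsm, N0⟩ jo).fmc l G Φ U).depth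
            = Φ.birth.depth + ((Y.primSys κ cells ⟨d, δ, N, Hp, D1, δ, epsm, N0⟩ jo).fm l G Φ : ℤ) := by
          unfold PrimSys.fmc
          rw [cell_depth_anc]
          omega
        have had : (Y.cat.chart Φ.lab).d ≤ d := by
          have : ((Y.cat.chart Φ.lab).d : ℝ) ≤ d := (hcplx.dim.trans hlogmono).trans n.d_lo
          exact_mod_cast this
        have hlog21 : Real.log D2 ≤ Real.log (21 * D2) := Real.log_le_log (by linarith) (by linarith)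
        have hex := h1 d (Y.ctag κ cells G) (Y.cat.chart Φ.lab) l
          ((Y.primSys κ cells ⟨d, δ, N, Hp, D1, δ, epsm, N0⟩ jo).fmc l G Φ U) (21 * D2) Hp δ δ N (jo l G) D1 (hdim G) had
          (s4a_cplx_mono hcplx (by linarith)) (((htg G).1.trans hlogmono).trans hlog21) (hht G)
          (by rw [hdepth]; exact hfm2) hHp hδ hδ8 hδ (by linarith) hN0 (hjo l G) n.D1_ge
        rw [hphi]
        have hex' : ∃ E : S8Exp, E.Ok (Y.s8gauge κ cells ⟨d, δ, N, Hp, D1, δ, epsm, N0⟩ jo l G) (s8c4 l)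
            (Y.cat.chart Φ.lab).eval (s8PadV (S8Num.d ⟨d, δ, N, Hp, D1, δ, epsm, N0⟩) (Y.cat.chart Φ.lab).th)
            ((Y.primSys κ cells ⟨d, δ, N, Hp, D1, δ, epsm, N0⟩ jo).fmc l G Φ U)
            (S8Num.D1 ⟨d, δ, N, Hp, D1, δ, epsm, N0⟩) (S8Num.εx ⟨d, δ, N, Hp, D1, δ, epsm, N0⟩) := hex
        show (dite _ _ _ : S8Exp).Ok _ _ _ _ _ _ _
        rw [dif_pos hex']
        exact hex'.choose_spec
      cut_meas := fun l G => s8a_cut_meas d _ δ N _ hδ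
      cut_range := fun l G y => s8a_cut_range d _ δ N _ y
      pph_meas := fun l G => s8a_pph_meas d _ δ N _
      cut_fourier := fun l G => s8a_cutF_of h2 d (Y.ctag κ cells G) δ (21 * D2) N (jo l G) Ds Bs (hdim G) hH n.d_hi (hht G) hδ hδ8
        n.Ds_cut n.Bs_cut
      rows := by
        intro l hl ι _ Ge Ue Te Bz hBz hcert hloc hB
        have hl' : Y.pat l = false := by
          have : (!Y.pat l) = true := hl
          simpa using this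
        exact hR l hl' ι Ge Ue Te Bz hBz (fun e => (LocSys.s8l_cert hc (hcert e)).2) hloc hB
      Dm_pos := hpDm1
      εx_nonneg := hδ.le
      εx_small := by
        have h1 : (pDm : ℝ) ^ 2 ≤ (D2 + 1) ^ 2 := pow_le_pow_left₀ (by positivity) n.pDm_hi 2
        have : δ * (pDm : ℝ) ^ 2 ≤ δ * (D2 + 1) ^ 2 := mul_le_mul_of_nonneg_left h1 hδ.le
        show δ * (pDm : ℝ) ^ 2 ≤ 1
        linarith
      eps_hi := n.eps_hi
      eps_lo := n.eps_lo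
      eps_le := n.eps_le
      Ds_big := n.Ds_big }
  have hlen := LocSys.s8l_use_len (κ := κ) hX hM hc
  have hRlen : 0 ≤ Y.X.root.len := cell_len_nonneg _
  have hMuse : 0 ≤ (Y.p.D : ℝ) * M := by positivity
  have hoff' : ∀ l, (Y.primSys κ cells ⟨d, δ, N, Hp, D1, δ, epsm, N0⟩ jo).isB l = true →
      ∑ u ∈ (Y.primSys κ cells ⟨d, δ, N, Hp, D1, δ, epsm, N0⟩ jo).uses, ∫ y in u.2.set,
        (1 - ((Y.primSys κ cells ⟨d, δ, N, Hp, D1, δ, epsm, N0⟩ jo).gauge l u.1).cut y ^ 2) ^ 2 *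
          ‖physFn ((Y.primSys κ cells ⟨d, δ, N, Hp, D1, δ, epsm, N0⟩ jo).toMode.Zf (s8ParOf d pDm Ds Bs)
            (Y.primSys κ cells ⟨d, δ, N, Hp, D1, δ, epsm, N0⟩ jo).Z l u.1 u.2) y‖ ^ 2
        ≤ (10 * d * δ * (4 * (pDm : ℝ) ^ 4 * ((Y.p.D : ℝ) * M))) *
          (Y.primSys κ cells ⟨d, δ, N, Hp, D1, δ, epsm, N0⟩ jo).root.len := by
    intro l hl
    have hz := PrimSys.Zf_sq_le hOk hl
    have hz' : ∑ u ∈ (Y.primSys κ cells ⟨d, δ, N, Hp, D1, δ, epsm, N0⟩ jo).uses, ∫ y in u.2.set,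
        ‖physFn ((Y.primSys κ cells ⟨d, δ, N, Hp, D1, δ, epsm, N0⟩ jo).toMode.Zf (s8ParOf d pDm Ds Bs)
            (Y.primSys κ cells ⟨d, δ, N, Hp, D1, δ, epsm, N0⟩ jo).Z l u.1 u.2) y‖ ^ 2
        ≤ 4 * (pDm : ℝ) ^ 4 * ((Y.p.D : ℝ) * M * Y.X.root.len) :=
      hz.trans (mul_le_mul_of_nonneg_left hlen (by positivity))
    refine (hoff l).trans ?_
    have h10 : (0 : ℝ) ≤ 10 * d * δ := by positivity
    calc 10 * (d : ℝ) * δ * _ ≤ 10 * (d : ℝ) * δ * (4 * (pDm : ℝ) ^ 4 * ((Y.p.D : ℝ) * M * Y.X.root.len)) :=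
          mul_le_mul_of_nonneg_left hz' h10
      _ = _ := by
          show _ = (10 * d * δ * (4 * (pDm : ℝ) ^ 4 * ((Y.p.D : ℝ) * M))) * Y.X.root.len
          ring
  have hL := PrimSys.link hOk _ _ hoff' hlen
  obtain ⟨k1, k2, k3, k4, k5⟩ := h4 d pDm Ds Bs n.d_ge hpDm1 n.pDm_le n.Ds_ge
  -- the gauge kit of Sec. 9
  have hD23 : 3 ≤ D2 := by
    have := Real.add_one_le_exp (2 : ℝ)
    linarith
  have hd4 : (d : ℝ) ≤ Real.log D2 + 4 := s8ga_log21 hD23 n.d_hi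
  have h40 : 40 * (d : ℝ) * δ ≤ 1 := s8ga_h40 hδ hD23 hd4 hδs
  have hD1pos : 1 ≤ D1 := by
    have h1 : (0 : ℝ) < D1 := lt_of_lt_of_le (s4a_qp_pos _ _) n.D1_ge
    exact_mod_cast h1
  have hdDs : d + 1 ≤ Ds := s8ga_dDs hD23 hd4 n.pDm_lo hD1pos n.Ds_big
  have hx0 : 0 ≤ Real.log (21 * D2) + Real.log (1 / δ) := by
    have h1 : 0 ≤ Real.log (21 * D2) := Real.log_nonneg (by linarith)
    have h2 : 0 ≤ Real.log (1 / δ) := Real.log_nonneg (by rw [le_div_iff₀ hδ]; linarith)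
    linarith
  have hq4 : s4b_qp Cq4 (Real.log (21 * D2) + Real.log (1 / δ))
      ≤ s4b_qp (max Cq3 Cq4) (Real.log (21 * D2) + Real.log (1 / δ)) := s4a_qp_mono (le_max_right _ _) hx0 le_rfl
  have hkit : ∀ G, S9TagKit d (Y.ctag κ cells G) δ N Bs Ds := fun G =>
    h5k d (Y.ctag κ cells G) δ (21 * D2) N Ds Bs (le_trans (by norm_num) n.d_ge) (hdim G) hH n.d_hi (hht G) hδ hδ8 n.N_lo h40
      (le_trans (by norm_num) n.Ds_ge) (hq4.trans n.Ds_mul)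
      ((div_le_div_of_nonneg_right hq4 (by positivity)).trans n.Bs_mul)
  have hpar : S9ParOk (s8ParOf d pDm Ds Bs) d := s9g_par_ok d pDm Ds Bs n.d_ge hpDm1 n.pDm_le n.Ds_ge hdDs
  have hlen' : ∑ u ∈ (Y.primSys κ cells ⟨d, δ, N, Hp, D1, δ, epsm, N0⟩ jo).toMode.uses, u.2.len
      ≤ ((s8ParOf d pDm Ds Bs).Ds : ℝ) * (Y.primSys κ cells ⟨d, δ, N, Hp, D1, δ, epsm, N0⟩ jo).toMode.root.len := by
    refine hlen.trans (mul_le_mul_of_nonneg_right ?_ hRlen)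
    have h1 : (pDm : ℝ) ≤ (Ds : ℝ) := by exact_mod_cast n.pDm_le
    exact (hlenD.trans n.pDm_lo).trans h1
  have hKit : (Y.primSys κ cells ⟨d, δ, N, Hp, D1, δ, epsm, N0⟩ jo).toMode.S9Kit (s8ParOf d pDm Ds Bs) :=
    s9g_modeKit _ _ (Y.ctag κ cells) δ N jo hδ hN0 (fun _ _ => rfl) hjo hkit hpar hlen'
  refine ⟨⟨d, δ, N, Hp, D1, δ, epsm, N0⟩, jo, s8ParOf d pDm Ds Bs, hpOk, hOk,
    ⟨hL.lift, fun l hl => (hL.err l hl).trans ?_⟩, hKit, n.d_lo, hd4, n.pDm_lo, n.pDm_hi, rfl, hb1,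
    k1.trans hb3, k2.trans hb3, k3.trans hb3⟩
  apply mul_le_mul_of_nonneg_right _ hRlen
  show 2 * (10 * d * δ * (4 * (pDm : ℝ) ^ 4 * ((Y.p.D : ℝ) * M))) + 8 * (pDm : ℝ) ^ 4 * δ ^ 2 * ((Y.p.D : ℝ) * M)
    ≤ (pDm : ℝ) ^ 4 * ((Y.p.D : ℝ) * M) * δ * (80 * d + 8)
  have hX0 : 0 ≤ (pDm : ℝ) ^ 4 * ((Y.p.D : ℝ) * M) * δ := by positivity
  have : δ ≤ 1 := by linarith
  nlinarith [mul_le_mul_of_nonneg_left this hX0]

end

end Claimed.Agent.R258
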