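/-
Row 258 (S0498), Sec. 8, layer (A): block A-S8-GOAL (architect helper63).   FILE GoalNum: THE NUMERICS of `s8_goal` (S8/Goal.lean).  Elementary real analysis, NO paper, Mathlib + S4a/Qp.lean + S10/AttNum.lean.
Notation: `a = Cb + 4`, `E = Cm + Cb`, `D2 = s8gD2 = exp (a k^E)`, `δ = s8gDel = exp (-k^(E+1))`, `T = 1 + k + P ≥ 3`, `u = 1 + log (2k) ≥ 1`.   For `k ≥ 1`: `1 ≤ k^Cm, k^Cb ≤ k^E` (`Real.rpow_le_rpow_of_exponent_le`), `k^(E+1) = k^E * k` (`Real.rpow_add_one`).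
Work with exponents: write every factor as `≤ exp (…)`, multiply by `Real.exp_add`, compare exponents by `Real.exp_le_exp`.

LEAF P-S8G-PRE  = `s8g_pre`.
  (1) `exp 2 ≤ exp k ≤ AD ≤ ADm`.  (2) `ADm ≤ exp (k^Cm) ≤ exp (a k^E)`.
  (3) `pD ≤ AD + 1 ≤ 2 AD ≤ exp (1 + k^Cb)` (`2 ≤ exp 1`), `d0^8 + 1 ≤ d0^30 + 1 ≤ k^Cm + 1 ≤ exp (k^Cm)` (`Nat.pow_le_pow_right`, `Real.add_one_le_exp`); exponent `1 + k^Cb + k^Cm ≤ 3 k^E ≤ a k^E`.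
  (4) `AM ≤ AD^Cb ≤ (exp (k^Cb))^Cb = exp (k^Cb * Cb)` (`Real.rpow_le_rpow`, `Real.exp_mul`); exponent `1 + k^Cb + Cb k^Cb ≤ (Cb + 2) k^E`.
  (5) `δ (D2+1)² ≤ δ (2 D2)² = 4 exp (2 a k^E - k^(E+1)) ≤ 4 exp (-7) ≤ 1/100`, because `k^(E+1) = k^E k ≥ (2a + 7) k^E ≥ 2 a k^E + 7`;  `exp 7 ≥ 2.7^7 ≥ 400` (`Real.exp_one_gt_d9`, `Real.exp_nat_mul`/`Real.exp_one_pow`).
LEAF P-S8G-SMALL = `s8g_small`.
  `Dm' ≤ 2 D2`, `pD AM ≤ D2` (`s8g_pre`-(4): only `1 ≤ k` is used there; extract a lemma), `80 d + 8 ≤ 80 a k^E + 328 ≤ 328 (1 + a k^E) ≤ 328 D2` (`Real.log_exp`, `Real.add_one_le_exp`).  So LHS `≤ 5248 D2^6 δ = 5248 exp (6 a k^E - k^(E+1))`, `5248 ≤ exp 9`.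
  RHS: `ADm^(-Csm) ≥ (exp (k^Cm))^(-Csm) = exp (-(Csm k^Cm))` (`Real.rpow_le_rpow_of_nonpos`/`Real.rpow_le_rpow_of_exponent_nonpos`, `Real.exp_mul`).   `9 + 6 a k^E + Csm k^Cm ≤ (9 + 6a + Csm) k^E ≤ k^(E+1)`.
LEAF P-S8G-B = `s8g_B_le`.
  `log D2 = a k^E ≤ a T^E`, `log Hp ≤ (k+P)^Cm ≤ T^Cm`, `log (1/δ) = k^(E+1) ≤ T^(E+1)`; so `1 + x ≤ (a + 3) T^(E+1)`, `s4a_pl Cq x = Cq (1+x)^Cq ≤ Cq (a+3)^Cq (T^(E+1))^Cq = c1 T^((E+1) Cq)` (`mul_pow`, `Real.rpow_natCast`, `Real.rpow_mul`),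
  `c1 ≤ exp c1 ≤ T^c1` (`T ≥ 3 ≥ exp 1`, `Real.rpow_def_of_pos`, `1 ≤ log T`), `Real.rpow_add`.
LEAF P-S8G-X17 = `s8g_X17`.
  `w = 1 + a k^E`.  `log Dm ≤ log (2 D2) ≤ w`;  `s8cLog Dm ≤ logb 1.1 Dm = log Dm / log 1.1 ≤ 11 w` (`Nat.floor_le`, `1/11 ≤ log 1.1` by `Real.one_sub_inv_le_log_of_pos`);  `harmonic Dm ≤ 1 + log Dm ≤ 2 w` (`harmonic_le_one_add_log`);  `10 d ≤ 40 w`;
  `N0 + 1 ≤ 2048 (11 w + 800 w²) + 1 ≤ 2^21 w²`;  `80 (9 Grow) + 1 ≤ 721 g0fun Cg k` (`g0fun_ge_one`);  `721 · 2^21 ≤ exp 22`;  `w ≤ (1 + a) k^E ≤ exp a · k^E`;  `k^E = exp (E log k) ≤ exp (E u)`.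
  Total exponent `22 + 2a + 2E u + Cg u^Cg ≤ C u^C` for `C = s8gC2` (`u ≤ u^C`, `u^Cg ≤ u^C`, `1 ≤ u^C`).
-/
import Claimed.Agent.R258.S10.AttNum
import Claimed.Agent.R258.S4a.Qp

set_option autoImplicit false

namespace Claimed.Agent.R258

noncomputable section

/-- the main budget of layer (A) -/
def s8gD2 (Cb Cm k : ℝ) : ℝ := Real.exp ((Cb + 4) * k ^ (Cm + Cb))

/-- cutoff width = accuracy of layer (A) -/
def s8gDel (Cb Cm k : ℝ) : ℝ := Real.exp (-(k ^ (Cm + Cb + 1)))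

/-- exponent for all quantities bounded by `s4a_pl Cq (…)` -/
def s8gC1 (Cq : ℕ) (Cb Cm : ℝ) : ℝ := (Cq : ℝ) * (Cb + 7) ^ Cq + (Cm + Cb + 1) * (Cq : ℝ)

/-- exponent for `X17` -/
def s8gC2 (Cb Cm Cg : ℝ) : ℝ := 22 + 2 * (Cb + 4) + 2 * (Cm + Cb) + Cg + 1

/-- what is used from the numbers of Sec. 6 -/
structure S8gIn (Cb Cm k AD ADm AM : ℝ) (pD d0 : ℕ) : Prop where
  D_ge : Real.exp k ≤ AD
  D_le : AD ≤ ADm
  Dm_le : ADm ≤ Real.exp (k ^ Cm)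
  D_le' : AD ≤ Real.exp (k ^ Cb)
  M_ge : 1 ≤ AM
  M_le : AM ≤ AD ^ Cb
  pD_le : (pD : ℝ) ≤ AD + 1
  d0_ge : 1 ≤ d0
  L_le : ((d0 ^ 30 : ℕ) : ℝ) ≤ k ^ Cm

variable {Cb Cm k AD ADm AM : ℝ} {pD d0 : ℕ}

theorem s8g_basic (hCb : 1 ≤ Cb) (hCm : 0 < Cm) (hk : 1 ≤ k) :
    1 ≤ k ^ Cm ∧ 1 ≤ k ^ Cb ∧ k ^ Cm ≤ k ^ (Cm + Cb) ∧ k ^ Cb ≤ k ^ (Cm + Cb) ∧
      k ^ (Cm + Cb + 1) = k ^ (Cm + Cb) * k ∧ 1 ≤ k ^ (Cm + Cb) :=
  ⟨Real.one_le_rpow hk hCm.le, Real.one_le_rpow hk (by linarith),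
    Real.rpow_le_rpow_of_exponent_le hk (by linarith), Real.rpow_le_rpow_of_exponent_le hk (by linarith),
    Real.rpow_add_one (by linarith) _, Real.one_le_rpow hk (by linarith)⟩

theorem s8g_two_le_exp : (2 : ℝ) ≤ Real.exp 1 := by
  have := Real.add_one_le_exp (1 : ℝ)
  linarith

theorem s8g_pD_le (hk : 1 ≤ k) (h : S8gIn Cb Cm k AD ADm AM pD d0) : (pD : ℝ) ≤ Real.exp (1 + k ^ Cb) := by
  have h1 : (1 : ℝ) ≤ AD := le_trans (Real.one_le_exp (by linarith)) h.D_ge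
  calc (pD : ℝ) ≤ AD + 1 := h.pD_le
    _ ≤ 2 * AD := by linarith
    _ ≤ Real.exp 1 * Real.exp (k ^ Cb) := mul_le_mul s8g_two_le_exp h.D_le' (by linarith) (Real.exp_pos _).le
    _ = Real.exp (1 + k ^ Cb) := (Real.exp_add _ _).symm

theorem s8g_pDAM (hCb : 1 ≤ Cb) (hCm : 0 < Cm) (hk : 1 ≤ k) (h : S8gIn Cb Cm k AD ADm AM pD d0) :
    (pD : ℝ) * AM ≤ s8gD2 Cb Cm k := by
  obtain ⟨b1, b2, b3, b4, b5, b6⟩ := s8g_basic hCb hCm hk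
  have h1 : (1 : ℝ) ≤ AD := le_trans (Real.one_le_exp (by linarith)) h.D_ge
  have h2 : AM ≤ Real.exp (k ^ Cb * Cb) := by
    rw [Real.exp_mul]
    exact h.M_le.trans (Real.rpow_le_rpow (by linarith) h.D_le' (by linarith))
  unfold s8gD2
  calc (pD : ℝ) * AM ≤ Real.exp (1 + k ^ Cb) * Real.exp (k ^ Cb * Cb) :=
        mul_le_mul (s8g_pD_le hk h) h2 (by linarith [h.M_ge]) (Real.exp_pos _).le
    _ = Real.exp (1 + k ^ Cb + k ^ Cb * Cb) := (Real.exp_add _ _).symm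
    _ ≤ Real.exp ((Cb + 4) * k ^ (Cm + Cb)) := by
        refine Real.exp_le_exp.2 ?_
        have e1 : k ^ Cb * Cb ≤ k ^ (Cm + Cb) * Cb := mul_le_mul_of_nonneg_right b4 (by linarith)
        nlinarith

theorem s8g_exp_ge (n : ℕ) : (2.7 : ℝ) ^ n ≤ Real.exp n := by
  rw [← Real.exp_one_pow]
  exact pow_le_pow_left₀ (by norm_num) (by have := Real.exp_one_gt_d9; linarith) n

/-- LEAF P-S8G-PRE: the hypotheses of `s8_layerA1` -/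
theorem s8g_pre (hCb : 1 ≤ Cb) (hCm : 0 < Cm) (hk : 2 * (Cb + 4) + 7 ≤ k) (h : S8gIn Cb Cm k AD ADm AM pD d0) :
    Real.exp 2 ≤ ADm ∧ ADm ≤ s8gD2 Cb Cm k ∧ ((pD * (d0 ^ 8 + 1) : ℕ) : ℝ) ≤ s8gD2 Cb Cm k ∧
      (pD : ℝ) * AM ≤ s8gD2 Cb Cm k ∧ s8gDel Cb Cm k * (s8gD2 Cb Cm k + 1) ^ 2 ≤ 1 / 100 := by
  have hk1 : 1 ≤ k := by linarith
  obtain ⟨b1, b2, b3, b4, b5, b6⟩ := s8g_basic hCb hCm hk1
  refine ⟨?_, ?_, ?_, s8g_pDAM hCb hCm hk1 h, ?_⟩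
  · exact ((Real.exp_le_exp.2 (by linarith)).trans h.D_ge).trans h.D_le
  · refine h.Dm_le.trans ?_
    unfold s8gD2
    refine Real.exp_le_exp.2 ?_
    nlinarith
  · have h1 : ((d0 ^ 8 + 1 : ℕ) : ℝ) ≤ Real.exp (k ^ Cm) := by
      have h2 : d0 ^ 8 ≤ d0 ^ 30 := Nat.pow_le_pow_right h.d0_ge (by norm_num)
      have h3 : ((d0 ^ 8 : ℕ) : ℝ) ≤ ((d0 ^ 30 : ℕ) : ℝ) := by exact_mod_cast h2
      have h4 := Real.add_one_le_exp (k ^ Cm)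
      have h5 := h.L_le
      push_cast at h3 h5 ⊢
      linarith
    rw [Nat.cast_mul]
    unfold s8gD2
    calc (pD : ℝ) * ((d0 ^ 8 + 1 : ℕ) : ℝ) ≤ Real.exp (1 + k ^ Cb) * Real.exp (k ^ Cm) :=
          mul_le_mul (s8g_pD_le hk1 h) h1 (Nat.cast_nonneg _) (Real.exp_pos _).le
      _ = Real.exp (1 + k ^ Cb + k ^ Cm) := (Real.exp_add _ _).symm
      _ ≤ Real.exp ((Cb + 4) * k ^ (Cm + Cb)) := by
          refine Real.exp_le_exp.2 ?_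
          nlinarith
  · have hD1 : 1 ≤ s8gD2 Cb Cm k := Real.one_le_exp (by positivity)
    have e1 : (s8gD2 Cb Cm k + 1) ^ 2 ≤ (2 * s8gD2 Cb Cm k) ^ 2 :=
      pow_le_pow_left₀ (by linarith) (by linarith) 2
    have e2 : s8gDel Cb Cm k * (2 * s8gD2 Cb Cm k) ^ 2
        = 4 * Real.exp (-(k ^ (Cm + Cb + 1)) + ((Cb + 4) * k ^ (Cm + Cb) + (Cb + 4) * k ^ (Cm + Cb))) := by
      unfold s8gDel s8gD2
      rw [Real.exp_add, Real.exp_add]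
      ring
    have e3 : Real.exp (-(k ^ (Cm + Cb + 1)) + ((Cb + 4) * k ^ (Cm + Cb) + (Cb + 4) * k ^ (Cm + Cb)))
        ≤ Real.exp (-7) := by
      refine Real.exp_le_exp.2 ?_
      rw [b5]
      have : k ^ (Cm + Cb) * (2 * (Cb + 4) + 7) ≤ k ^ (Cm + Cb) * k := mul_le_mul_of_nonneg_left hk (by linarith)
      nlinarith
    have e4 : Real.exp (-7) ≤ 1 / 400 := by
      rw [Real.exp_neg, one_div]
      refine inv_anti₀ (by norm_num) ?_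
      have := s8g_exp_ge 7
      norm_num at this ⊢
      linarith
    calc s8gDel Cb Cm k * (s8gD2 Cb Cm k + 1) ^ 2 ≤ s8gDel Cb Cm k * (2 * s8gD2 Cb Cm k) ^ 2 :=
          mul_le_mul_of_nonneg_left e1 (Real.exp_pos _).le
      _ ≤ 4 * (1 / 400) := by rw [e2]; linarith
      _ = 1 / 100 := by norm_num

/-- LEAF P-S8G-SMALL: the error of the link is smaller than any prescribed power of the budget -/
theorem s8g_small (hCb : 1 ≤ Cb) (hCm : 0 < Cm) {Csm : ℝ} (hCsm : 0 ≤ Csm) (hk : 6 * (Cb + 4) + Csm + 9 ≤ k)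
    (h : S8gIn Cb Cm k AD ADm AM pD d0) (Dm' d : ℕ) (hDm : (Dm' : ℝ) ≤ s8gD2 Cb Cm k + 1)
    (hd : (d : ℝ) ≤ Real.log (s8gD2 Cb Cm k) + 4) :
    (Dm' : ℝ) ^ 4 * ((pD : ℝ) * AM) * s8gDel Cb Cm k * (80 * d + 8) ≤ ADm ^ (-Csm) := by
  have hk1 : 1 ≤ k := by linarith
  obtain ⟨b1, b2, b3, b4, b5, b6⟩ := s8g_basic hCb hCm hk1
  have hD1 : 1 ≤ s8gD2 Cb Cm k := Real.one_le_exp (by positivity)
  have hlog : Real.log (s8gD2 Cb Cm k) = (Cb + 4) * k ^ (Cm + Cb) := by unfold s8gD2; rw [Real.log_exp]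
  have e1 : (Dm' : ℝ) ^ 4 ≤ 16 * s8gD2 Cb Cm k ^ 4 := by
    calc (Dm' : ℝ) ^ 4 ≤ (2 * s8gD2 Cb Cm k) ^ 4 := pow_le_pow_left₀ (Nat.cast_nonneg _) (by linarith) 4
      _ = 16 * s8gD2 Cb Cm k ^ 4 := by ring
  have e2 := s8g_pDAM hCb hCm hk1 h
  have e3 : (80 * (d : ℝ) + 8) ≤ 328 * s8gD2 Cb Cm k := by
    have h1 : (Cb + 4) * k ^ (Cm + Cb) + 1 ≤ s8gD2 Cb Cm k := Real.add_one_le_exp _
    rw [hlog] at hd
    have h2 : 0 ≤ (Cb + 4) * k ^ (Cm + Cb) := by positivity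
    linarith
  have hAM : 0 ≤ (pD : ℝ) * AM := mul_nonneg (Nat.cast_nonneg _) (by linarith [h.M_ge])
  have hδ0 : 0 < s8gDel Cb Cm k := Real.exp_pos _
  have e4 : (Dm' : ℝ) ^ 4 * ((pD : ℝ) * AM) * s8gDel Cb Cm k * (80 * d + 8)
      ≤ 5248 * (s8gD2 Cb Cm k ^ 6 * s8gDel Cb Cm k) := by
    calc (Dm' : ℝ) ^ 4 * ((pD : ℝ) * AM) * s8gDel Cb Cm k * (80 * d + 8)
        ≤ (16 * s8gD2 Cb Cm k ^ 4) * s8gD2 Cb Cm k * s8gDel Cb Cm k * (328 * s8gD2 Cb Cm k) := by gcongr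
      _ = 5248 * (s8gD2 Cb Cm k ^ 6 * s8gDel Cb Cm k) := by ring
  have e5 : s8gD2 Cb Cm k ^ 6 * s8gDel Cb Cm k
      = Real.exp (6 * ((Cb + 4) * k ^ (Cm + Cb)) - k ^ (Cm + Cb + 1)) := by
    unfold s8gD2 s8gDel
    rw [← Real.exp_nat_mul, ← Real.exp_add]
    congr 1
  have e6 : (5248 : ℝ) ≤ Real.exp 9 := by
    have := s8g_exp_ge 9
    norm_num at this ⊢
    linarith
  have hADm0 : 0 < ADm := lt_of_lt_of_le (Real.exp_pos _) (h.D_ge.trans h.D_le)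
  have e7 : Real.exp (-(Csm * k ^ Cm)) ≤ ADm ^ (-Csm) := by
    have h1 : (Real.exp (k ^ Cm)) ^ (-Csm) ≤ ADm ^ (-Csm) :=
      Real.rpow_le_rpow_of_nonpos hADm0 h.Dm_le (by linarith)
    rw [← Real.exp_mul] at h1
    have e : k ^ Cm * -Csm = -(Csm * k ^ Cm) := by ring
    rwa [e] at h1
  refine e4.trans (le_trans ?_ e7)
  rw [e5]
  calc 5248 * Real.exp (6 * ((Cb + 4) * k ^ (Cm + Cb)) - k ^ (Cm + Cb + 1))
      ≤ Real.exp 9 * Real.exp (6 * ((Cb + 4) * k ^ (Cm + Cb)) - k ^ (Cm + Cb + 1)) :=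
        mul_le_mul_of_nonneg_right e6 (Real.exp_pos _).le
    _ = Real.exp (9 + (6 * ((Cb + 4) * k ^ (Cm + Cb)) - k ^ (Cm + Cb + 1))) := (Real.exp_add _ _).symm
    _ ≤ Real.exp (-(Csm * k ^ Cm)) := by
        refine Real.exp_le_exp.2 ?_
        rw [b5]
        have h1 : k ^ (Cm + Cb) * (6 * (Cb + 4) + Csm + 9) ≤ k ^ (Cm + Cb) * k :=
          mul_le_mul_of_nonneg_left hk (by linarith)
        have h2 : Csm * k ^ Cm ≤ Csm * k ^ (Cm + Cb) := mul_le_mul_of_nonneg_left b3 hCsm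
        nlinarith

/-- LEAF P-S8G-B: everything bounded by `s4a_pl Cq (log D2 + log Hp + log 1/δ)` is polynomial in `1 + k + P` -/
theorem s8g_B_le (Cq : ℕ) (hCb : 1 ≤ Cb) (hCm : 0 < Cm) (hk : 1 ≤ k) (P : ℕ) (hP : 1 ≤ P) {Hp : ℝ} (hHp1 : 1 ≤ Hp)
    (hHp : Hp ≤ Real.exp ((k + P) ^ Cm)) :
    s4a_pl Cq (Real.log (s8gD2 Cb Cm k) + Real.log Hp + Real.log (1 / s8gDel Cb Cm k))
      ≤ (1 + k + (P : ℝ)) ^ s8gC1 Cq Cb Cm := by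
  have hP' : (1 : ℝ) ≤ P := by exact_mod_cast hP
  set T : ℝ := 1 + k + (P : ℝ) with hT
  have hT3 : 3 ≤ T := by linarith
  have hT1 : 1 ≤ T := by linarith
  have hT0 : 0 < T := by linarith
  have hk0 : 0 ≤ k := by linarith
  have l1 : Real.log (s8gD2 Cb Cm k) = (Cb + 4) * k ^ (Cm + Cb) := by unfold s8gD2; rw [Real.log_exp]
  have l2 : Real.log (1 / s8gDel Cb Cm k) = k ^ (Cm + Cb + 1) := by
    unfold s8gDel
    rw [one_div, ← Real.exp_neg, Real.log_exp, neg_neg]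
  have l3 : Real.log Hp ≤ (k + P) ^ Cm := by
    have := Real.log_le_log (by linarith) hHp
    rwa [Real.log_exp] at this
  have l3' : 0 ≤ Real.log Hp := Real.log_nonneg hHp1
  set TE : ℝ := T ^ (Cm + Cb + 1) with hTE
  have t0 : 1 ≤ TE := Real.one_le_rpow hT1 (by linarith)
  have t1 : k ^ (Cm + Cb) ≤ TE :=
    (Real.rpow_le_rpow hk0 (by linarith) (by linarith)).trans (Real.rpow_le_rpow_of_exponent_le hT1 (by linarith))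
  have t2 : (k + P) ^ Cm ≤ TE :=
    (Real.rpow_le_rpow (by linarith) (by linarith) hCm.le).trans (Real.rpow_le_rpow_of_exponent_le hT1 (by linarith))
  have t3 : k ^ (Cm + Cb + 1) ≤ TE := Real.rpow_le_rpow hk0 (by linarith) (by linarith)
  have t4 : 0 ≤ k ^ (Cm + Cb) := Real.rpow_nonneg hk0 _
  have t5 : 0 ≤ k ^ (Cm + Cb + 1) := Real.rpow_nonneg hk0 _
  rw [l1, l2]
  have hx0 : 0 ≤ 1 + ((Cb + 4) * k ^ (Cm + Cb) + Real.log Hp + k ^ (Cm + Cb + 1)) := by positivity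
  have hx1 : 1 + ((Cb + 4) * k ^ (Cm + Cb) + Real.log Hp + k ^ (Cm + Cb + 1)) ≤ (Cb + 7) * TE := by
    have : (Cb + 4) * k ^ (Cm + Cb) ≤ (Cb + 4) * TE := mul_le_mul_of_nonneg_left t1 (by linarith)
    nlinarith
  set c1 : ℝ := (Cq : ℝ) * (Cb + 7) ^ Cq with hc1
  have hc10 : 0 ≤ c1 := by positivity
  have hlogT : 1 ≤ Real.log T := by
    rw [Real.le_log_iff_exp_le hT0]
    have := Real.exp_one_lt_d9
    linarith
  have hc1T : c1 ≤ T ^ c1 := by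
    rw [Real.rpow_def_of_pos hT0]
    have h1 : c1 + 1 ≤ Real.exp c1 := Real.add_one_le_exp _
    have h2 : Real.exp c1 ≤ Real.exp (Real.log T * c1) := Real.exp_le_exp.2 (by nlinarith)
    linarith
  unfold s4a_pl s8gC1
  calc (Cq : ℝ) * (1 + ((Cb + 4) * k ^ (Cm + Cb) + Real.log Hp + k ^ (Cm + Cb + 1))) ^ Cq
      ≤ (Cq : ℝ) * ((Cb + 7) * TE) ^ Cq :=
        mul_le_mul_of_nonneg_left (pow_le_pow_left₀ hx0 hx1 Cq) (Nat.cast_nonneg _)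
    _ = c1 * TE ^ Cq := by rw [mul_pow, hc1]; ring
    _ = c1 * T ^ ((Cm + Cb + 1) * (Cq : ℝ)) := by
        rw [hTE, ← Real.rpow_natCast, ← Real.rpow_mul hT0.le]
    _ ≤ T ^ c1 * T ^ ((Cm + Cb + 1) * (Cq : ℝ)) := mul_le_mul_of_nonneg_right hc1T (Real.rpow_nonneg hT0.le _)
    _ = T ^ (c1 + (Cm + Cb + 1) * (Cq : ℝ)) := (Real.rpow_add hT0 _ _).symm

theorem s8g_721 : (721 : ℝ) * 2 ^ 21 ≤ Real.exp 22 := by
  have := s8g_exp_ge 22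
  norm_num at this ⊢
  linarith

/-- `N0 + 1 ≤ 2^21 w²` -/
theorem s8g_N0 (p : S8Par) (d : ℕ) (hδs : p.δs = 1 / 1024) (hDm1 : 1 ≤ p.Dm) (w : ℝ) (hw1 : 1 ≤ w)
    (hlogDm : Real.log p.Dm ≤ w) (hd10 : (((10 * d : ℕ) : ℕ) : ℝ) ≤ 40 * w) :
    0 ≤ p.N0 d + 1 ∧ p.N0 d + 1 ≤ 2 ^ 21 * w ^ 2 := by
  have hDmR : (1 : ℝ) ≤ p.Dm := by exact_mod_cast hDm1
  have hlogDm0 : 0 ≤ Real.log p.Dm := Real.log_nonneg hDmR
  have hsl : (s8cLog p.Dm : ℝ) ≤ 11 * w := by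
    have hl11 : (1 : ℝ) / 11 ≤ Real.log 1.1 := by
      have := Real.one_sub_inv_le_log_of_pos (show (0 : ℝ) < 1.1 by norm_num)
      norm_num at this ⊢
      linarith
    have h0 : 0 ≤ Real.logb 1.1 (p.Dm : ℝ) := Real.logb_nonneg (by norm_num) hDmR
    have h1 : (s8cLog p.Dm : ℝ) ≤ Real.logb 1.1 (p.Dm : ℝ) := Nat.floor_le h0
    refine h1.trans ?_
    unfold Real.logb
    rw [div_le_iff₀ (by linarith)]
    nlinarith
  have hhar : ((harmonic p.Dm : ℚ) : ℝ) ≤ 2 * w := by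
    have := harmonic_le_one_add_log p.Dm
    linarith
  have hhar0 : 0 ≤ ((harmonic p.Dm : ℚ) : ℝ) := by
    have : (0 : ℚ) ≤ harmonic p.Dm := by
      unfold harmonic
      exact Finset.sum_nonneg fun i _ => by positivity
    exact_mod_cast this
  have e : (2 : ℝ) / (1 / 1024) = 2048 := by norm_num
  unfold S8Par.N0
  rw [hδs, e]
  constructor
  · positivity
  · have h1 : 10 * ((10 * d : ℕ) : ℝ) * ((harmonic p.Dm : ℚ) : ℝ) ≤ 10 * (40 * w) * (2 * w) := by gcongr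
    have h2 : w ≤ w ^ 2 := by nlinarith
    have h3 : (1 : ℝ) ≤ w ^ 2 := by nlinarith
    have h4 : 10 * (40 * w) * (2 * w) = 800 * w ^ 2 := by ring
    rw [h4] at h1
    have h5 : (2 : ℝ) ^ 21 = 2097152 := by norm_num
    rw [h5]
    linarith

/-- the comparison of the exponents -/
theorem s8g_expo (hCb : 1 ≤ Cb) (hCm : 0 < Cm) {Cg : ℝ} (hCg : 0 ≤ Cg) (u : ℝ) (hu1 : 1 ≤ u) :
    22 + (2 * (Cb + 4) + 2 * (Cm + Cb) * u) + Cg * u ^ Cg ≤ s8gC2 Cb Cm Cg * u ^ s8gC2 Cb Cm Cg := by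
  set C : ℝ := s8gC2 Cb Cm Cg with hC
  have hCdef : C = 22 + 2 * (Cb + 4) + 2 * (Cm + Cb) + Cg + 1 := rfl
  have hC1 : 1 ≤ C := by rw [hCdef]; linarith
  have p1 : 1 ≤ u ^ C := Real.one_le_rpow hu1 (by linarith)
  have p2 : u ≤ u ^ C := by
    calc u = u ^ (1 : ℝ) := (Real.rpow_one u).symm
      _ ≤ u ^ C := Real.rpow_le_rpow_of_exponent_le hu1 hC1
  have p3 : u ^ Cg ≤ u ^ C := Real.rpow_le_rpow_of_exponent_le hu1 (by rw [hCdef]; linarith)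
  have q1 : 2 * (Cm + Cb) * u ≤ 2 * (Cm + Cb) * u ^ C := mul_le_mul_of_nonneg_left p2 (by linarith)
  have q2 : Cg * u ^ Cg ≤ Cg * u ^ C := mul_le_mul_of_nonneg_left p3 hCg
  have q3 : 22 + 2 * (Cb + 4) ≤ (22 + 2 * (Cb + 4)) * u ^ C := le_mul_of_one_le_right (by linarith) p1
  have q4 : C * u ^ C = (22 + 2 * (Cb + 4)) * u ^ C + 2 * (Cm + Cb) * u ^ C + Cg * u ^ C + u ^ C := by
    rw [hCdef]; ring
  rw [q4]
  linarith

/-- LEAF P-S8G-X17: the constant of (17) is a small overhead -/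
theorem s8g_X17 (hCb : 1 ≤ Cb) (hCm : 0 < Cm) {Cg : ℝ} (hCg : 0 ≤ Cg) (hk : 1 ≤ k) (p : S8Par) (d : ℕ) (hδs : p.δs = 1 / 1024)
    (hDm1 : 1 ≤ p.Dm) (hDm : (p.Dm : ℝ) ≤ s8gD2 Cb Cm k + 1) (hd : (d : ℝ) ≤ Real.log (s8gD2 Cb Cm k) + 4) {Grow : ℝ}
    (hG0 : 0 ≤ Grow) (hG : Grow ≤ g0fun Cg k) : p.X17 d (9 * Grow) ≤ g0fun (s8gC2 Cb Cm Cg) k := by
  obtain ⟨b1, b2, b3, b4, b5, b6⟩ := s8g_basic hCb hCm hk
  have hD1 : 1 ≤ s8gD2 Cb Cm k := Real.one_le_exp (by positivity)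
  have hlog : Real.log (s8gD2 Cb Cm k) = (Cb + 4) * k ^ (Cm + Cb) := by unfold s8gD2; rw [Real.log_exp]
  set kE : ℝ := k ^ (Cm + Cb) with hkE
  set w : ℝ := 1 + (Cb + 4) * kE with hw
  have hw1 : 1 ≤ w := by
    have : 0 ≤ (Cb + 4) * kE := by positivity
    linarith
  have hDmR : (1 : ℝ) ≤ p.Dm := by exact_mod_cast hDm1
  have hlogDm : Real.log p.Dm ≤ w := by
    have h1 : Real.log p.Dm ≤ Real.log (2 * s8gD2 Cb Cm k) := Real.log_le_log (by linarith) (by linarith)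
    rw [Real.log_mul (by norm_num) (by linarith), hlog] at h1
    have h2 : Real.log 2 ≤ 1 := by
      have := Real.log_two_lt_d9
      linarith
    linarith
  have hd10 : (((10 * d : ℕ) : ℕ) : ℝ) ≤ 40 * w := by
    rw [hlog] at hd
    push_cast
    linarith
  obtain ⟨hN00, hN0⟩ := s8g_N0 p d hδs hDm1 w hw1 hlogDm hd10
  have hg1 := g0fun_ge_one Cg k hCg hk
  have hG80 : 80 * (9 * Grow) + 1 ≤ 721 * g0fun Cg k := by linarith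
  set u : ℝ := 1 + Real.log (2 * k) with hu
  have hlogk : Real.log k ≤ u := by
    have h1 : Real.log k ≤ Real.log (2 * k) := Real.log_le_log (by linarith) (by linarith)
    linarith
  have hu1 : 1 ≤ u := by
    have : 0 ≤ Real.log (2 * k) := Real.log_nonneg (by linarith)
    linarith
  have hkEle : kE ≤ Real.exp ((Cm + Cb) * u) := by
    rw [hkE, Real.rpow_def_of_pos (by linarith)]
    refine Real.exp_le_exp.2 ?_
    rw [mul_comm]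
    exact mul_le_mul_of_nonneg_left hlogk (by linarith)
  have hwle : w ≤ Real.exp ((Cb + 4) + (Cm + Cb) * u) := by
    rw [Real.exp_add]
    have h1 : (Cb + 4) + 1 ≤ Real.exp (Cb + 4) := Real.add_one_le_exp _
    calc w ≤ ((Cb + 4) + 1) * kE := by rw [hw]; nlinarith
      _ ≤ Real.exp (Cb + 4) * Real.exp ((Cm + Cb) * u) :=
          mul_le_mul h1 hkEle (by linarith) (Real.exp_pos _).le
  have hw2 : w ^ 2 ≤ Real.exp (2 * (Cb + 4) + 2 * (Cm + Cb) * u) := by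
    calc w ^ 2 ≤ (Real.exp ((Cb + 4) + (Cm + Cb) * u)) ^ 2 := pow_le_pow_left₀ (by linarith) hwle 2
      _ = Real.exp (2 * (Cb + 4) + 2 * (Cm + Cb) * u) := by
          rw [← Real.exp_nat_mul]
          congr 1
          push_cast
          ring
  have hgdef : g0fun Cg k = Real.exp (Cg * u ^ Cg) := rfl
  have hgdef2 : g0fun (s8gC2 Cb Cm Cg) k = Real.exp (s8gC2 Cb Cm Cg * u ^ s8gC2 Cb Cm Cg) := rfl
  unfold S8Par.X17
  calc (80 * (9 * Grow) + 1) * (p.N0 d + 1) ≤ (721 * g0fun Cg k) * (2 ^ 21 * w ^ 2) :=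
        mul_le_mul hG80 hN0 hN00 (by linarith)
    _ = (721 * 2 ^ 21) * w ^ 2 * g0fun Cg k := by ring
    _ ≤ Real.exp 22 * Real.exp (2 * (Cb + 4) + 2 * (Cm + Cb) * u) * Real.exp (Cg * u ^ Cg) := by
        rw [hgdef]
        exact mul_le_mul_of_nonneg_right (mul_le_mul s8g_721 hw2 (by positivity) (Real.exp_pos _).le)
          (Real.exp_pos _).le
    _ = Real.exp (22 + (2 * (Cb + 4) + 2 * (Cm + Cb) * u) + Cg * u ^ Cg) := by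
        rw [← Real.exp_add, ← Real.exp_add]
    _ ≤ g0fun (s8gC2 Cb Cm Cg) k := by
        rw [hgdef2]
        exact Real.exp_le_exp.2 (s8g_expo hCb hCm hCg u hu1)

end

end Claimed.Agent.R258
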