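/-
Row 258 (S0498), Sec. 8, layer (B).  Architect helper61.  File Hilb.lean: ALMOST ORTHOGONAL FINITE-DIMENSIONAL ROWS in a Hilbert space
(abstract core of Lemma 8.7, of the passage "projection -> exact coefficient subtotal" in Prop. 8.9, and of Lemma 8.11).
Mathlib only, NO paper needed.

LEAF P-S8-HILB = all `sorry`s of this file (auxiliary lemmas with prefix `s8h_`; do not change statements).
PLANS.  Write `f e = ∑_{m ∈ Me e} β e m • x e m`, `b e = (∑_{m ∈ Me e} ‖β e m‖²)^{1/2}`.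
* `s8h_synth`: `‖∑ f e‖² = ∑_e ‖f e‖² + ∑_{e ≠ f} ⟪f e, f f⟫` (real part; `inner_sum`, `sum_inner`, `Finset.sum_erase`...).  For `e ≠ f`:
  `|⟪f e, f f⟫| ≤ τ ov(e,f) (∑_m ‖β e m‖)(∑_m' ‖β f m'‖) ≤ τ ov(e,f) D b_e b_f ≤ τ D ov(e,f) (b_e² + b_f²)/2` (Cauchy-Schwarz `(∑‖β‖)² ≤ card * ∑‖β‖²`).
  Summing and using the symmetry of `ov`: `∑_{e≠f} ≤ τ D ∑_e b_e² ∑_f ov(e,f) ≤ τ D N ∑_e w_e b_e² ≤ (τ D N / c) ∑_e ‖f e‖²` by `hlow`.
* `s8h_bessel`: `g e = P_e F ∈ S e`;  `∑ ‖g e‖² = ∑ ⟪g e, F⟫ = ⟪∑ g e, F⟫ ≤ ‖∑ g e‖ ‖F‖ ≤ √(Cb ∑‖g e‖²) ‖F‖`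
  (`Submodule.starProjection` is idempotent and self-adjoint: `Submodule.inner_starProjection_left_eq_right`, `Submodule.starProjection_apply_mem`...).
* `s8h_proj_small`: `g = P O ∈ S`, `g = ∑_{m ∈ A} β m • x m`, `‖g‖² = ⟪g, O⟫` and `|⟪g, O⟫| ≤ τ w (∑_A ‖β‖)(∑_B ‖α‖) ≤ τ w √(card A) b ∑_B‖α‖`, `b ≤ ‖g‖/√(c w)`.
-/
import Mathlib

set_option autoImplicit false

namespace Claimed.Agent.R258

open scoped BigOperators
open Classical

noncomputable section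

variable {X : Type*} [NormedAddCommGroup X] [InnerProductSpace ℂ X]

/-- bilinear bound for two finite combinations with uniformly small cross inner products -/
theorem s8h_inner_sum_le (A B : Finset ℕ) (x y : ℕ → X) (β α : ℕ → ℂ) (t : ℝ)
    (hcross : ∀ m ∈ A, ∀ m' ∈ B, ‖inner ℂ (x m) (y m')‖ ≤ t) :
    ‖inner ℂ (∑ m ∈ A, β m • x m) (∑ m' ∈ B, α m' • y m')‖
      ≤ t * ((∑ m ∈ A, ‖β m‖) * ∑ m' ∈ B, ‖α m'‖) := by
  rw [sum_inner]
  simp_rw [inner_sum, inner_smul_left, inner_smul_right]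
  calc ‖∑ m ∈ A, ∑ m' ∈ B, (starRingEnd ℂ) (β m) * (α m' * inner ℂ (x m) (y m'))‖
      ≤ ∑ m ∈ A, ∑ m' ∈ B, ‖(starRingEnd ℂ) (β m) * (α m' * inner ℂ (x m) (y m'))‖ :=
        (norm_sum_le _ _).trans (Finset.sum_le_sum fun m _ => norm_sum_le _ _)
    _ ≤ ∑ m ∈ A, ∑ m' ∈ B, ‖β m‖ * ‖α m'‖ * t := by
        refine Finset.sum_le_sum fun m hm => Finset.sum_le_sum fun m' hm' => ?_
        rw [norm_mul, norm_mul, RCLike.norm_conj, ← mul_assoc]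
        exact mul_le_mul_of_nonneg_left (hcross m hm m' hm') (by positivity)
    _ = t * ((∑ m ∈ A, ‖β m‖) * ∑ m' ∈ B, ‖α m'‖) := by
        rw [Finset.sum_mul_sum, Finset.mul_sum]
        refine Finset.sum_congr rfl fun m _ => ?_
        rw [Finset.mul_sum]
        exact Finset.sum_congr rfl fun m' _ => by ring

/-- `‖P F‖² = Re ⟪P F, F⟫` -/
theorem s8h_norm_sq_proj (S : Submodule ℂ X) [S.HasOrthogonalProjection] (F : X) :
    ‖S.starProjection F‖ ^ 2 = RCLike.re (inner ℂ (S.starProjection F) F) := by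
  have h1 : inner ℂ (S.starProjection F) (F - S.starProjection F) = 0 :=
    Submodule.inner_right_of_mem_orthogonal (Submodule.starProjection_apply_mem _ _)
      (Submodule.sub_starProjection_mem_orthogonal _)
  rw [inner_sub_right, sub_eq_zero] at h1
  rw [h1, inner_self_eq_norm_sq]

/-- **two-sided almost orthogonality** of rows with small cross inner products.
`w e` = weight (length of the cell of the row), `ov e f` = overlap weight, `c` = private lower bound, `D` = labels per row,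
`N` = overlap multiplicity.  (`hN : 0 ≤ N` added by the prover: for `N < 0`, `w = ov = 0` the right side would be negative.) -/
theorem s8h_synth {ι : Type*} [Fintype ι] (Me : ι → Finset ℕ) (x : ι → ℕ → X) (w : ι → ℝ) (ov : ι → ι → ℝ)
    (c τ D N : ℝ) (hc : 0 < c) (hτ : 0 ≤ τ) (hN : 0 ≤ N) (hw : ∀ e, 0 ≤ w e) (hov : ∀ e f, 0 ≤ ov e f)
    (hsymm : ∀ e f, ov e f = ov f e)
    (hlow : ∀ e (β : ℕ → ℂ), c * w e * ∑ m ∈ Me e, ‖β m‖ ^ 2 ≤ ‖∑ m ∈ Me e, β m • x e m‖ ^ 2)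
    (hcross : ∀ e f, e ≠ f → ∀ m ∈ Me e, ∀ m' ∈ Me f, ‖inner ℂ (x e m) (x f m')‖ ≤ τ * ov e f)
    (hcard : ∀ e, ((Me e).card : ℝ) ≤ D) (hsum : ∀ e, ∑ f, ov e f ≤ N * w e) (β : ι → ℕ → ℂ) :
    |‖∑ e, ∑ m ∈ Me e, β e m • x e m‖ ^ 2 - ∑ e, ‖∑ m ∈ Me e, β e m • x e m‖ ^ 2|
      ≤ τ * D * N / c * ∑ e, ‖∑ m ∈ Me e, β e m • x e m‖ ^ 2 := by
  rcases isEmpty_or_nonempty ι with hι | hι
  · simp
  obtain ⟨e₀⟩ := hι
  have hD : 0 ≤ D := (Nat.cast_nonneg _).trans (hcard e₀)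
  obtain ⟨f, hf⟩ : ∃ f : ι → X, f = fun e => ∑ m ∈ Me e, β e m • x e m := ⟨_, rfl⟩
  have hfe : ∀ e, ∑ m ∈ Me e, β e m • x e m = f e := fun e => by rw [hf]
  simp_rw [hfe]
  obtain ⟨b2, hb2⟩ : ∃ b2 : ι → ℝ, b2 = fun e => ∑ m ∈ Me e, ‖β e m‖ ^ 2 := ⟨_, rfl⟩
  obtain ⟨b1, hb1⟩ : ∃ b1 : ι → ℝ, b1 = fun e => ∑ m ∈ Me e, ‖β e m‖ := ⟨_, rfl⟩
  have hb2nn : ∀ e, 0 ≤ b2 e := by
    intro e
    rw [hb2]
    exact Finset.sum_nonneg fun m _ => by positivity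
  have hcs : ∀ e, b1 e ^ 2 ≤ D * b2 e := by
    intro e
    have h1 := sq_sum_le_card_mul_sum_sq (s := Me e) (f := fun m => ‖β e m‖)
    have h2 := mul_le_mul_of_nonneg_right (hcard e) (hb2nn e)
    rw [hb2] at h2
    rw [hb1, hb2]
    exact h1.trans h2
  have hlow' : ∀ e, c * w e * b2 e ≤ ‖f e‖ ^ 2 := by
    intro e
    rw [hb2, hf]
    exact hlow e (β e)
  have hin : ∀ e e', e ≠ e' → ‖inner ℂ (f e) (f e')‖ ≤ τ * ov e e' * (b1 e * b1 e') := by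
    intro e e' hne
    rw [hf, hb1]
    exact s8h_inner_sum_le (Me e) (Me e') (x e) (x e') (β e) (β e') (τ * ov e e')
      (hcross e e' hne)
  have hexp : ‖∑ e, f e‖ ^ 2 = ∑ e, ∑ e', RCLike.re (inner ℂ (f e) (f e')) := by
    rw [← inner_self_eq_norm_sq (𝕜 := ℂ), sum_inner, map_sum]
    refine Finset.sum_congr rfl fun e _ => ?_
    rw [inner_sum, map_sum]
  have hdiff : ‖∑ e, f e‖ ^ 2 - ∑ e, ‖f e‖ ^ 2
      = ∑ e, ∑ e', (if e = e' then 0 else RCLike.re (inner ℂ (f e) (f e'))) := by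
    rw [hexp, ← Finset.sum_sub_distrib]
    refine Finset.sum_congr rfl fun e _ => ?_
    have h1 : ‖f e‖ ^ 2 = ∑ e', (if e = e' then RCLike.re (inner ℂ (f e) (f e')) else 0) := by
      rw [Finset.sum_ite_eq, if_pos (Finset.mem_univ e), inner_self_eq_norm_sq]
    rw [h1, ← Finset.sum_sub_distrib]
    refine Finset.sum_congr rfl fun e' _ => ?_
    split_ifs <;> simp
  have hr : ∀ e e', |(if e = e' then 0 else RCLike.re (inner ℂ (f e) (f e')))|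
      ≤ τ * D / 2 * (ov e e' * b2 e + ov e e' * b2 e') := by
    intro e e'
    have h0 : 0 ≤ ov e e' * b2 e + ov e e' * b2 e' :=
      add_nonneg (mul_nonneg (hov e e') (hb2nn e)) (mul_nonneg (hov e e') (hb2nn e'))
    split_ifs with h
    · rw [abs_zero]
      positivity
    · calc |RCLike.re (inner ℂ (f e) (f e'))| ≤ ‖inner ℂ (f e) (f e')‖ := RCLike.abs_re_le_norm _
        _ ≤ τ * ov e e' * (b1 e * b1 e') := hin e e' h
        _ ≤ τ * ov e e' * (D * (b2 e + b2 e') / 2) := by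
            refine mul_le_mul_of_nonneg_left ?_ (mul_nonneg hτ (hov e e'))
            nlinarith [hcs e, hcs e', sq_nonneg (b1 e - b1 e')]
        _ = _ := by ring
  have hS : ∑ e, ∑ e', ov e e' * b2 e' = ∑ e, ∑ e', ov e e' * b2 e := by
    rw [Finset.sum_comm]
    exact Finset.sum_congr rfl fun e _ => Finset.sum_congr rfl fun e' _ => by rw [hsymm]
  have hS1 : ∑ e, ∑ e', ov e e' * b2 e ≤ N * ∑ e, w e * b2 e := by
    rw [Finset.mul_sum]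
    refine Finset.sum_le_sum fun e _ => ?_
    rw [← Finset.sum_mul, ← mul_assoc]
    exact mul_le_mul_of_nonneg_right (hsum e) (hb2nn e)
  have hS2 : ∑ e, w e * b2 e ≤ (∑ e, ‖f e‖ ^ 2) / c := by
    rw [le_div_iff₀ hc, Finset.sum_mul]
    refine Finset.sum_le_sum fun e _ => ?_
    have := hlow' e
    linarith
  rw [hdiff]
  calc |∑ e, ∑ e', (if e = e' then 0 else RCLike.re (inner ℂ (f e) (f e')))|
      ≤ ∑ e, ∑ e', |(if e = e' then 0 else RCLike.re (inner ℂ (f e) (f e')))| :=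
        (Finset.abs_sum_le_sum_abs _ _).trans
          (Finset.sum_le_sum fun e _ => Finset.abs_sum_le_sum_abs _ _)
    _ ≤ ∑ e, ∑ e', τ * D / 2 * (ov e e' * b2 e + ov e e' * b2 e') :=
        Finset.sum_le_sum fun e _ => Finset.sum_le_sum fun e' _ => hr e e'
    _ = τ * D * ∑ e, ∑ e', ov e e' * b2 e := by
        simp_rw [← Finset.mul_sum, Finset.sum_add_distrib]
        rw [hS]
        ring
    _ ≤ τ * D * (N * ((∑ e, ‖f e‖ ^ 2) / c)) :=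
        mul_le_mul_of_nonneg_left (hS1.trans (mul_le_mul_of_nonneg_left hS2 hN))
          (mul_nonneg hτ hD)
    _ = τ * D * N / c * ∑ e, ‖f e‖ ^ 2 := by ring

/-- **Bessel from synthesis** (duality). -/
theorem s8h_bessel {ι : Type*} [Fintype ι] (S : ι → Submodule ℂ X) [∀ e, (S e).HasOrthogonalProjection] (Cb : ℝ)
    (hC : 0 ≤ Cb) (hsyn : ∀ f : ι → X, (∀ e, f e ∈ S e) → ‖∑ e, f e‖ ^ 2 ≤ Cb * ∑ e, ‖f e‖ ^ 2) (F : X) :
    ∑ e, ‖(S e).starProjection F‖ ^ 2 ≤ Cb * ‖F‖ ^ 2 := by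
  obtain ⟨g, hg⟩ : ∃ g : ι → X, g = fun e => (S e).starProjection F := ⟨_, rfl⟩
  have hge : ∀ e, (S e).starProjection F = g e := fun e => by rw [hg]
  simp_rw [hge]
  have hmem : ∀ e, g e ∈ S e := by
    intro e
    rw [hg]
    exact Submodule.starProjection_apply_mem _ _
  have hin : ∀ e, ‖g e‖ ^ 2 = RCLike.re (inner ℂ (g e) F) := by
    intro e
    rw [hg]
    exact s8h_norm_sq_proj (S e) F
  obtain ⟨G, hG⟩ : ∃ G : ℝ, G = ∑ e, ‖g e‖ ^ 2 := ⟨_, rfl⟩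
  have hG0 : 0 ≤ G := by
    rw [hG]
    exact Finset.sum_nonneg fun e _ => by positivity
  have h1 : G ≤ ‖∑ e, g e‖ * ‖F‖ := by
    rw [hG]
    simp_rw [hin]
    rw [← map_sum, ← sum_inner]
    exact (RCLike.re_le_norm _).trans (norm_inner_le_norm _ _)
  have h2 := hsyn g hmem
  rw [← hG] at h2 ⊢
  have h3 : G * G ≤ G * (Cb * ‖F‖ ^ 2) := by
    calc G * G = G ^ 2 := (sq G).symm
      _ ≤ (‖∑ e, g e‖ * ‖F‖) ^ 2 := pow_le_pow_left₀ hG0 h1 2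
      _ = ‖∑ e, g e‖ ^ 2 * ‖F‖ ^ 2 := mul_pow _ _ _
      _ ≤ Cb * G * ‖F‖ ^ 2 := mul_le_mul_of_nonneg_right h2 (by positivity)
      _ = G * (Cb * ‖F‖ ^ 2) := by ring
  rcases hG0.eq_or_lt with h | h
  · rw [← h]
    positivity
  · exact le_of_mul_le_mul_left h3 h

/-- **the projection of an almost orthogonal outside subtotal is small.** -/
theorem s8h_proj_small (S : Submodule ℂ X) [S.HasOrthogonalProjection] (A B : Finset ℕ) (x y : ℕ → X) (α : ℕ → ℂ)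
    (w c τ : ℝ) (hc : 0 < c) (hw : 0 < w) (hτ : 0 ≤ τ)
    (hS : ∀ g ∈ S, ∃ β : ℕ → ℂ, g = ∑ m ∈ A, β m • x m)
    (hlow : ∀ β : ℕ → ℂ, c * w * ∑ m ∈ A, ‖β m‖ ^ 2 ≤ ‖∑ m ∈ A, β m • x m‖ ^ 2)
    (hcross : ∀ m ∈ A, ∀ m' ∈ B, ‖inner ℂ (x m) (y m')‖ ≤ τ * w) :
    ‖S.starProjection (∑ m' ∈ B, α m' • y m')‖ ≤ τ * Real.sqrt (w * A.card / c) * ∑ m' ∈ B, ‖α m'‖ := by
  obtain ⟨O, hO⟩ : ∃ O : X, O = ∑ m' ∈ B, α m' • y m' := ⟨_, rfl⟩
  rw [← hO]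
  obtain ⟨g, hg⟩ : ∃ g : X, g = S.starProjection O := ⟨_, rfl⟩
  have hgg : ‖g‖ ^ 2 = RCLike.re (inner ℂ g O) := by
    rw [hg]
    exact s8h_norm_sq_proj S O
  have hmem : g ∈ S := by
    rw [hg]
    exact Submodule.starProjection_apply_mem _ _
  rw [← hg]
  obtain ⟨β, hβ⟩ := hS g hmem
  obtain ⟨b1, hb1⟩ : ∃ b1 : ℝ, b1 = ∑ m ∈ A, ‖β m‖ := ⟨_, rfl⟩
  obtain ⟨b2, hb2⟩ : ∃ b2 : ℝ, b2 = ∑ m ∈ A, ‖β m‖ ^ 2 := ⟨_, rfl⟩
  obtain ⟨a1, ha1⟩ : ∃ a1 : ℝ, a1 = ∑ m' ∈ B, ‖α m'‖ := ⟨_, rfl⟩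
  rw [← ha1]
  have hb1nn : 0 ≤ b1 := by
    rw [hb1]
    exact Finset.sum_nonneg fun m _ => norm_nonneg _
  have hb2nn : 0 ≤ b2 := by
    rw [hb2]
    exact Finset.sum_nonneg fun m _ => by positivity
  have ha1nn : 0 ≤ a1 := by
    rw [ha1]
    exact Finset.sum_nonneg fun m _ => norm_nonneg _
  have hin : ‖inner ℂ g O‖ ≤ τ * w * (b1 * a1) := by
    rw [hβ, hO, hb1, ha1]
    exact s8h_inner_sum_le A B x y β α (τ * w) hcross
  have hcs : b1 ^ 2 ≤ A.card * b2 := by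
    rw [hb1, hb2]
    exact sq_sum_le_card_mul_sum_sq
  have hl : c * w * b2 ≤ ‖g‖ ^ 2 := by
    rw [hb2, hβ]
    exact hlow β
  obtain ⟨sq, hsq⟩ : ∃ sq : ℝ, sq = Real.sqrt (w * A.card / c) := ⟨_, rfl⟩
  rw [← hsq]
  have hsq0 : 0 ≤ sq := by
    rw [hsq]
    exact Real.sqrt_nonneg _
  have hsq2 : sq ^ 2 = w * A.card / c := by
    rw [hsq]
    exact Real.sq_sqrt (by positivity)
  have hwb : w * b1 ≤ sq * ‖g‖ := by
    refine le_of_pow_le_pow_left₀ two_ne_zero (by positivity) ?_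
    rw [mul_pow, mul_pow, hsq2]
    have h1 : w * b2 ≤ ‖g‖ ^ 2 / c := by
      rw [le_div_iff₀ hc]
      linarith
    calc w ^ 2 * b1 ^ 2 ≤ w ^ 2 * (A.card * b2) :=
          mul_le_mul_of_nonneg_left hcs (by positivity)
      _ = w * A.card * (w * b2) := by ring
      _ ≤ w * A.card * (‖g‖ ^ 2 / c) := mul_le_mul_of_nonneg_left h1 (by positivity)
      _ = w * A.card / c * ‖g‖ ^ 2 := by ring
  have h3 : ‖g‖ * ‖g‖ ≤ ‖g‖ * (τ * sq * a1) := by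
    calc ‖g‖ * ‖g‖ = ‖g‖ ^ 2 := (pow_two ‖g‖).symm
      _ = RCLike.re (inner ℂ g O) := hgg
      _ ≤ ‖inner ℂ g O‖ := RCLike.re_le_norm _
      _ ≤ τ * w * (b1 * a1) := hin
      _ = τ * a1 * (w * b1) := by ring
      _ ≤ τ * a1 * (sq * ‖g‖) := mul_le_mul_of_nonneg_left hwb (by positivity)
      _ = ‖g‖ * (τ * sq * a1) := by ring
  rcases (norm_nonneg g).eq_or_lt with h | h
  · rw [← h]
    positivity
  · exact le_of_mul_le_mul_left h3 h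

end

end Claimed.Agent.R258
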