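/-
Row 258 (S0498), Sec. 8, layer (B).  Architect helper61.  File Rep.lean: **Lemma 8.10** (hereditary representatives, display (25)) and **Lemma 8.11** (component sizes, display (27)).
NO paper needed.   Black boxes: S8/{Graph,Rows}.lean, S8c/{Good,Hered}.lean.

LEAVES (auxiliary lemmas with prefix `s8p_`):   P-S8-REP = `exists_rep`;    P-S8-SIZE = `minC_spec`, `g27`.
PLANS.
* `exists_rep`: for each `(l,G,h)` with `h ≤ Js` take `rep'` from `S8cTower.hereditary (tower_valid hV hp l G) h`; `rep l G h J m = rep' ⟨J,_⟩ m` if `J ∈ pres G` (`dite`), else `m`.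
  The first two clauses of `G25` are the two clauses of `hereditary` (all predicates of `towerR` are definitionally those of `tower`: `S8cTower.comap`).
  Third clause (25).  W.l.o.g. `I' ≤ I` (the cells contain `x`: `cell_le_or_le_of_mem`; the statement is symmetric: `n ↦ -n`, `max_comm`, `abs_sub_comm`-type rewriting).  `J = s8Pre I`, `J' = s8Pre I'`, `J' ≤ J` (`s8g_pre_mono`).
  `a = rep J m`, `a' = rep J' m'`.  By the second clause (contrapositive) `¬ conn (thrCur J') J' h m m'`.  `a ∈ cE J (h-10) m`: `conn (thrPre J) J (h-10) m a`, which persists to `conn (thrCur J') J' h m a` (`conn_mono`);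
  `a' ∈ cE J' (h-10) m'` gives `conn (thrCur J') J' h m' a'`.  So `a, a'` are not adjacent for `thrCur J'` at `(J',h)` (else `m ~ a ~ a' ~ m'`), both are in `lstJ J'`.
  `nonadj_lower` at `x ∈ I' ⊆ J'`: `thrCur J' / 2 < |…|`, and `thrCur J' = Xi 2^(3K)/|J'| ≥ Xi/|I'|` (`s8g_len_block`), `max(1/|I|, 1/|I'|) = 1/|I'|`.
* `g27`, first part.  `J = s8Pre I`, `U = s8Frz I`, `F = cF J h m`, `parts = minC J h m` = partition of `F` into minimal CURRENT components (`minC_spec`), pairwise `Cross` on `I` by `pair_small_cur` (height `0`).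
  `cell_orth` with `β = alpha` on core labels, `0` elsewhere: `∑_𝒟 ‖A_𝒟‖² ≤ (1 - Ds^(-190))⁻¹ ‖A_F‖² ≤ 1.01 ‖A_F‖²`, `A_F = sub (F ∩ coreL) = sub F - sub (F ∩ sideL)`.
  `proj_sub` (`𝒟 = F`; modes outside `F` are not `conn` at height `h`: `pair_small_cur`): `‖sub F‖ ≤ ‖proj F Ztil‖ + Ds^(-190) √|I|`.
  Floors: `∑_𝒟 (Ds^(-30) ∑_{𝒟 ∩ core} ‖α‖)² ≤ Ds^(-60) (∑ ‖α‖)² ≤ Ds^(-58)`.  `(x+y)² ≤ 2x²+2y²` repeatedly; all vectors are supported on `I`, so `n2 I z = ‖z‖/√|I|` (`restr_sub`, `s8a_restr_cproj`).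
  Total: `sig2 ≤ 2·1.01·(2(2‖PZ̃‖² + 2 Ds^(-380)) + 2‖V_F‖²) + 2 Ds^(-58) ≤ 10 (…)` in normalized norms.
  Second part: `cell_orth` with `parts` = all CURRENT components at height `h`, `β = alpha` on side labels: `∑_F ‖V_F‖² ≤ (1 - Ds^(-190))⁻¹ ‖Vc‖² ≤ 2 ‖Vc‖²`.
-/
import Claimed.Agent.R258.S8.Rows
import Claimed.Agent.R258.S8c.Good
import Claimed.Agent.R258.S8c.Hered

set_option autoImplicit false
open MeasureTheory

namespace Claimed.Agent.R258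

open scoped BigOperators
open Classical

noncomputable section

namespace ModeSys

variable {d : ℕ} {M : ModeSys d} {p : S8Par} {G0 : ℝ}

/-- display (25), the case `I' ≤ I` -/
theorem s8p_25_aux (hV : M.Valid p G0) (hp : p.Ok d) {l : Fin 4} {G h : ℕ} {rep : Cell → ℕ → ℕ}
    (h1 : ∀ J ∈ M.pres p G, ∀ m ∈ M.lstJ p l G J, M.good p l G J h m → rep J m ∈ M.cE p l G J (h - 10) m)
    (h2 : ∀ J ∈ M.pres p G, ∀ J' ∈ M.pres p G, J' ≤ J → ∀ m ∈ M.lstJ p l G J, ∀ m' ∈ M.lstJ p l G J',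
      M.good p l G J h m → M.good p l G J' h m' → M.typ p l G J h m = M.typ p l G J' h m' →
      M.conn p l G (p.thrCur J') J' h m m' → rep J m = rep J' m')
    {I I' : Cell} (hu : (G, I) ∈ M.uses) (hu' : (G, I') ∈ M.uses) (hl : s8Live p.K M.root I)
    (hl' : s8Live p.K M.root I') (hle : I' ≤ I) {m m' : ℕ} (hm : m ∈ M.lstJ p l G (s8Pre p.K M.root I))
    (hm' : m' ∈ M.lstJ p l G (s8Pre p.K M.root I')) (hg : M.good p l G (s8Pre p.K M.root I) h m)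
    (hg' : M.good p l G (s8Pre p.K M.root I') h m')
    (hty : M.typ p l G (s8Pre p.K M.root I) h m = M.typ p l G (s8Pre p.K M.root I') h m')
    (hne : rep (s8Pre p.K M.root I) m ≠ rep (s8Pre p.K M.root I') m') {x : ℝ} (hx : x ∈ I'.set)
    (n : Fin d → ℤ) (hn : ∀ i, |n i| ≤ (p.E h : ℤ)) :
    p.Xi / 2 * I'.len⁻¹ < |M.om (rep (s8Pre p.K M.root I) m) x - M.om (rep (s8Pre p.K M.root I') m') x
            + (M.gauge l G).dotv n / 6 ^ h| := by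
  have hK := hp.K_pos
  have hA : 6 ≤ p.A0 := hp.stab.A0_ge
  set J := s8Pre p.K M.root I with hJdef
  set J' := s8Pre p.K M.root I' with hJ'def
  have hJ : J ∈ M.pres p G := mem_pres.2 ⟨I, hu, hl, rfl⟩
  have hJ' : J' ∈ M.pres p G := mem_pres.2 ⟨I', hu', hl', rfl⟩
  have hJJ : J' ≤ J := s8g_pre_mono hK hl hl' hle
  have hnc : ¬ M.conn p l G (p.thrCur J') J' h m m' := fun hc => hne (h2 J hJ J' hJ' hJJ m hm m' hm' hg hg' hty hc)
  obtain ⟨ha1, ha2⟩ := S8cTower.s8c_mem_E.1 (h1 J hJ m hm hg)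
  obtain ⟨hb1, hb2⟩ := S8cTower.s8c_mem_E.1 (h1 J' hJ' m' hm' hg')
  have hsub := lstJ_mono hV hK l hJ hJJ
  have hca : M.conn p l G (p.thrCur J') J' h m (rep J m) :=
    conn_mono hA hsub hJJ ((s8g_thrPre_mono p hJJ).trans (s8g_thrPre_le_cur p J')) (Nat.sub_le _ _) ha2
  have hcb : M.conn p l G (p.thrCur J') J' h m' (rep J' m') :=
    conn_mono hA (Finset.Subset.refl _) le_rfl (s8g_thrPre_le_cur p J') (Nat.sub_le _ _) hb2
  have hnadj : ¬ M.adj p l G (p.thrCur J') J' h (rep J m) (rep J' m') := by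
    intro hadj
    have h3 := conn_adj_trans hca (hsub ha1) hb1 hadj
    exact hnc (conn_equiv.trans h3 (conn_equiv.symm hcb))
  have hxJ : x ∈ Set.Icc J'.left J'.right :=
    Set.Ico_subset_Icc_self (cell_set_subset (s8g_le_pre p.K M.root I') hx)
  have h4 := nonadj_lower hV hp (pres_cert hK hJ') (s8g_thrPre_le_cur p J') (hsub ha1) hb1 hnadj n hn hxJ
  refine lt_of_le_of_lt ?_ h4
  have h5 := (s8g_len_block hK hl').1
  have hI' := cell_len_pos I'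
  have hJ'l := cell_len_pos J'
  unfold S8Par.thrCur
  rw [div_mul_eq_mul_div, ← div_eq_mul_inv]
  refine div_le_div_of_nonneg_right ?_ (by norm_num)
  rw [div_le_div_iff₀ hI' hJ'l]
  have := s8g_Xi_nonneg p
  nlinarith

/-- **Lemma 8.10.** -/
theorem exists_rep (hV : M.Valid p G0) (hp : p.Ok d) : ∃ rep : Fin 4 → ℕ → ℕ → Cell → ℕ → ℕ, M.G25 p rep := by
  have H : ∀ (l : Fin 4) (G h : ℕ), ∃ rep' : {J : Cell // J ∈ M.pres p G} → ℕ → ℕ, h ≤ p.Js →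
      (∀ q m, m ∈ (M.towerR p l G).lst q → (M.towerR p l G).Good 10 q h m →
        rep' q m ∈ (M.towerR p l G).E q (h - 10) m) ∧
      ∀ q q' m m', (M.towerR p l G).anc q q' → m ∈ (M.towerR p l G).lst q → m' ∈ (M.towerR p l G).lst q' →
        (M.towerR p l G).Good 10 q h m → (M.towerR p l G).Good 10 q' h m' →
        (M.towerR p l G).typ 10 q h m = (M.towerR p l G).typ 10 q' h m' → (M.towerR p l G).cur q' h m m' →
        rep' q m = rep' q' m' := by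
    intro l G h
    by_cases hh : h ≤ p.Js
    · obtain ⟨rep', h1, h2⟩ := S8cTower.hereditary (tower_valid hV hp l G) h hh
      exact ⟨rep', fun _ => ⟨h1, h2⟩⟩
    · exact ⟨fun _ m => m, fun h' => absurd h' hh⟩
  choose rep' hrep' using H
  refine ⟨fun l G h J m => if hJ : J ∈ M.pres p G then rep' l G h ⟨J, hJ⟩ m else m, ?_⟩
  intro l G h hh
  obtain ⟨h1, h2⟩ := hrep' l G h hh
  have c1 : ∀ J ∈ M.pres p G, ∀ m ∈ M.lstJ p l G J, M.good p l G J h m →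
      (if hJ : J ∈ M.pres p G then rep' l G h ⟨J, hJ⟩ m else m) ∈ M.cE p l G J (h - 10) m := by
    intro J hJ m hm hg
    rw [dif_pos hJ]
    exact h1 ⟨J, hJ⟩ m hm hg
  have c2 : ∀ J ∈ M.pres p G, ∀ J' ∈ M.pres p G, J' ≤ J → ∀ m ∈ M.lstJ p l G J, ∀ m' ∈ M.lstJ p l G J',
      M.good p l G J h m → M.good p l G J' h m' → M.typ p l G J h m = M.typ p l G J' h m' →
      M.conn p l G (p.thrCur J') J' h m m' →
      (if hJ : J ∈ M.pres p G then rep' l G h ⟨J, hJ⟩ m else m) =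
        (if hJ : J' ∈ M.pres p G then rep' l G h ⟨J', hJ⟩ m' else m') := by
    intro J hJ J' hJ' hle m hm m' hm' hg hg' hty hc
    rw [dif_pos hJ, dif_pos hJ']
    exact h2 ⟨J, hJ⟩ ⟨J', hJ'⟩ m m' hle hm hm' hg hg' hty hc
  refine ⟨c1, c2, ?_⟩
  intro I I' hu hu' hl hl' m hm m' hm' hg hg' hty hne x hx n hn
  rcases cell_le_or_le_of_mem hx.1 hx.2 with hle | hle
  · -- `I ≤ I'`
    have hmax : max I.len⁻¹ I'.len⁻¹ = I.len⁻¹ :=
      max_eq_left (inv_anti₀ (cell_len_pos I) (cell_len_le_of_le hle))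
    rw [hmax]
    have key := s8p_25_aux hV hp (rep := fun J m => if hJ : J ∈ M.pres p G then rep' l G h ⟨J, hJ⟩ m else m)
      c1 c2 hu' hu hl' hl hle hm' hm hg' hg hty.symm (Ne.symm hne) hx.1 (-n) (fun i => by simpa using hn i)
    have e : (M.gauge l G).dotv (-n) = -(M.gauge l G).dotv n := by
      simp [S8Gauge.dotv, Finset.sum_neg_distrib]
    rw [e, ← abs_neg] at key
    refine lt_of_lt_of_eq key ?_
    congr 1
    ring
  · -- `I' ≤ I`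
    have hmax : max I.len⁻¹ I'.len⁻¹ = I'.len⁻¹ :=
      max_eq_right (inv_anti₀ (cell_len_pos I') (cell_len_le_of_le hle))
    rw [hmax]
    exact s8p_25_aux hV hp (rep := fun J m => if hJ : J ∈ M.pres p G then rep' l G h ⟨J, hJ⟩ m else m)
      c1 c2 hu hu' hl hl' hle hm hm' hg hg' hty hne hx.2 n hn

theorem s8p_mem_cF {l : Fin 4} {G : ℕ} {J : Cell} {h m a : ℕ} :
    a ∈ M.cF p l G J h m ↔ a ∈ M.lstJ p l G J ∧ M.conn p l G (p.thrCur J) J h m a :=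
  Finset.mem_filter

theorem s8p_cF_congr {l : Fin 4} {G : ℕ} {J : Cell} {h m a : ℕ} (hc : M.conn p l G (p.thrCur J) J h m a) :
    M.cF p l G J h m = M.cF p l G J h a := by
  ext b
  rw [s8p_mem_cF, s8p_mem_cF]
  exact ⟨fun hb => ⟨hb.1, conn_equiv.trans (conn_equiv.symm hc) hb.2⟩, fun hb => ⟨hb.1, conn_equiv.trans hc hb.2⟩⟩

theorem s8p_self_mem_cF {l : Fin 4} {G : ℕ} {J : Cell} {h a : ℕ} (ha : a ∈ M.lstJ p l G J) :
    a ∈ M.cF p l G J h a :=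
  s8p_mem_cF.2 ⟨ha, conn_equiv.refl _⟩

theorem s8p_cF_sub_lst {l : Fin 4} {G : ℕ} {J : Cell} {h m : ℕ} : M.cF p l G J h m ⊆ M.lstJ p l G J :=
  fun _ ha => (s8p_mem_cF.1 ha).1

/-- the minimal CURRENT components inside `𝓕_h(m)` form a partition of it -/
theorem minC_spec (hV : M.Valid p G0) (hp : p.Ok d) (l : Fin 4) {G : ℕ} {J : Cell} (hJ : J ∈ M.pres p G) (h m : ℕ) :
    (∀ 𝒟 ∈ M.minC p l G J h m, 𝒟.Nonempty ∧ 𝒟 ⊆ M.cF p l G J h m ∧ ∀ a ∈ 𝒟, M.cF p l G J 0 a = 𝒟) ∧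
    (∀ 𝒟 ∈ M.minC p l G J h m, ∀ 𝒟' ∈ M.minC p l G J h m, 𝒟 ≠ 𝒟' → Disjoint 𝒟 𝒟') ∧
    (M.minC p l G J h m).biUnion id = M.cF p l G J h m := by
  have hA : 6 ≤ p.A0 := hp.stab.A0_ge
  have key : ∀ 𝒟 ∈ M.minC p l G J h m, 𝒟.Nonempty ∧ 𝒟 ⊆ M.cF p l G J h m ∧ ∀ a ∈ 𝒟, M.cF p l G J 0 a = 𝒟 := by
    intro 𝒟 h𝒟
    obtain ⟨a, ha, rfl⟩ := Finset.mem_image.1 h𝒟
    obtain ⟨ha1, ha2⟩ := s8p_mem_cF.1 ha
    refine ⟨⟨a, s8p_self_mem_cF ha1⟩, ?_, ?_⟩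
    · intro b hb
      obtain ⟨hb1, hb2⟩ := s8p_mem_cF.1 hb
      exact s8p_mem_cF.2 ⟨hb1, conn_equiv.trans ha2
        (conn_mono hA (Finset.Subset.refl _) le_rfl le_rfl (Nat.zero_le _) hb2)⟩
    · intro b hb
      exact (s8p_cF_congr (s8p_mem_cF.1 hb).2).symm
  refine ⟨key, ?_, ?_⟩
  · intro 𝒟 h𝒟 𝒟' h𝒟' hne
    rw [Finset.disjoint_left]
    intro c hc hc'
    exact hne (((key 𝒟 h𝒟).2.2 c hc).symm.trans ((key 𝒟' h𝒟').2.2 c hc'))
  · ext b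
    rw [Finset.mem_biUnion]
    constructor
    · rintro ⟨𝒟, h𝒟, hb⟩
      exact (key 𝒟 h𝒟).2.1 hb
    · intro hb
      exact ⟨M.cF p l G J 0 b, Finset.mem_image_of_mem _ hb, s8p_self_mem_cF (s8p_mem_cF.1 hb).1⟩

theorem s8p_n2_sub_sq (hV : M.Valid p G0) (hp : p.Ok d) (l : Fin 4) (G : ℕ) (U I : Cell) (𝒟 : Finset ℕ) :
    n2 I (M.sub l G U I 𝒟) ^ 2 = ‖M.sub l G U I 𝒟‖ ^ 2 / I.len := by
  rw [s8a_n2_of_supp I _ (restr_sub hV hp l G U le_rfl 𝒟), div_pow, Real.sq_sqrt (cell_len_pos I).le]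

theorem s8p_n2_proj_sq (hV : M.Valid p G0) (hp : p.Ok d) (l : Fin 4) (G : ℕ) (I : Cell) (𝒟 : Finset ℕ) (F : XV) :
    n2 I (M.proj l G I 𝒟 F) ^ 2 = ‖M.proj l G I 𝒟 F‖ ^ 2 / I.len := by
  have h1 : restr I.set (M.proj l G I 𝒟 F) = M.proj l G I 𝒟 F :=
    s8a_restr_cproj _ (by
      intro Φ hΦ
      obtain ⟨m, -, rfl⟩ := Finset.mem_image.1 hΦ
      exact psi_nice hV hp l G m) I F
  rw [s8a_n2_of_supp I _ h1, div_pow, Real.sq_sqrt (cell_len_pos I).le]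

theorem s8p_sub_ite (l : Fin 4) (G : ℕ) (U I : Cell) (𝒟 T : Finset ℕ) :
    ∑ m ∈ 𝒟, (if m ∈ T then M.alpha l G U m else 0) • (M.psi l G m).vec I = M.sub l G U I (𝒟 ∩ T) := by
  unfold sub
  rw [← Finset.sum_ite_mem]
  refine Finset.sum_congr rfl fun m _ => ?_
  split_ifs <;> simp

theorem s8p_sub_split (l : Fin 4) (G : ℕ) (U I J : Cell) {F : Finset ℕ} (hF : F ⊆ M.lstJ p l G J) :
    M.sub l G U I F = M.sub l G U I (F ∩ M.coreL p l G J) + M.sub l G U I (F ∩ M.sideL p l G J) := by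
  have e : F ∩ M.sideL p l G J = F \ M.coreL p l G J := by
    ext a
    simp only [Finset.mem_inter, Finset.mem_sdiff, sideL, coreL, Finset.mem_filter]
    constructor
    · rintro ⟨h1, -, h3⟩
      exact ⟨h1, fun h4 => h3 h4.2⟩
    · rintro ⟨h1, h2⟩
      exact ⟨h1, hF h1, fun h4 => h2 ⟨hF h1, h4⟩⟩
  rw [e]
  unfold sub
  exact (Finset.sum_inter_add_sum_sdiff _ _ _).symm

theorem s8p_eps_le (hp : p.Ok d) : ((p.Ds : ℝ) ^ 190)⁻¹ ≤ 1 / 5 := by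
  have hDs : (100 : ℝ) ≤ p.Ds := by exact_mod_cast hp.Ds_ge
  have h1 : (p.Ds : ℝ) ^ 1 ≤ (p.Ds : ℝ) ^ 190 := pow_le_pow_right₀ (by linarith) (by norm_num)
  rw [one_div]
  exact inv_anti₀ (by norm_num) (by linarith)

/-- almost orthogonality over the partition of a saturated set of labels into CURRENT components -/
theorem s8p_orth (hV : M.Valid p G0) (hp : p.Ok d) {l : Fin 4} {G : ℕ} {I : Cell} (hu : (G, I) ∈ M.uses)
    (hl : s8Live p.K M.root I) (h' : ℕ) (S : Finset ℕ) (hS : S ⊆ M.lstJ p l G (s8Pre p.K M.root I))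
    (hcl : ∀ a ∈ S, M.cF p l G (s8Pre p.K M.root I) h' a ⊆ S) (β : ℕ → ℂ) :
    ∑ 𝒟 ∈ S.image (fun a => M.cF p l G (s8Pre p.K M.root I) h' a), ‖∑ m ∈ 𝒟, β m • (M.psi l G m).vec I‖ ^ 2
      ≤ 5 / 4 * ‖∑ m ∈ S, β m • (M.psi l G m).vec I‖ ^ 2 := by
  have hK := hp.K_pos
  set J := s8Pre p.K M.root I with hJdef
  have hJ : J ∈ M.pres p G := mem_pres.2 ⟨I, hu, hl, rfl⟩
  set parts := S.image (fun a => M.cF p l G J h' a) with hparts
  have key : ∀ 𝒟 ∈ parts, 𝒟 ⊆ S ∧ ∀ a ∈ 𝒟, M.cF p l G J h' a = 𝒟 := by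
    intro 𝒟 h𝒟
    obtain ⟨a, ha, rfl⟩ := Finset.mem_image.1 h𝒟
    exact ⟨hcl a ha, fun b hb => (s8p_cF_congr (s8p_mem_cF.1 hb).2).symm⟩
  have hdisj : ∀ 𝒟 ∈ parts, ∀ 𝒟' ∈ parts, 𝒟 ≠ 𝒟' → Disjoint 𝒟 𝒟' := by
    intro 𝒟 h𝒟 𝒟' h𝒟' hne
    rw [Finset.disjoint_left]
    intro c hc hc'
    exact hne (((key 𝒟 h𝒟).2 c hc).symm.trans ((key 𝒟' h𝒟').2 c hc'))
  have hbU : parts.biUnion id = S := by
    ext b
    rw [Finset.mem_biUnion]
    constructor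
    · rintro ⟨𝒟, h𝒟, hb⟩
      exact (key 𝒟 h𝒟).1 hb
    · intro hb
      exact ⟨M.cF p l G J h' b, Finset.mem_image_of_mem _ hb, s8p_self_mem_cF (hS hb)⟩
  have hcount : ∑ 𝒟 ∈ parts, 𝒟.card ≤ p.Ds := by
    have h1 : (parts.biUnion id).card = ∑ 𝒟 ∈ parts, (id 𝒟).card := Finset.card_biUnion hdisj
    simp only [id] at h1
    rw [← h1, hbU]
    exact (Finset.card_le_card hS).trans (lstJ_card hV hK l hJ)
  have hcross : ∀ 𝒟 ∈ parts, ∀ 𝒟' ∈ parts, 𝒟 ≠ 𝒟' → ∀ m ∈ 𝒟, ∀ m' ∈ 𝒟', M.Cross p l G I m m' := by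
    intro 𝒟 h𝒟 𝒟' h𝒟' hne m hm m' hm'
    refine pair_small_cur hV hp hu hl (h := h') (hS ((key 𝒟 h𝒟).1 hm)) (hS ((key 𝒟' h𝒟').1 hm')) ?_
    intro hc
    exact hne (((key 𝒟 h𝒟).2 m hm).symm.trans ((s8p_cF_congr hc).trans ((key 𝒟' h𝒟').2 m' hm')))
  have hsum : ∑ 𝒟 ∈ parts, ∑ m ∈ 𝒟, β m • (M.psi l G m).vec I = ∑ m ∈ S, β m • (M.psi l G m).vec I := by
    have h1 := Finset.sum_biUnion (s := parts) (t := id) (f := fun m => β m • (M.psi l G m).vec I)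
      (fun 𝒟 h𝒟 𝒟' h𝒟' hne => hdisj 𝒟 h𝒟 𝒟' h𝒟' hne)
    rw [hbU] at h1
    exact h1.symm
  have h0 := cell_orth hV hp l G I parts hdisj hcount hcross β
  rw [hsum] at h0
  have h1 := (abs_le.1 h0).1
  have h2 := s8p_eps_le hp
  have h3 : 0 ≤ ∑ 𝒟 ∈ parts, ‖∑ m ∈ 𝒟, β m • (M.psi l G m).vec I‖ ^ 2 :=
    Finset.sum_nonneg fun _ _ => by positivity
  have h4 := mul_le_mul_of_nonneg_right h2 h3
  linarith

/-- **Lemma 8.11 = display (27).** -/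
theorem g27 (hV : M.Valid p G0) (hp : p.Ok d) : M.G27 p := by
  intro l G I hu hl h hh
  have hK := hp.K_pos
  have hA : 6 ≤ p.A0 := hp.stab.A0_ge
  set J := s8Pre p.K M.root I with hJdef
  set U := s8Frz p.K M.root I with hUdef
  have hJ : J ∈ M.pres p G := mem_pres.2 ⟨I, hu, hl, rfl⟩
  have hU : M.cert G U := cert_frz hK hu hl
  have hlst : M.lstJ p l G J = M.lst l G U := lstJ_pre l G I
  have hlen := cell_len_pos I
  constructor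
  · intro m hm
    set F := M.cF p l G J h m with hFdef
    have hFsub : F ⊆ M.lstJ p l G J := s8p_cF_sub_lst
    have hcl : ∀ a ∈ F, M.cF p l G J 0 a ⊆ F := by
      intro a ha b hb
      obtain ⟨ha1, ha2⟩ := s8p_mem_cF.1 ha
      obtain ⟨hb1, hb2⟩ := s8p_mem_cF.1 hb
      exact s8p_mem_cF.2 ⟨hb1, conn_equiv.trans ha2
        (conn_mono hA (Finset.Subset.refl _) le_rfl le_rfl (Nat.zero_le _) hb2)⟩
    have h1 := s8p_orth hV hp hu hl 0 F hFsub hcl (fun a => if a ∈ M.coreL p l G J then M.alpha l G U a else 0)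
    simp only [s8p_sub_ite] at h1
    have h2 : ‖M.proj l G I F (M.Ztil l G U) - M.sub l G U I F‖ ≤ ((p.Ds : ℝ) ^ 190)⁻¹ * Real.sqrt I.len := by
      refine proj_sub hV hp l hU (s8g_le_frz _ _ _) F (hlst ▸ hFsub) ?_
      intro a ha b hb
      obtain ⟨hb1, hb2⟩ := Finset.mem_sdiff.1 hb
      obtain ⟨ha1, ha2⟩ := s8p_mem_cF.1 ha
      have hb1' : b ∈ M.lstJ p l G J := hlst ▸ hb1
      refine pair_small_cur hV hp hu hl (h := h) ha1 hb1' ?_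
      intro hc
      exact hb2 (s8p_mem_cF.2 ⟨hb1', conn_equiv.trans ha2 hc⟩)
    have h3 : ‖M.sub l G U I F‖ ≤ ‖M.proj l G I F (M.Ztil l G U)‖ + ((p.Ds : ℝ) ^ 190)⁻¹ * Real.sqrt I.len := by
      have := norm_sub_norm_le (M.sub l G U I F) (M.proj l G I F (M.Ztil l G U))
      rw [norm_sub_rev] at this
      linarith
    have h4 : ‖M.sub l G U I (F ∩ M.coreL p l G J)‖ ≤ ‖M.sub l G U I F‖ + ‖M.sub l G U I (F ∩ M.sideL p l G J)‖ := by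
      have e := s8p_sub_split (M := M) (p := p) l G U I J hFsub
      have e2 : M.sub l G U I (F ∩ M.coreL p l G J) = M.sub l G U I F - M.sub l G U I (F ∩ M.sideL p l G J) :=
        eq_sub_of_add_eq e.symm
      rw [e2]
      exact _root_.norm_sub_le _ _
    obtain ⟨-, hs2, hs3⟩ := minC_spec hV hp l hJ h m
    have hDs : (100 : ℝ) ≤ p.Ds := by exact_mod_cast hp.Ds_ge
    have hDs0 : (0 : ℝ) < p.Ds := by linarith
    have h5 : ∑ 𝒟 ∈ M.minC p l G J h m, (((p.Ds : ℝ) ^ 30)⁻¹ * ∑ a ∈ 𝒟 ∩ M.coreL p l G J, ‖M.alpha l G U a‖) ^ 2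
        ≤ ((p.Ds : ℝ) ^ 58)⁻¹ := by
      have a1 : ∑ 𝒟 ∈ M.minC p l G J h m, ∑ a ∈ 𝒟 ∩ M.coreL p l G J, ‖M.alpha l G U a‖ ≤ p.Ds := by
        calc ∑ 𝒟 ∈ M.minC p l G J h m, ∑ a ∈ 𝒟 ∩ M.coreL p l G J, ‖M.alpha l G U a‖
            ≤ ∑ 𝒟 ∈ M.minC p l G J h m, ∑ a ∈ 𝒟, ‖M.alpha l G U a‖ :=
              Finset.sum_le_sum fun 𝒟 _ => Finset.sum_le_sum_of_subset_of_nonneg Finset.inter_subset_left
                (fun _ _ _ => norm_nonneg _)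
          _ = ∑ a ∈ F, ‖M.alpha l G U a‖ := by
              have := Finset.sum_biUnion (s := M.minC p l G J h m) (t := id) (f := fun a => ‖M.alpha l G U a‖)
                (fun 𝒟 h𝒟 𝒟' h𝒟' hne => hs2 𝒟 h𝒟 𝒟' h𝒟' hne)
              rw [hs3] at this
              exact this.symm
          _ ≤ ∑ a ∈ M.lst l G U, ‖M.alpha l G U a‖ :=
              Finset.sum_le_sum_of_subset_of_nonneg (hlst ▸ hFsub) (fun _ _ _ => norm_nonneg _)
          _ ≤ p.Ds := hV.alpha_sum l G U hU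
      have a0 : 0 ≤ ∑ 𝒟 ∈ M.minC p l G J h m, ∑ a ∈ 𝒟 ∩ M.coreL p l G J, ‖M.alpha l G U a‖ :=
        Finset.sum_nonneg fun _ _ => Finset.sum_nonneg fun _ _ => norm_nonneg _
      have a2 : ∑ 𝒟 ∈ M.minC p l G J h m, (∑ a ∈ 𝒟 ∩ M.coreL p l G J, ‖M.alpha l G U a‖) ^ 2 ≤ (p.Ds : ℝ) ^ 2 :=
        (Finset.sum_sq_le_sq_sum_of_nonneg fun _ _ => Finset.sum_nonneg fun _ _ => norm_nonneg _).trans
          (pow_le_pow_left₀ a0 a1 2)
      simp only [mul_pow]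
      rw [← Finset.mul_sum]
      calc (((p.Ds : ℝ) ^ 30)⁻¹) ^ 2 * ∑ 𝒟 ∈ M.minC p l G J h m, (∑ a ∈ 𝒟 ∩ M.coreL p l G J, ‖M.alpha l G U a‖) ^ 2
          ≤ (((p.Ds : ℝ) ^ 30)⁻¹) ^ 2 * (p.Ds : ℝ) ^ 2 := mul_le_mul_of_nonneg_left a2 (by positivity)
        _ = ((p.Ds : ℝ) ^ 58)⁻¹ := by
            field_simp
    have h6 : M.sig2 p l G I h m ≤ 2 * (∑ 𝒟 ∈ M.minC p l G J h m, ‖M.sub l G U I (𝒟 ∩ M.coreL p l G J)‖ ^ 2) / I.len
        + 2 * ((p.Ds : ℝ) ^ 58)⁻¹ := by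
      unfold sig2
      calc _ ≤ ∑ 𝒟 ∈ M.minC p l G J h m, (2 * (‖M.sub l G U I (𝒟 ∩ M.coreL p l G J)‖ ^ 2 / I.len)
            + 2 * (((p.Ds : ℝ) ^ 30)⁻¹ * ∑ a ∈ 𝒟 ∩ M.coreL p l G J, ‖M.alpha l G U a‖) ^ 2) := by
              refine Finset.sum_le_sum fun 𝒟 _ => ?_
              rw [← s8p_n2_sub_sq hV hp]
              nlinarith [sq_nonneg (n2 I (M.sub l G U I (𝒟 ∩ M.coreL p l G J))
                - ((p.Ds : ℝ) ^ 30)⁻¹ * ∑ a ∈ 𝒟 ∩ M.coreL p l G J, ‖M.alpha l G U a‖)]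
        _ = 2 * (∑ 𝒟 ∈ M.minC p l G J h m, ‖M.sub l G U I (𝒟 ∩ M.coreL p l G J)‖ ^ 2) / I.len
            + 2 * ∑ 𝒟 ∈ M.minC p l G J h m, (((p.Ds : ℝ) ^ 30)⁻¹ * ∑ a ∈ 𝒟 ∩ M.coreL p l G J, ‖M.alpha l G U a‖) ^ 2 := by
              rw [Finset.sum_add_distrib, ← Finset.mul_sum, ← Finset.mul_sum, ← Finset.sum_div, mul_div_assoc]
        _ ≤ _ := by linarith
    rw [s8p_n2_proj_sq hV hp, s8p_n2_sub_sq hV hp]
    have h1' : ∑ 𝒟 ∈ M.minC p l G J h m, ‖M.sub l G U I (𝒟 ∩ M.coreL p l G J)‖ ^ 2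
        ≤ 5 / 4 * ‖M.sub l G U I (F ∩ M.coreL p l G J)‖ ^ 2 := h1
    generalize (∑ 𝒟 ∈ M.minC p l G J h m, ‖M.sub l G U I (𝒟 ∩ M.coreL p l G J)‖ ^ 2) = Sg at h6 h1'
    have n1 := norm_nonneg (M.sub l G U I (F ∩ M.coreL p l G J))
    have n2' := norm_nonneg (M.sub l G U I F)
    have n3 := norm_nonneg (M.sub l G U I (F ∩ M.sideL p l G J))
    have n4 := norm_nonneg (M.proj l G I F (M.Ztil l G U))
    generalize ‖M.sub l G U I (F ∩ M.coreL p l G J)‖ = AF at h1' h4 n1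
    generalize ‖M.sub l G U I F‖ = SF at h3 h4 n2'
    generalize ‖M.sub l G U I (F ∩ M.sideL p l G J)‖ = Vn at h4 n3 ⊢
    generalize ‖M.proj l G I F (M.Ztil l G U)‖ = P at h3 n4 ⊢
    have hsq : Real.sqrt I.len ^ 2 = I.len := Real.sq_sqrt hlen.le
    have hs0 := Real.sqrt_nonneg I.len
    generalize Real.sqrt I.len = sl at h3 hsq hs0
    have he0 : 0 ≤ ((p.Ds : ℝ) ^ 190)⁻¹ := by positivity
    have b1 : AF ^ 2 ≤ 2 * SF ^ 2 + 2 * Vn ^ 2 := by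
      have := pow_le_pow_left₀ n1 h4 2
      nlinarith [sq_nonneg (SF - Vn)]
    have b2 : SF ^ 2 ≤ 2 * P ^ 2 + 2 * (((p.Ds : ℝ) ^ 190)⁻¹) ^ 2 * I.len := by
      have := pow_le_pow_left₀ n2' h3 2
      have e : (((p.Ds : ℝ) ^ 190)⁻¹ * sl) ^ 2 = (((p.Ds : ℝ) ^ 190)⁻¹) ^ 2 * I.len := by rw [mul_pow, hsq]
      nlinarith [sq_nonneg (P - ((p.Ds : ℝ) ^ 190)⁻¹ * sl)]
    have b3 : Sg ≤ 5 * P ^ 2 + 5 * (((p.Ds : ℝ) ^ 190)⁻¹) ^ 2 * I.len + 5 / 2 * Vn ^ 2 := by linarith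
    have b4 : 2 * Sg / I.len ≤ 10 * (P ^ 2 / I.len) + 10 * (((p.Ds : ℝ) ^ 190)⁻¹) ^ 2 + 5 * (Vn ^ 2 / I.len) := by
      rw [div_le_iff₀ hlen]
      have e : (10 * (P ^ 2 / I.len) + 10 * (((p.Ds : ℝ) ^ 190)⁻¹) ^ 2 + 5 * (Vn ^ 2 / I.len)) * I.len
          = 10 * P ^ 2 + 10 * (((p.Ds : ℝ) ^ 190)⁻¹) ^ 2 * I.len + 5 * Vn ^ 2 := by
        field_simp
      rw [e]
      linarith
    have c1 : (((p.Ds : ℝ) ^ 190)⁻¹) ^ 2 ≤ ((p.Ds : ℝ) ^ 51)⁻¹ := by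
      rw [inv_pow, ← pow_mul]
      exact inv_anti₀ (by positivity) (pow_le_pow_right₀ (by linarith) (by norm_num))
    have c2 : ((p.Ds : ℝ) ^ 58)⁻¹ ≤ ((p.Ds : ℝ) ^ 51)⁻¹ :=
      inv_anti₀ (by positivity) (pow_le_pow_right₀ (by linarith) (by norm_num))
    have c3 : ((p.Ds : ℝ) ^ 51)⁻¹ ≤ ((p.Ds : ℝ) ^ 50)⁻¹ / 100 := by
      rw [pow_succ, mul_inv, div_eq_mul_inv]
      exact mul_le_mul_of_nonneg_left (inv_anti₀ (by norm_num) hDs) (by positivity)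
    have c4 : 0 ≤ Vn ^ 2 / I.len := by positivity
    have c5 : 0 ≤ ((p.Ds : ℝ) ^ 50)⁻¹ := by positivity
    linarith
  · have h1 := s8p_orth hV hp hu hl h (M.lstJ p l G J) (Finset.Subset.refl _) (fun a _ => s8p_cF_sub_lst)
      (fun a => if a ∈ M.sideL p l G J then M.alpha l G U a else 0)
    simp only [s8p_sub_ite] at h1
    have e1 : M.lstJ p l G J ∩ M.sideL p l G J = M.sideL p l G J :=
      Finset.inter_eq_right.2 (Finset.filter_subset _ _)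
    rw [e1] at h1
    have e2 : M.Vc p l G I = M.sub l G U I (M.sideL p l G J) := if_pos hl
    rw [e2]
    simp only [s8p_n2_sub_sq hV hp]
    rw [← Finset.sum_div, ← mul_div_assoc]
    refine div_le_div_of_nonneg_right ?_ hlen.le
    refine h1.trans ?_
    have : 0 ≤ ‖M.sub l G U I (M.sideL p l G J)‖ ^ 2 := by positivity
    linarith

end ModeSys

end

end Claimed.Agent.R258
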