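/-
Row 258 (S0498), Sec. 8, layer (B).  Architect helper61.  File Top.lean: **Proposition 8.12** (top count) = display (28).
NO paper needed (complete plans below).   Black boxes: S8/{Graph,Rows,Side,Rep}.lean, CellApi/Pack.lean.

Fixed: a role `l`, a height `h`, a type `ty`, a threshold `σ`, representatives `rep` with `G25`.
`Hit G I a`   : at the live actual use `(G,I)` some core mode `m`, good at `h`, of type `ty`, with `σ² ≤ sig2 I h m`, has the representative `a`.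
`IsTop G I a` : `Hit`, and no `Hit G I' a` at a strictly larger cell `I'` ("first top").
The component of a top is `cF (s8Pre I) h a` (the representative lies in the component).

LEAVES (auxiliary lemmas with prefix `s8q_`):
  P-S8-TOP-A = `hit_spec`, `top_sep`, `top_count`, `top_bessel`
  P-S8-TOP-B = `top_rows`, `Vc_sum`, `top_side`, `top_len`
  P-S8-TOP-C = `sig2_le`, `exists_top`, `used_le_tops`, `used_le_Ds`
  P-S8-28    = `top_stops`, `g28`
PLANS.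
* `hit_spec`: `a = rep … m ∈ cE J (h-10) m` (first clause of `G25`), so `a ∈ lstJ J`, `conn (thrCur J) J h m a` (`conn_mono`: PRE ⊆ CURRENT, `h-10 ≤ h`), so `cF J h a = cF J h m`, and `sig2 I h a = sig2 I h m` (`sig2` depends on `m` only through `cF J h m`).
* `top_sep`: tops `t = (G,I,a) ≠ t' = (G,I',a')`, `I ≤ I'`.  If `a = a'` then `I < I'` and `Hit G I' a` contradicts `IsTop G I a`.  So `a ≠ a'`; with the witnesses `m, m'` the second clause of `G25` (earlier `= I'`, later `= I`, `s8g_pre_mono`) gives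
  `¬ conn (thrCur J) J h m' m`, `J = s8Pre I`.  Members of `cF J' h a'` are `conn` to `m'` at `J'`, which persists to `J` (`conn_mono`, `lstJ_mono`).  Hence no member of `cF J h a` is `conn (thrCur J) J h` to a member of `cF J' h a'`:
  disjointness and `pair_small_cur`.
* `top_count`: pairwise disjoint subsets of `lstJ (s8Pre I)`; `lstJ_card`.      * `top_bessel`: `sep_rows` on the subtype of tops of the group `G`.
* `top_rows`: `hV.rows` with `Ue = s8Frz I` (`cert_frz`), `Te = proj l G I (cF …)` (locality `s8a_cproj_restr`, `s8g_le_frz`), `Bz = 2`.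
* `Vc_sum`: for fixed `G`, `J ∈ pres G` and a fixed depth the uses `I` with `s8Pre I = J` form an antichain and `Vc l G I = restr I (V l G J)` (`restr_sub`, `s8g_pre_anc`): `s8a_sum_restr_antichain`; there are `K` depths in a block.
* `top_side`: at one use the components of distinct tops are distinct CURRENT components: second part of `G27`, then `Vc_sum` and `G17`.  (`n2 I z ^ 2 * |I| = ‖restr I z‖²`.)
* `top_len`: first part of `G27` at each top (`σ² ≤ sig2`), multiplied by `|I|`, summed: `σ² ∑|I| ≤ 10 (2 G0 + 2 K X)|R| + 10 Ds^(-50) ∑|I|`, and `10 Ds^(-50) ≤ σ²/2` because `σ ≥ 1/(2 Ds)`.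
* `sig2_le`: `n2 I (sub 𝒟') ≤ √2 ∑_{𝒟'} ‖α‖`, `∑_𝒟 x_𝒟² ≤ (∑ x_𝒟)²`, `hV.alpha_sum`.
* `exists_top`: among the finitely many cells `I' ≥ I`, `I' ≤ root`, with `Hit G I' a` take the largest one (they form a chain).
* `used_le_tops`: `(G,a) ↦ (G, I_top, a)` is injective from `usedReps σ I₀` into the tops at threshold `σ' ≤ σ` lying above `I₀`.
* `used_le_Ds`: `(G,a)` with `a ∈ lst l G (frozen cell of a use above I₀)`; all these lists are contained in the lists at the frozen cell `U` of the smallest live use above `I₀` (`hV.lst_mono`); `hV.lst_count` at `U`.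
* `top_stops`: `cell_crossing_stops` with `S` = cells of the tops, `a I` = number of tops at `I`, `E = 40 (G0 + K X + 1)/σ²`.
* `g28`: dyadic thresholds `σ_j = 2^j`, `j ∈ [-(clog Ds + 1), clog Ds + 2]`; choices `(l, h, ty, j)`, `ty ∈ (range (s8cLog Ds + 1))²`; `ε' = ε / nCh`; union of the stops (`Finset.biUnion`; lengths add up to `≤ ε |R|`).
  Given `σ > 0`:  if `σ < 1/Ds`: `used_le_Ds` and `Ds ≤ X/ε/σ²`.  If `σ > 2 Ds`: `usedReps = ∅` (`sig2_le`).  Otherwise take `j` with `2^j ≤ σ < 2^(j+1)`: `used_le_tops` + `top_stops`: count `≤ E_j nCh/ε ≤ 4·40 (…) nCh/(ε σ²)`.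
  Types outside the range do not occur (cardinalities are `≤ Ds`, `s8c_log_mono`).
-/
import Claimed.Agent.R258.S8.Side
import Claimed.Agent.R258.S8.Rep

set_option autoImplicit false
open MeasureTheory

namespace Claimed.Agent.R258

open scoped BigOperators
open Classical

noncomputable section

namespace ModeSys

variable {d : ℕ}

/-- a successful use with representative `a` at the threshold `σ` -/
def Hit (M : ModeSys d) (p : S8Par) (rep : Fin 4 → ℕ → ℕ → Cell → ℕ → ℕ) (l : Fin 4) (h : ℕ) (ty : ℕ × ℕ) (σ : ℝ)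
    (G : ℕ) (I : Cell) (a : ℕ) : Prop :=
  (G, I) ∈ M.uses ∧ s8Live p.K M.root I ∧ ∃ m ∈ M.coreL p l G (s8Pre p.K M.root I),
    M.good p l G (s8Pre p.K M.root I) h m ∧ M.typ p l G (s8Pre p.K M.root I) h m = ty ∧
    σ ^ 2 ≤ M.sig2 p l G I h m ∧ rep l G h (s8Pre p.K M.root I) m = a

/-- first tops -/
def IsTop (M : ModeSys d) (p : S8Par) (rep : Fin 4 → ℕ → ℕ → Cell → ℕ → ℕ) (l : Fin 4) (h : ℕ) (ty : ℕ × ℕ) (σ : ℝ)
    (G : ℕ) (I : Cell) (a : ℕ) : Prop :=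
  M.Hit p rep l h ty σ G I a ∧ ∀ I', I < I' → ¬ M.Hit p rep l h ty σ G I' a

/-- the finite set of all first tops `(G, I, a)` -/
def tops (M : ModeSys d) (p : S8Par) (rep : Fin 4 → ℕ → ℕ → Cell → ℕ → ℕ) (l : Fin 4) (h : ℕ) (ty : ℕ × ℕ) (σ : ℝ) :
    Finset (ℕ × Cell × ℕ) :=
  (M.uses.biUnion fun u => (M.lstJ p l u.1 (s8Pre p.K M.root u.2)).image fun a => (u.1, u.2, a)).filter
    fun t => M.IsTop p rep l h ty σ t.1 t.2.1 t.2.2

/-- the label set of the row of a top -/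
def topF (M : ModeSys d) (p : S8Par) (l : Fin 4) (h : ℕ) (t : ℕ × Cell × ℕ) : Finset ℕ :=
  M.cF p l t.1 (s8Pre p.K M.root t.2.1) h t.2.2

variable {M : ModeSys d} {p : S8Par} {G0 : ℝ} {rep : Fin 4 → ℕ → ℕ → Cell → ℕ → ℕ} {l : Fin 4} {h : ℕ} {ty : ℕ × ℕ} {σ : ℝ}

theorem s8q_mem_cE {G : ℕ} {J : Cell} {k m x : ℕ} :
    x ∈ M.cE p l G J k m ↔ x ∈ M.lstJ p l G J ∧ M.conn p l G (p.thrPre J) J k m x :=
  Finset.mem_filter

theorem s8q_mem_cF {G : ℕ} {J : Cell} {k m x : ℕ} :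
    x ∈ M.cF p l G J k m ↔ x ∈ M.lstJ p l G J ∧ M.conn p l G (p.thrCur J) J k m x :=
  Finset.mem_filter

theorem s8q_cF_eq {G : ℕ} {J : Cell} {k m a : ℕ} (hc : M.conn p l G (p.thrCur J) J k m a) :
    M.cF p l G J k m = M.cF p l G J k a := by
  ext x
  rw [s8q_mem_cF, s8q_mem_cF]
  refine and_congr_right fun _ => ⟨fun h => ?_, fun h => ?_⟩
  · exact conn_equiv.trans (conn_equiv.symm hc) h
  · exact conn_equiv.trans hc h

theorem hit_spec (hV : M.Valid p G0) (hp : p.Ok d) (h25 : M.G25 p rep) (hh : h ≤ p.Js) {G : ℕ} {I : Cell} {a : ℕ}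
    (hit : M.Hit p rep l h ty σ G I a) :
    a ∈ M.lstJ p l G (s8Pre p.K M.root I) ∧ σ ^ 2 ≤ M.sig2 p l G I h a ∧
      ∃ m ∈ M.coreL p l G (s8Pre p.K M.root I), M.good p l G (s8Pre p.K M.root I) h m ∧
        M.typ p l G (s8Pre p.K M.root I) h m = ty ∧ rep l G h (s8Pre p.K M.root I) m = a ∧
        M.cF p l G (s8Pre p.K M.root I) h a = M.cF p l G (s8Pre p.K M.root I) h m := by
  obtain ⟨hu, hl, m, hm, hgood, htyp, hσ, hrep⟩ := hit
  have hJ : s8Pre p.K M.root I ∈ M.pres p G := mem_pres.2 ⟨I, hu, hl, rfl⟩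
  have hmL : m ∈ M.lstJ p l G (s8Pre p.K M.root I) := (Finset.mem_filter.1 hm).1
  have h1 := (h25 l G h hh).1 _ hJ m hmL hgood
  rw [hrep] at h1
  obtain ⟨haL, hc0⟩ := s8q_mem_cE.1 h1
  have hc : M.conn p l G (p.thrCur (s8Pre p.K M.root I)) (s8Pre p.K M.root I) h m a :=
    conn_mono hp.stab.A0_ge (Finset.Subset.refl _) le_rfl (s8g_thrPre_le_cur p _) (Nat.sub_le _ _) hc0
  have hF := s8q_cF_eq hc
  refine ⟨haL, ?_, m, hm, hgood, htyp, hrep, hF.symm⟩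
  have e : M.sig2 p l G I h a = M.sig2 p l G I h m := by
    unfold sig2 minC
    rw [hF]
  rw [e]
  exact hσ

theorem mem_tops (hV : M.Valid p G0) (hp : p.Ok d) (h25 : M.G25 p rep) (hh : h ≤ p.Js) {t : ℕ × Cell × ℕ} :
    t ∈ M.tops p rep l h ty σ ↔ M.IsTop p rep l h ty σ t.1 t.2.1 t.2.2 := by
  unfold tops
  rw [Finset.mem_filter]
  refine ⟨fun h => h.2, fun h => ⟨?_, h⟩⟩
  have hs := hit_spec hV hp h25 hh h.1
  rw [Finset.mem_biUnion]
  refine ⟨(t.1, t.2.1), h.1.1, ?_⟩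
  rw [Finset.mem_image]
  exact ⟨t.2.2, hs.1, rfl⟩

/-- distinct comparable tops of one group are separated -/
theorem top_sep (hV : M.Valid p G0) (hp : p.Ok d) (h25 : M.G25 p rep) (hh : h ≤ p.Js) {t t' : ℕ × Cell × ℕ}
    (ht : t ∈ M.tops p rep l h ty σ) (ht' : t' ∈ M.tops p rep l h ty σ) (hG : t.1 = t'.1) (hne : t ≠ t')
    (hle : t.2.1 ≤ t'.2.1) :
    Disjoint (M.topF p l h t) (M.topF p l h t') ∧
      ∀ m ∈ M.topF p l h t, ∀ m' ∈ M.topF p l h t', M.Cross p l t.1 t.2.1 m m' := by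
  obtain ⟨G, I, a⟩ := t
  obtain ⟨G', I', a'⟩ := t'
  simp only at hG hle
  subst hG
  have hT : M.IsTop p rep l h ty σ G I a := (mem_tops hV hp h25 hh).1 ht
  have hT' : M.IsTop p rep l h ty σ G I' a' := (mem_tops hV hp h25 hh).1 ht'
  have hK := hp.K_pos
  have hA := hp.stab.A0_ge
  have haa : a ≠ a' := by
    intro h0
    subst h0
    have hII : I ≠ I' := by
      intro h1
      subst h1
      exact hne rfl
    exact hT.2 I' (lt_of_le_of_ne hle hII) hT'.1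
  obtain ⟨haL, -, m₀, hm₀, hg₀, ht₀, hr₀, hF₀⟩ := hit_spec hV hp h25 hh hT.1
  obtain ⟨haL', -, m₁, hm₁, hg₁, ht₁, hr₁, hF₁⟩ := hit_spec hV hp h25 hh hT'.1
  have hu : (G, I) ∈ M.uses := hT.1.1
  have hl : s8Live p.K M.root I := hT.1.2.1
  have hu' : (G, I') ∈ M.uses := hT'.1.1
  have hl' : s8Live p.K M.root I' := hT'.1.2.1
  have hJ : s8Pre p.K M.root I ∈ M.pres p G := mem_pres.2 ⟨I, hu, hl, rfl⟩
  have hJ' : s8Pre p.K M.root I' ∈ M.pres p G := mem_pres.2 ⟨I', hu', hl', rfl⟩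
  have hJJ : s8Pre p.K M.root I ≤ s8Pre p.K M.root I' := s8g_pre_mono hK hl' hl hle
  have hsub := lstJ_mono hV hK l hJ' hJJ
  have hnc : ¬ M.conn p l G (p.thrCur (s8Pre p.K M.root I)) (s8Pre p.K M.root I) h m₁ m₀ := by
    intro hc
    have := (h25 l G h hh).2.1 _ hJ' _ hJ hJJ m₁ (Finset.mem_filter.1 hm₁).1 m₀
      (Finset.mem_filter.1 hm₀).1 hg₁ hg₀ (ht₁.trans ht₀.symm) hc
    rw [hr₀, hr₁] at this
    exact haa this.symm
  have key : ∀ x ∈ M.topF p l h (G, I, a), ∀ x' ∈ M.topF p l h (G, I', a'),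
      x ∈ M.lstJ p l G (s8Pre p.K M.root I) ∧ x' ∈ M.lstJ p l G (s8Pre p.K M.root I) ∧
      ¬ M.conn p l G (p.thrCur (s8Pre p.K M.root I)) (s8Pre p.K M.root I) h x x' := by
    intro x hx x' hx'
    have hx1 : x ∈ M.cF p l G (s8Pre p.K M.root I) h m₀ := by
      rw [← hF₀]
      exact hx
    have hx1' : x' ∈ M.cF p l G (s8Pre p.K M.root I') h m₁ := by
      rw [← hF₁]
      exact hx'
    obtain ⟨hxL, hxc⟩ := s8q_mem_cF.1 hx1
    obtain ⟨hxL', hxc'⟩ := s8q_mem_cF.1 hx1'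
    have hxc'' : M.conn p l G (p.thrCur (s8Pre p.K M.root I)) (s8Pre p.K M.root I) h m₁ x' :=
      conn_mono hA hsub hJJ (s8g_thrCur_mono p hJJ) le_rfl hxc'
    refine ⟨hxL, hsub hxL', fun hc => hnc ?_⟩
    exact conn_equiv.trans hxc'' (conn_equiv.trans (conn_equiv.symm hc) (conn_equiv.symm hxc))
  refine ⟨?_, fun x hx x' hx' => ?_⟩
  · rw [Finset.disjoint_left]
    intro x hx hx'
    exact (key x hx x hx').2.2 (conn_equiv.refl x)
  · obtain ⟨h1, h2, h3⟩ := key x hx x' hx'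
    exact pair_small_cur hV hp hu hl h1 h2 h3

theorem top_count (hV : M.Valid p G0) (hp : p.Ok d) (h25 : M.G25 p rep) (hh : h ≤ p.Js) {t : ℕ × Cell × ℕ}
    (ht : t ∈ M.tops p rep l h ty σ) :
    ∑ t' ∈ (M.tops p rep l h ty σ).filter (fun t' => t'.1 = t.1 ∧ t.2.1 ≤ t'.2.1), (M.topF p l h t').card ≤ p.Ds := by
  have hK := hp.K_pos
  have hT : M.IsTop p rep l h ty σ t.1 t.2.1 t.2.2 := (mem_tops hV hp h25 hh).1 ht
  have hu : (t.1, t.2.1) ∈ M.uses := hT.1.1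
  have hl : s8Live p.K M.root t.2.1 := hT.1.2.1
  have hJ : s8Pre p.K M.root t.2.1 ∈ M.pres p t.1 := mem_pres.2 ⟨t.2.1, hu, hl, rfl⟩
  rw [← Finset.card_biUnion]
  · refine le_trans (Finset.card_le_card ?_) (lstJ_card hV hK l hJ)
    intro x hx
    rw [Finset.mem_biUnion] at hx
    obtain ⟨t', ht', hx⟩ := hx
    rw [Finset.mem_filter] at ht'
    obtain ⟨ht'1, hG, hle⟩ := ht'
    have hT' : M.IsTop p rep l h ty σ t'.1 t'.2.1 t'.2.2 := (mem_tops hV hp h25 hh).1 ht'1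
    have hu' : (t'.1, t'.2.1) ∈ M.uses := hT'.1.1
    have hl' : s8Live p.K M.root t'.2.1 := hT'.1.2.1
    have hJ' : s8Pre p.K M.root t'.2.1 ∈ M.pres p t'.1 := mem_pres.2 ⟨t'.2.1, hu', hl', rfl⟩
    have hJJ : s8Pre p.K M.root t.2.1 ≤ s8Pre p.K M.root t'.2.1 := s8g_pre_mono hK hl' hl hle
    have h1 := (s8q_mem_cF.1 hx).1
    have h2 := lstJ_mono hV hK l hJ' hJJ h1
    rw [hG] at h2
    exact h2
  · intro t₁ ht₁ t₂ ht₂ hne
    rw [Finset.mem_coe, Finset.mem_filter] at ht₁ ht₂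
    obtain ⟨h1, hG1, hle1⟩ := ht₁
    obtain ⟨h2, hG2, hle2⟩ := ht₂
    show Disjoint (M.topF p l h t₁) (M.topF p l h t₂)
    rcases cell_chain hle1 hle2 with hc | hc
    · exact (top_sep hV hp h25 hh h1 h2 (hG1.trans hG2.symm) hne hc).1
    · exact (top_sep hV hp h25 hh h2 h1 (hG2.trans hG1.symm) hne.symm hc).1.symm

theorem top_bessel (hV : M.Valid p G0) (hp : p.Ok d) (h25 : M.G25 p rep) (hh : h ≤ p.Js) (G : ℕ) (F : XV) :
    ∑ t ∈ (M.tops p rep l h ty σ).filter (fun t => t.1 = G), ‖M.proj l G t.2.1 (M.topF p l h t) F‖ ^ 2 ≤ 2 * ‖F‖ ^ 2 := by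
  obtain ⟨S, hS⟩ : ∃ S : Finset (ℕ × Cell × ℕ),
      S = (M.tops p rep l h ty σ).filter (fun t => t.1 = G) := ⟨_, rfl⟩
  rw [← hS]
  have hSm : ∀ t ∈ S, t ∈ M.tops p rep l h ty σ ∧ t.1 = G := by
    intro t ht
    rw [hS, Finset.mem_filter] at ht
    exact ht
  have hmain := sep_rows hV hp l G (ι := {t // t ∈ S}) (fun e => e.1.2.1) (fun e => M.topF p l h e.1)
    (by
      intro e
      have hT := (mem_tops hV hp h25 hh).1 (hSm e.1 e.2).1
      have hs := hit_spec hV hp h25 hh hT.1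
      exact ⟨e.1.2.2, s8q_mem_cF.2 ⟨hs.1, conn_equiv.refl _⟩⟩)
    (by
      intro e
      have h1 := top_count hV hp h25 hh (hSm e.1 e.2).1
      refine le_trans (le_of_eq ?_) h1
      rw [Finset.sum_filter]
      rw [Finset.sum_coe_sort S (fun t => if e.1.2.1 ≤ t.2.1 then (M.topF p l h t).card else 0)]
      rw [← Finset.sum_filter]
      refine Finset.sum_congr ?_ fun _ _ => rfl
      ext t
      rw [Finset.mem_filter, Finset.mem_filter, (hSm e.1 e.2).2]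
      constructor
      · rintro ⟨h2, h3⟩
        exact ⟨(hSm t h2).1, (hSm t h2).2, h3⟩
      · rintro ⟨h2, h3, h4⟩
        refine ⟨?_, h4⟩
        rw [hS, Finset.mem_filter]
        exact ⟨h2, h3⟩)
    (by
      intro e f hef hle x hx x' hx'
      have hne : e.1 ≠ f.1 := fun h0 => hef (Subtype.ext h0)
      have h1 := (top_sep hV hp h25 hh (hSm e.1 e.2).1 (hSm f.1 f.2).1
        ((hSm e.1 e.2).2.trans (hSm f.1 f.2).2.symm) hne hle).2 x hx x' hx'
      rw [(hSm e.1 e.2).2] at h1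
      exact h1) F
  rw [Finset.sum_coe_sort S (fun t => ‖M.proj l G t.2.1 (M.topF p l h t) F‖ ^ 2)] at hmain
  exact hmain

theorem top_rows (hV : M.Valid p G0) (hp : p.Ok d) (h25 : M.G25 p rep) (hh : h ≤ p.Js) (hl : M.isB l = true) :
    ∑ t ∈ M.tops p rep l h ty σ,
      ‖M.proj l t.1 t.2.1 (M.topF p l h t) (M.Ztil l t.1 (s8Frz p.K M.root t.2.1))‖ ^ 2 ≤ G0 * 2 * M.root.len := by
  have hK := hp.K_pos
  obtain ⟨S, hS⟩ : ∃ S : Finset (ℕ × Cell × ℕ), S = M.tops p rep l h ty σ := ⟨_, rfl⟩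
  rw [← hS]
  have hSm : ∀ t ∈ S, M.IsTop p rep l h ty σ t.1 t.2.1 t.2.2 := by
    intro t ht
    rw [hS] at ht
    exact (mem_tops hV hp h25 hh).1 ht
  have hmain := hV.rows l hl {t // t ∈ S} (fun e => e.1.1) (fun e => s8Frz p.K M.root e.1.2.1)
    (fun e => M.proj l e.1.1 e.1.2.1 (M.topF p l h e.1)) 2 (by norm_num)
    (fun e => cert_frz hK (hSm e.1 e.2).1.1 (hSm e.1 e.2).1.2.1)
    (fun e F => s8a_cproj_restr _ (fun Φ hΦ => by
      obtain ⟨m, -, rfl⟩ := Finset.mem_image.1 hΦ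
      exact psi_nice hV hp l _ m) (s8g_le_frz _ _ _) F)
    (by
      intro G F
      refine le_trans (le_of_eq ?_) (top_bessel (l := l) (h := h) (ty := ty) (σ := σ) hV hp h25 hh G F)
      rw [Finset.sum_filter]
      rw [Finset.sum_coe_sort S
        (fun t => if t.1 = G then ‖M.proj l t.1 t.2.1 (M.topF p l h t) F‖ ^ 2 else 0)]
      rw [← Finset.sum_filter, hS]
      refine Finset.sum_congr rfl fun t ht => ?_
      rw [(Finset.mem_filter.1 ht).2])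
  rw [Finset.sum_coe_sort S (fun t => ‖M.proj l t.1 t.2.1 (M.topF p l h t)
    (M.Ztil l t.1 (s8Frz p.K M.root t.2.1))‖ ^ 2)] at hmain
  exact hmain

/-- a fixed `V_{l,G,b}` is counted at most `K` times -/
theorem Vc_sum (hV : M.Valid p G0) (hp : p.Ok d) (l : Fin 4) :
    ∑ u ∈ M.uses, ‖M.Vc p l u.1 u.2‖ ^ 2 ≤ p.K * ∑ G ∈ M.grps, ∑ J ∈ M.pres p G, ‖M.V p l G J‖ ^ 2 := by
  have hK := hp.K_pos
  -- one group, one pre-cell, one offset
  have h4 : ∀ G J o, ∑ u ∈ M.uses.filter (fun u => u.1 = G ∧ s8Live p.K M.root u.2 ∧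
      s8Pre p.K M.root u.2 = J ∧ s8Off p.K M.root u.2 = o), ‖M.Vc p l u.1 u.2‖ ^ 2
      ≤ ‖M.V p l G J‖ ^ 2 := by
    intro G J o
    obtain ⟨S, hS⟩ : ∃ S : Finset (ℕ × Cell), S = M.uses.filter (fun u => u.1 = G ∧
      s8Live p.K M.root u.2 ∧ s8Pre p.K M.root u.2 = J ∧ s8Off p.K M.root u.2 = o) := ⟨_, rfl⟩
    rw [← hS]
    have hSm : ∀ u ∈ S, u.1 = G ∧ s8Live p.K M.root u.2 ∧ s8Pre p.K M.root u.2 = J ∧
        s8Off p.K M.root u.2 = o := by
      intro u hu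
      rw [hS] at hu
      exact (Finset.mem_filter.1 hu).2
    have e1 : ∀ u ∈ S, ‖M.Vc p l u.1 u.2‖ ^ 2 = ‖restr u.2.set (M.V p l G J)‖ ^ 2 := by
      intro u hu
      obtain ⟨h1, h2, h3, -⟩ := hSm u hu
      unfold Vc V
      rw [if_pos h2, h1, h3, ← h3, restr_sub hV hp l G _ (s8g_le_pre _ _ _), s8g_pre_anc]
    rw [Finset.sum_congr rfl e1]
    have hinj : Set.InjOn (fun u : ℕ × Cell => u.2) (S : Set (ℕ × Cell)) := by
      intro u hu u' hu' huu
      exact Prod.ext ((hSm u hu).1.trans (hSm u' hu').1.symm) huu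
    rw [← Finset.sum_image (s := S) (g := fun u : ℕ × Cell => u.2)
      (f := fun I : Cell => ‖restr I.set (M.V p l G J)‖ ^ 2) hinj]
    refine s8a_sum_restr_antichain ?_ _
    intro I hI I' hI' hne hle
    rw [Finset.mem_coe, Finset.mem_image] at hI hI'
    obtain ⟨u, hu, rfl⟩ := hI
    obtain ⟨u', hu', rfl⟩ := hI'
    obtain ⟨-, -, h3, h4⟩ := hSm u hu
    obtain ⟨-, -, h3', h4'⟩ := hSm u' hu'
    have d1 : J.depth = u.2.depth - ((o + 2 * p.K : ℕ) : ℤ) := by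
      rw [← h3]
      unfold s8Pre
      rw [cell_depth_anc, h4]
    have d2 : J.depth = u'.2.depth - ((o + 2 * p.K : ℕ) : ℤ) := by
      rw [← h3']
      unfold s8Pre
      rw [cell_depth_anc, h4']
    exact hne (cell_eq_of_le_of_depth hle (by omega))
  -- one group, one pre-cell
  have h3 : ∀ G J, ∑ u ∈ M.uses.filter (fun u => u.1 = G ∧ s8Live p.K M.root u.2 ∧
      s8Pre p.K M.root u.2 = J), ‖M.Vc p l u.1 u.2‖ ^ 2 ≤ p.K * ‖M.V p l G J‖ ^ 2 := by
    intro G J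
    rw [← Finset.sum_fiberwise_of_maps_to (t := Finset.range p.K)
      (g := fun u : ℕ × Cell => s8Off p.K M.root u.2)
      (fun u _ => Finset.mem_range.2 (Nat.mod_lt _ hK))]
    calc ∑ o ∈ Finset.range p.K, ∑ u ∈ (M.uses.filter (fun u => u.1 = G ∧ s8Live p.K M.root u.2 ∧
            s8Pre p.K M.root u.2 = J)).filter (fun u => s8Off p.K M.root u.2 = o),
            ‖M.Vc p l u.1 u.2‖ ^ 2
        ≤ ∑ _o ∈ Finset.range p.K, ‖M.V p l G J‖ ^ 2 := by
          refine Finset.sum_le_sum fun o _ => ?_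
          refine le_trans (le_of_eq ?_) (h4 G J o)
          rw [Finset.filter_filter]
          refine Finset.sum_congr (Finset.filter_congr fun u _ => ?_) fun _ _ => rfl
          tauto
      _ = p.K * ‖M.V p l G J‖ ^ 2 := by
          rw [Finset.sum_const, Finset.card_range, nsmul_eq_mul]
  -- one group
  have h2 : ∀ G, ∑ u ∈ M.uses.filter (fun u => u.1 = G), ‖M.Vc p l u.1 u.2‖ ^ 2
      ≤ p.K * ∑ J ∈ M.pres p G, ‖M.V p l G J‖ ^ 2 := by
    intro G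
    have e2 : ∑ u ∈ M.uses.filter (fun u => u.1 = G), ‖M.Vc p l u.1 u.2‖ ^ 2
        = ∑ u ∈ M.uses.filter (fun u => u.1 = G ∧ s8Live p.K M.root u.2),
            ‖M.Vc p l u.1 u.2‖ ^ 2 := by
      symm
      refine Finset.sum_subset ?_ ?_
      · intro u hu
        rw [Finset.mem_filter] at hu ⊢
        exact ⟨hu.1, hu.2.1⟩
      · intro u hu hu'
        rw [Finset.mem_filter] at hu hu'
        have hnl : ¬ s8Live p.K M.root u.2 := fun hl => hu' ⟨hu.1, hu.2, hl⟩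
        unfold Vc
        rw [if_neg hnl]
        simp
    rw [e2, ← Finset.sum_fiberwise_of_maps_to (t := M.pres p G)
      (g := fun u : ℕ × Cell => s8Pre p.K M.root u.2)
      (fun u hu => by
        rw [Finset.mem_filter] at hu
        exact mem_pres.2 ⟨u.2, by rw [← hu.2.1]; exact hu.1, hu.2.2, rfl⟩), Finset.mul_sum]
    refine Finset.sum_le_sum fun J _ => ?_
    refine le_trans (le_of_eq ?_) (h3 G J)
    rw [Finset.filter_filter]
    refine Finset.sum_congr (Finset.filter_congr fun u _ => ?_) fun _ _ => rfl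
    tauto
  rw [← Finset.sum_fiberwise_of_maps_to (t := M.grps) (g := fun u : ℕ × Cell => u.1)
    (fun u hu => (hV.uses_le u hu).1), Finset.mul_sum]
  exact Finset.sum_le_sum fun G _ => h2 G

theorem top_side (hV : M.Valid p G0) (hp : p.Ok d) (h25 : M.G25 p rep) (h27 : M.G27 p) {X : ℝ} (h17 : M.G17 p X)
    (hh : h ≤ p.Js) (hl : M.isB l = true) :
    ∑ t ∈ M.tops p rep l h ty σ,
      ‖M.sub l t.1 (s8Frz p.K M.root t.2.1) t.2.1 (M.topF p l h t ∩ M.sideL p l t.1 (s8Pre p.K M.root t.2.1))‖ ^ 2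
        ≤ 2 * p.K * X * M.root.len := by
  have hK := hp.K_pos
  have hfib : ∀ u ∈ M.uses, ∑ t ∈ (M.tops p rep l h ty σ).filter (fun t => (t.1, t.2.1) = u),
      ‖M.sub l t.1 (s8Frz p.K M.root t.2.1) t.2.1
        (M.topF p l h t ∩ M.sideL p l t.1 (s8Pre p.K M.root t.2.1))‖ ^ 2
      ≤ 2 * ‖M.Vc p l u.1 u.2‖ ^ 2 := by
    rintro ⟨G, I⟩ hu
    obtain ⟨S, hS⟩ : ∃ S : Finset (ℕ × Cell × ℕ),
        S = (M.tops p rep l h ty σ).filter (fun t => (t.1, t.2.1) = (G, I)) := ⟨_, rfl⟩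
    rw [← hS]
    have hSm : ∀ t ∈ S, t ∈ M.tops p rep l h ty σ ∧ t.1 = G ∧ t.2.1 = I := by
      intro t ht
      rw [hS, Finset.mem_filter] at ht
      have h2 := ht.2
      rw [Prod.mk.injEq] at h2
      exact ⟨ht.1, h2⟩
    by_cases hl' : s8Live p.K M.root I
    · obtain ⟨φ, hφ⟩ : ∃ φ : Finset ℕ → ℝ, φ = fun 𝓕 => ‖M.sub l G (s8Frz p.K M.root I) I
          (𝓕 ∩ M.sideL p l G (s8Pre p.K M.root I))‖ ^ 2 := ⟨_, rfl⟩
      have e1 : ∀ t ∈ S, ‖M.sub l t.1 (s8Frz p.K M.root t.2.1) t.2.1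
          (M.topF p l h t ∩ M.sideL p l t.1 (s8Pre p.K M.root t.2.1))‖ ^ 2
          = φ (M.topF p l h t) := by
        intro t ht
        obtain ⟨-, h1, h2⟩ := hSm t ht
        rw [hφ, h1, h2]
      rw [Finset.sum_congr rfl e1]
      have hne : ∀ t ∈ S, (M.topF p l h t).Nonempty := by
        intro t ht
        have hT := (mem_tops hV hp h25 hh).1 (hSm t ht).1
        have hs := hit_spec hV hp h25 hh hT.1
        exact ⟨t.2.2, s8q_mem_cF.2 ⟨hs.1, conn_equiv.refl _⟩⟩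
      have hinj : Set.InjOn (M.topF p l h) (S : Set (ℕ × Cell × ℕ)) := by
        intro t ht t' ht' htt
        by_contra hne'
        have hd := (top_sep hV hp h25 hh (hSm t ht).1 (hSm t' ht').1
          ((hSm t ht).2.1.trans (hSm t' ht').2.1.symm) hne'
          (le_of_eq ((hSm t ht).2.2.trans (hSm t' ht').2.2.symm))).1
        rw [htt] at hd
        obtain ⟨x, hx⟩ := hne t' ht'
        exact (Finset.disjoint_left.1 hd hx) hx
      rw [← Finset.sum_image (s := S) (g := M.topF p l h) (f := φ) hinj]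
      have hsub : S.image (M.topF p l h) ⊆ (M.lstJ p l G (s8Pre p.K M.root I)).image
          (fun m => M.cF p l G (s8Pre p.K M.root I) h m) := by
        intro 𝓕 h𝓕
        obtain ⟨t, ht, rfl⟩ := Finset.mem_image.1 h𝓕
        have hT := (mem_tops hV hp h25 hh).1 (hSm t ht).1
        have hs := (hit_spec hV hp h25 hh hT.1).1
        obtain ⟨-, h1, h2⟩ := hSm t ht
        rw [h1, h2] at hs
        refine Finset.mem_image.2 ⟨t.2.2, hs, ?_⟩
        unfold topF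
        rw [h1, h2]
      refine (Finset.sum_le_sum_of_subset_of_nonneg hsub fun 𝓕 _ _ => ?_).trans ?_
      · rw [hφ]
        positivity
      have h3 := (h27 l G I hu hl' h hh).2
      have h4 := mul_le_mul_of_nonneg_right h3 (cell_len_nonneg I)
      rw [Finset.sum_mul, mul_assoc, s8a_n2_sq] at h4
      have e2 : ∀ 𝓕 ∈ (M.lstJ p l G (s8Pre p.K M.root I)).image
          (fun m => M.cF p l G (s8Pre p.K M.root I) h m),
          n2 I (M.sub l G (s8Frz p.K M.root I) I (𝓕 ∩ M.sideL p l G (s8Pre p.K M.root I))) ^ 2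
            * I.len = φ 𝓕 := by
        intro 𝓕 _
        rw [s8a_n2_sq, restr_sub hV hp l G _ le_rfl, hφ]
      rw [Finset.sum_congr rfl e2] at h4
      refine h4.trans ?_
      have h5 := s8a_norm_restr_le I.set (M.Vc p l G I)
      have h6 := pow_le_pow_left₀ (norm_nonneg _) h5 2
      linarith
    · have hemp : S = ∅ := by
        rw [Finset.eq_empty_iff_forall_notMem]
        intro t ht
        have hT := (mem_tops hV hp h25 hh).1 (hSm t ht).1
        have h1 := hT.1.2.1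
        rw [(hSm t ht).2.2] at h1
        exact hl' h1
      rw [hemp, Finset.sum_empty]
      positivity
  rw [← Finset.sum_fiberwise_of_maps_to (t := M.uses)
    (g := fun t : ℕ × Cell × ℕ => (t.1, t.2.1))
    (fun t ht => ((mem_tops hV hp h25 hh).1 ht).1.1)]
  calc ∑ u ∈ M.uses, ∑ t ∈ (M.tops p rep l h ty σ).filter (fun t => (t.1, t.2.1) = u),
        ‖M.sub l t.1 (s8Frz p.K M.root t.2.1) t.2.1
          (M.topF p l h t ∩ M.sideL p l t.1 (s8Pre p.K M.root t.2.1))‖ ^ 2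
      ≤ ∑ u ∈ M.uses, 2 * ‖M.Vc p l u.1 u.2‖ ^ 2 := Finset.sum_le_sum hfib
    _ = 2 * ∑ u ∈ M.uses, ‖M.Vc p l u.1 u.2‖ ^ 2 := by rw [Finset.mul_sum]
    _ ≤ 2 * (p.K * ∑ G ∈ M.grps, ∑ J ∈ M.pres p G, ‖M.V p l G J‖ ^ 2) :=
        mul_le_mul_of_nonneg_left (Vc_sum hV hp l) (by norm_num)
    _ ≤ 2 * (p.K * (X * M.root.len)) :=
        mul_le_mul_of_nonneg_left (mul_le_mul_of_nonneg_left (h17 l hl) (Nat.cast_nonneg _))
          (by norm_num)
    _ = 2 * p.K * X * M.root.len := by ring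

/-- the integrated top count -/
theorem top_len (hV : M.Valid p G0) (hp : p.Ok d) (h25 : M.G25 p rep) (h27 : M.G27 p) {X : ℝ} (h17 : M.G17 p X)
    (hX : 0 ≤ X) (hh : h ≤ p.Js) (hl : M.isB l = true) (hσ : (2 * (p.Ds : ℝ))⁻¹ ≤ σ) :
    σ ^ 2 * ∑ t ∈ M.tops p rep l h ty σ, t.2.1.len ≤ 40 * (G0 + p.K * X) * M.root.len := by
  have hD : (100 : ℝ) ≤ p.Ds := by exact_mod_cast hp.Ds_ge
  have hD0 : (0 : ℝ) < p.Ds := by linarith
  have hσ2 : 20 * ((p.Ds : ℝ) ^ 50)⁻¹ ≤ σ ^ 2 := by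
    have h1 : ((2 * (p.Ds : ℝ))⁻¹) ^ 2 ≤ σ ^ 2 := pow_le_pow_left₀ (by positivity) hσ 2
    refine le_trans ?_ h1
    have h48 : (80 : ℝ) ≤ (p.Ds : ℝ) ^ 48 :=
      calc (80 : ℝ) ≤ 100 ^ 48 := by norm_num
        _ ≤ (p.Ds : ℝ) ^ 48 := pow_le_pow_left₀ (by norm_num) hD 48
    rw [inv_pow, ← div_eq_mul_inv, div_le_iff₀ (by positivity), inv_mul_eq_div,
      le_div_iff₀ (by positivity)]
    have e : (p.Ds : ℝ) ^ 50 = (p.Ds : ℝ) ^ 48 * (p.Ds : ℝ) ^ 2 := by ring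
    rw [e]
    nlinarith [pow_pos hD0 2]
  have hpt : ∀ t ∈ M.tops p rep l h ty σ, σ ^ 2 * t.2.1.len ≤
      10 * (‖M.proj l t.1 t.2.1 (M.topF p l h t) (M.Ztil l t.1 (s8Frz p.K M.root t.2.1))‖ ^ 2
        + ‖M.sub l t.1 (s8Frz p.K M.root t.2.1) t.2.1
          (M.topF p l h t ∩ M.sideL p l t.1 (s8Pre p.K M.root t.2.1))‖ ^ 2
        + ((p.Ds : ℝ) ^ 50)⁻¹ * t.2.1.len) := by
    intro t ht
    have hT := (mem_tops hV hp h25 hh).1 ht
    obtain ⟨haL, hsig, -⟩ := hit_spec hV hp h25 hh hT.1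
    have h1 := (h27 l t.1 t.2.1 hT.1.1 hT.1.2.1 h hh).1 t.2.2 haL
    have h2 := mul_le_mul_of_nonneg_right (hsig.trans h1) (cell_len_nonneg t.2.1)
    refine h2.trans ?_
    rw [mul_assoc, add_mul, add_mul, s8a_n2_sq, s8a_n2_sq]
    have h3 := pow_le_pow_left₀ (norm_nonneg _) (s8a_norm_restr_le t.2.1.set
      (M.proj l t.1 t.2.1 (M.cF p l t.1 (s8Pre p.K M.root t.2.1) h t.2.2)
        (M.Ztil l t.1 (s8Frz p.K M.root t.2.1)))) 2
    have h4 := pow_le_pow_left₀ (norm_nonneg _) (s8a_norm_restr_le t.2.1.set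
      (M.sub l t.1 (s8Frz p.K M.root t.2.1) t.2.1
        (M.cF p l t.1 (s8Pre p.K M.root t.2.1) h t.2.2
          ∩ M.sideL p l t.1 (s8Pre p.K M.root t.2.1)))) 2
    unfold topF
    linarith
  have hsum := Finset.sum_le_sum hpt
  rw [← Finset.mul_sum, ← Finset.mul_sum, Finset.sum_add_distrib, Finset.sum_add_distrib,
    ← Finset.mul_sum] at hsum
  have hA := top_rows (l := l) (h := h) (ty := ty) (σ := σ) hV hp h25 hh hl
  have hB := top_side (l := l) (h := h) (ty := ty) (σ := σ) hV hp h25 h27 h17 hh hl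
  have hL : 0 ≤ ∑ t ∈ M.tops p rep l h ty σ, t.2.1.len :=
    Finset.sum_nonneg fun t _ => cell_len_nonneg _
  have h5 := mul_le_mul_of_nonneg_right hσ2 hL
  nlinarith

/-- sizes are bounded by the coefficient budget -/
theorem sig2_le (hV : M.Valid p G0) (hp : p.Ok d) (l : Fin 4) {G : ℕ} {I : Cell} (hu : (G, I) ∈ M.uses)
    (hl : s8Live p.K M.root I) (h m : ℕ) : M.sig2 p l G I h m ≤ (2 * (p.Ds : ℝ)) ^ 2 := by
  have hK := hp.K_pos
  have hD : (100 : ℝ) ≤ p.Ds := by exact_mod_cast hp.Ds_ge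
  have hD0 : (0 : ℝ) < p.Ds := by linarith
  obtain ⟨J, hJ⟩ : ∃ J : Cell, J = s8Pre p.K M.root I := ⟨_, rfl⟩
  obtain ⟨U, hU⟩ : ∃ U : Cell, U = s8Frz p.K M.root I := ⟨_, rfl⟩
  have hcert : M.cert G U := by
    rw [hU]
    exact cert_frz hK hu hl
  have hlst : M.lstJ p l G J = M.lst l G U := by
    rw [hJ, hU]
    exact lstJ_pre l G I
  unfold sig2
  rw [← hJ, ← hU]
  obtain ⟨s, hs⟩ : ∃ s : Finset ℕ → ℝ,
      s = fun 𝒟 => ∑ a ∈ 𝒟 ∩ M.coreL p l G J, ‖M.alpha l G U a‖ := ⟨_, rfl⟩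
  have hs0 : ∀ 𝒟, 0 ≤ s 𝒟 := by
    intro 𝒟
    rw [hs]
    exact Finset.sum_nonneg fun a _ => norm_nonneg _
  have hlen := cell_len_pos I
  have hn2 : ∀ 𝒟, n2 I (M.sub l G U I (𝒟 ∩ M.coreL p l G J)) ≤ 3 / 2 * s 𝒟 := by
    intro 𝒟
    unfold n2
    rw [div_le_iff₀ (Real.sqrt_pos.2 hlen)]
    refine (s8a_norm_restr_le _ _).trans ?_
    unfold sub
    refine (norm_sum_le _ _).trans ?_
    rw [hs]
    show _ ≤ 3 / 2 * (∑ a ∈ 𝒟 ∩ M.coreL p l G J, ‖M.alpha l G U a‖) * Real.sqrt I.len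
    rw [Finset.mul_sum, Finset.sum_mul]
    refine Finset.sum_le_sum fun a _ => ?_
    rw [norm_smul]
    have h1 := s8a_norm_vec_sq_le (M.psi l G a) (psi_nice hV hp l G a) I
    have h2 : ‖(M.psi l G a).vec I‖ ≤ 3 / 2 * Real.sqrt I.len := by
      refine le_of_pow_le_pow_left₀ two_ne_zero (by positivity) ?_
      rw [mul_pow, Real.sq_sqrt hlen.le]
      linarith
    calc ‖M.alpha l G U a‖ * ‖(M.psi l G a).vec I‖
        ≤ ‖M.alpha l G U a‖ * (3 / 2 * Real.sqrt I.len) :=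
          mul_le_mul_of_nonneg_left h2 (norm_nonneg _)
      _ = 3 / 2 * ‖M.alpha l G U a‖ * Real.sqrt I.len := by ring
  have hsmall : ((p.Ds : ℝ) ^ 30)⁻¹ ≤ 1 / 2 := by
    rw [one_div]
    refine inv_anti₀ (by norm_num) ?_
    calc (2 : ℝ) ≤ 100 ^ 30 := by norm_num
      _ ≤ (p.Ds : ℝ) ^ 30 := pow_le_pow_left₀ (by norm_num) hD 30
  have hx : ∀ 𝒟, n2 I (M.sub l G U I (𝒟 ∩ M.coreL p l G J))
      + ((p.Ds : ℝ) ^ 30)⁻¹ * ∑ a ∈ 𝒟 ∩ M.coreL p l G J, ‖M.alpha l G U a‖ ≤ 2 * s 𝒟 := by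
    intro 𝒟
    have h1 := hn2 𝒟
    have h2 := mul_le_mul_of_nonneg_right hsmall (hs0 𝒟)
    have e : ∑ a ∈ 𝒟 ∩ M.coreL p l G J, ‖M.alpha l G U a‖ = s 𝒟 := by rw [hs]
    rw [e]
    linarith
  have hx0 : ∀ 𝒟, 0 ≤ n2 I (M.sub l G U I (𝒟 ∩ M.coreL p l G J))
      + ((p.Ds : ℝ) ^ 30)⁻¹ * ∑ a ∈ 𝒟 ∩ M.coreL p l G J, ‖M.alpha l G U a‖ := by
    intro 𝒟
    have h1 : 0 ≤ n2 I (M.sub l G U I (𝒟 ∩ M.coreL p l G J)) := by
      unfold n2
      positivity
    have h2 : 0 ≤ ∑ a ∈ 𝒟 ∩ M.coreL p l G J, ‖M.alpha l G U a‖ :=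
      Finset.sum_nonneg fun a _ => norm_nonneg _
    positivity
  have hdisj : ((M.minC p l G J h m : Finset (Finset ℕ)) : Set (Finset ℕ)).PairwiseDisjoint
      (fun 𝒟 => 𝒟 ∩ M.coreL p l G J) := by
    intro 𝒟 h𝒟 𝒟' h𝒟' hne
    rw [Finset.mem_coe] at h𝒟 h𝒟'
    unfold minC at h𝒟 h𝒟'
    obtain ⟨a, -, rfl⟩ := Finset.mem_image.1 h𝒟
    obtain ⟨a', -, rfl⟩ := Finset.mem_image.1 h𝒟'
    show Disjoint _ _
    rw [Finset.disjoint_left]
    intro x hx hx'
    have h1 := (s8q_mem_cF.1 (Finset.mem_inter.1 hx).1).2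
    have h2 := (s8q_mem_cF.1 (Finset.mem_inter.1 hx').1).2
    exact hne (s8q_cF_eq (conn_equiv.trans h1 (conn_equiv.symm h2)))
  have hsum : ∑ 𝒟 ∈ M.minC p l G J h m, s 𝒟 ≤ p.Ds := by
    rw [hs, ← Finset.sum_biUnion hdisj]
    refine le_trans ?_ (hV.alpha_sum l G U hcert)
    refine Finset.sum_le_sum_of_subset_of_nonneg ?_ fun a _ _ => norm_nonneg _
    intro x hx
    obtain ⟨𝒟, -, hx⟩ := Finset.mem_biUnion.1 hx
    rw [← hlst]
    exact (Finset.mem_filter.1 (Finset.mem_inter.1 hx).2).1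
  refine (Finset.sum_sq_le_sq_sum_of_nonneg fun 𝒟 _ => hx0 𝒟).trans ?_
  refine pow_le_pow_left₀ (Finset.sum_nonneg fun 𝒟 _ => hx0 𝒟) ?_ 2
  calc ∑ 𝒟 ∈ M.minC p l G J h m, (n2 I (M.sub l G U I (𝒟 ∩ M.coreL p l G J))
        + ((p.Ds : ℝ) ^ 30)⁻¹ * ∑ a ∈ 𝒟 ∩ M.coreL p l G J, ‖M.alpha l G U a‖)
      ≤ ∑ 𝒟 ∈ M.minC p l G J h m, 2 * s 𝒟 := Finset.sum_le_sum fun 𝒟 _ => hx 𝒟
    _ = 2 * ∑ 𝒟 ∈ M.minC p l G J h m, s 𝒟 := by rw [Finset.mul_sum]
    _ ≤ 2 * p.Ds := mul_le_mul_of_nonneg_left hsum (by norm_num)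

/-- every hit lies below a first top of the same representative -/
theorem exists_top {G : ℕ} {I : Cell} {a : ℕ} (hV : M.Valid p G0) (hit : M.Hit p rep l h ty σ G I a) :
    ∃ I', I ≤ I' ∧ M.IsTop p rep l h ty σ G I' a := by
  obtain ⟨S, hS⟩ : ∃ S : Finset Cell, S = (M.uses.image Prod.snd).filter
      (fun I' => M.Hit p rep l h ty σ G I' a) := ⟨_, rfl⟩
  have hmem : ∀ I', M.Hit p rep l h ty σ G I' a → I' ∈ S := by
    intro I' h'
    rw [hS, Finset.mem_filter]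
    exact ⟨Finset.mem_image.2 ⟨(G, I'), h'.1, rfl⟩, h'⟩
  obtain ⟨I', hle, hmax⟩ := S.exists_le_maximal (hmem I hit)
  refine ⟨I', hle, ?_, fun I'' hlt h'' => ?_⟩
  · have := hmax.1
    rw [hS, Finset.mem_filter] at this
    exact this.2
  · exact absurd (hmax.2 (hmem I'' h'') hlt.le) (not_le_of_gt hlt)

/-- the representatives used in the bin `[σ, 2σ)` above `I₀` are counted by the tops at any smaller threshold -/
theorem used_le_tops (hV : M.Valid p G0) (hp : p.Ok d) (h25 : M.G25 p rep) (hh : h ≤ p.Js) {σ' : ℝ} (h0 : 0 ≤ σ')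
    (hσ : σ' ≤ σ) (I₀ : Cell) :
    (M.usedReps p rep l h ty σ I₀).Finite ∧
      (M.usedReps p rep l h ty σ I₀).ncard ≤ ((M.tops p rep l h ty σ').filter fun t => I₀ ≤ t.2.1).card := by
  have hsub : M.usedReps p rep l h ty σ I₀ ⊆
      ((((M.tops p rep l h ty σ').filter fun t => I₀ ≤ t.2.1).image
        (fun t : ℕ × Cell × ℕ => (t.1, t.2.2)) : Finset (ℕ × ℕ)) : Set (ℕ × ℕ)) := by
    rintro ⟨G, a⟩ ⟨I, hI, hu, hl, m, hm, hgood, htyp, hσ1, -, hrep⟩
    have hit : M.Hit p rep l h ty σ' G I a :=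
      ⟨hu, hl, m, hm, hgood, htyp, (pow_le_pow_left₀ h0 hσ 2).trans hσ1, hrep.symm⟩
    obtain ⟨I', hle, hT⟩ := exists_top hV hit
    rw [Finset.mem_coe, Finset.mem_image]
    refine ⟨(G, I', a), Finset.mem_filter.2 ⟨(mem_tops hV hp h25 hh).2 hT, hI.trans hle⟩, rfl⟩
  refine ⟨(Finset.finite_toSet _).subset hsub, ?_⟩
  refine (Set.ncard_le_ncard hsub (Finset.finite_toSet _)).trans ?_
  rw [Set.ncard_coe_finset]
  exact Finset.card_image_le

theorem used_le_Ds (hV : M.Valid p G0) (hp : p.Ok d) (h25 : M.G25 p rep) (hh : h ≤ p.Js) (I₀ : Cell) :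
    (M.usedReps p rep l h ty σ I₀).ncard ≤ p.Ds := by
  have hK := hp.K_pos
  rcases Set.eq_empty_or_nonempty (M.usedReps p rep l h ty σ I₀) with hemp | hne
  · rw [hemp, Set.ncard_empty]
    exact Nat.zero_le _
  obtain ⟨W, hW⟩ : ∃ W : Finset (ℕ × Cell),
      W = M.uses.filter (fun u => I₀ ≤ u.2 ∧ s8Live p.K M.root u.2) := ⟨_, rfl⟩
  have hWne : W.Nonempty := by
    obtain ⟨⟨G, a⟩, I, hI, hu, hl, -⟩ := hne
    exact ⟨(G, I), by rw [hW, Finset.mem_filter]; exact ⟨hu, hI, hl⟩⟩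
  obtain ⟨u₀, hu₀, hmax⟩ := Finset.exists_max_image W (fun u => u.2.depth) hWne
  have hu₀' : u₀ ∈ M.uses ∧ I₀ ≤ u₀.2 ∧ s8Live p.K M.root u₀.2 := by
    rw [hW, Finset.mem_filter] at hu₀
    exact hu₀
  obtain ⟨U, hU⟩ : ∃ U : Cell, U = s8Frz p.K M.root u₀.2 := ⟨_, rfl⟩
  have hUr : U ≤ M.root := by
    rw [hU]
    exact s8g_frz_le hK hu₀'.2.2
  have hcert : M.certAny U := ⟨hUr, u₀, hu₀'.1, by rw [hU]; exact s8g_le_frz _ _ _⟩
  have hsub : M.usedReps p rep l h ty σ I₀ ⊆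
      ((M.grps.biUnion fun G => (M.lst l G U).image fun a => (G, a) : Finset (ℕ × ℕ)) :
        Set (ℕ × ℕ)) := by
    rintro ⟨G, a⟩ ⟨I, hI, hu, hl, m, hm, hgood, htyp, hσ1, -, hrep⟩
    have hit : M.Hit p rep l h ty σ G I a := ⟨hu, hl, m, hm, hgood, htyp, hσ1, hrep.symm⟩
    have haL := (hit_spec hV hp h25 hh hit).1
    rw [lstJ_pre] at haL
    have hIW : (G, I) ∈ W := by
      rw [hW, Finset.mem_filter]
      exact ⟨hu, hI, hl⟩
    have hle : u₀.2 ≤ I := cell_chain_of_depth hu₀'.2.1 hI (hmax (G, I) hIW)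
    have hpre : s8Pre p.K M.root u₀.2 ≤ s8Pre p.K M.root I := s8g_pre_mono hK hl hu₀'.2.2 hle
    have hfrz : U ≤ s8Frz p.K M.root I := by
      rw [hU, ← s8g_pre_anc, ← s8g_pre_anc]
      exact cell_anc_mono hpre _
    have haU := hV.lst_mono l G _ _ (s8g_frz_le hK hl) hfrz haL
    rw [Finset.mem_coe, Finset.mem_biUnion]
    exact ⟨G, (hV.uses_le _ hu).1, Finset.mem_image.2 ⟨a, haU, rfl⟩⟩
  refine (Set.ncard_le_ncard hsub (Finset.finite_toSet _)).trans ?_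
  rw [Set.ncard_coe_finset]
  refine Finset.card_biUnion_le.trans ?_
  refine le_trans (Finset.sum_le_sum fun G _ => Finset.card_image_le) ?_
  exact hV.lst_count l U hcert

/-- stops for one choice of the parameters -/
theorem top_stops (hV : M.Valid p G0) (hp : p.Ok d) (h25 : M.G25 p rep) (h27 : M.G27 p) {X : ℝ} (h17 : M.G17 p X)
    (hX : 0 ≤ X) (hh : h ≤ p.Js) (hl : M.isB l = true) (hσ : (2 * (p.Ds : ℝ))⁻¹ ≤ σ) (ε : ℝ) (hε : 0 < ε) (hε1 : ε < 1) :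
    ∃ stops : Finset Cell, StopSet M.root stops ε ∧ ∀ I₀, Retained stops I₀ →
      (((M.tops p rep l h ty σ).filter fun t => I₀ ≤ t.2.1).card : ℝ) ≤ 40 * (G0 + p.K * X) / σ ^ 2 / ε := by
  have hD : (100 : ℝ) ≤ p.Ds := by exact_mod_cast hp.Ds_ge
  have hσ0 : 0 < σ := lt_of_lt_of_le (by positivity) hσ
  obtain ⟨T, hT⟩ : ∃ T : Finset (ℕ × Cell × ℕ), T = M.tops p rep l h ty σ := ⟨_, rfl⟩
  rw [← hT]
  have hlen := top_len (l := l) (h := h) (ty := ty) (σ := σ) hV hp h25 h27 h17 hX hh hl hσ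
  rw [← hT] at hlen
  have hE : 0 ≤ 40 * (G0 + p.K * X) / σ ^ 2 := by
    have := hV.G0_nonneg
    positivity
  obtain ⟨stops, -, hst, hret⟩ := cell_crossing_stops (R := M.root) (S := T.image fun t => t.2.1)
    (a := fun I => ((T.filter fun t => t.2.1 = I).card : ℝ))
    (by
      intro I hI
      obtain ⟨t, ht, rfl⟩ := Finset.mem_image.1 hI
      rw [hT] at ht
      exact ((mem_tops hV hp h25 hh).1 ht).1.2.1.1)
    (fun I _ => Nat.cast_nonneg _) hE hε hε1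
    (by
      have e1 : ∑ I ∈ T.image (fun t => t.2.1), I.len * ((T.filter fun t => t.2.1 = I).card : ℝ)
          = ∑ t ∈ T, t.2.1.len := by
        rw [← Finset.sum_fiberwise_of_maps_to (s := T) (t := T.image fun t => t.2.1)
          (g := fun t : ℕ × Cell × ℕ => t.2.1) (fun t ht => Finset.mem_image_of_mem _ ht)]
        refine Finset.sum_congr rfl fun I _ => ?_
        rw [Finset.sum_congr rfl (fun t ht => by rw [(Finset.mem_filter.1 ht).2] :
          ∀ t ∈ T.filter (fun t => t.2.1 = I), t.2.1.len = I.len), Finset.sum_const,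
          nsmul_eq_mul, mul_comm]
      rw [e1, div_mul_eq_mul_div, le_div_iff₀ (by positivity), mul_comm]
      exact hlen)
  refine ⟨stops, ⟨fun S hS => (hst.lt S hS).le, hst.len⟩, fun I₀ hI₀ => ?_⟩
  refine le_trans (le_of_eq ?_) (hret I₀ hI₀)
  rw [Finset.card_eq_sum_card_fiberwise (s := T.filter fun t => I₀ ≤ t.2.1)
    (t := (T.image fun t => t.2.1).filter fun J => I₀ ≤ J) (f := fun t : ℕ × Cell × ℕ => t.2.1)
    (by
      intro t ht
      rw [Finset.mem_coe, Finset.mem_filter] at ht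
      rw [Finset.mem_coe, Finset.mem_filter]
      exact ⟨Finset.mem_image_of_mem _ ht.1, ht.2⟩)]
  push_cast
  refine Finset.sum_congr rfl fun J hJ => ?_
  congr 1
  rw [Finset.filter_filter]
  congr 1
  refine Finset.filter_congr fun t _ => ?_
  constructor
  · exact fun h1 => h1.2
  · intro h1
    refine ⟨?_, h1⟩
    rw [h1]
    exact (Finset.mem_filter.1 hJ).2

/-- **Proposition 8.12 = display (28).** -/
theorem g28 (hV : M.Valid p G0) (hp : p.Ok d) (h25 : M.G25 p rep) : M.G28 p rep (p.X28 d G0) := by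
  have hK := hp.K_pos
  have h27 : M.G27 p := g27 hV hp
  have h17 : M.G17 p (p.X17 d G0) := g17 hV hp
  have hG0 := hV.G0_nonneg
  have hD : (100 : ℝ) ≤ p.Ds := by exact_mod_cast hp.Ds_ge
  have hD0 : (0 : ℝ) < p.Ds := by linarith
  have hX : 0 ≤ p.X17 d G0 := by
    have hh0 : (0 : ℝ) ≤ (harmonic p.Dm : ℝ) := by
      have h1 : 0 < harmonic p.Dm := harmonic_pos (by have := hp.Dm_pos; omega)
      exact_mod_cast h1.le
    have hδ := hp.δ_pos
    unfold S8Par.X17 S8Par.N0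
    positivity
  intro ε hε hε1
  obtain ⟨c, hc⟩ : ∃ c : ℕ, c = Nat.clog 2 p.Ds := ⟨_, rfl⟩
  obtain ⟨L, hL⟩ : ∃ L : ℕ, L = s8cLog p.Ds := ⟨_, rfl⟩
  obtain ⟨Ch, hCh⟩ : ∃ Ch : Finset (Fin 4 × ℕ × (ℕ × ℕ) × ℕ),
      Ch = (Finset.univ : Finset (Fin 4)) ×ˢ (Finset.range (p.Js + 1) ×ˢ
        ((Finset.range (L + 1) ×ˢ Finset.range (L + 1)) ×ˢ Finset.range (2 * c + 6))) := ⟨_, rfl⟩
  have hcard : Ch.card = p.nCh := by
    rw [hCh]
    unfold S8Par.nCh
    rw [← hc, ← hL]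
    simp only [Finset.card_product, Finset.card_univ, Fintype.card_fin, Finset.card_range]
    ring
  have hn1 : 1 ≤ p.nCh := by
    unfold S8Par.nCh
    have h1 : 1 ≤ 4 * (p.Js + 1) := by omega
    have h2 : 1 ≤ (s8cLog p.Ds + 1) ^ 2 := Nat.one_le_pow _ _ (by omega)
    have h3 : 1 ≤ 2 * Nat.clog 2 p.Ds + 6 := by omega
    calc 1 = 1 * 1 * 1 := by norm_num
      _ ≤ 4 * (p.Js + 1) * (s8cLog p.Ds + 1) ^ 2 * (2 * Nat.clog 2 p.Ds + 6) :=
          Nat.mul_le_mul (Nat.mul_le_mul h1 h2) h3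
  have hn : (1 : ℝ) ≤ (p.nCh : ℝ) := by exact_mod_cast hn1
  obtain ⟨ε', hε'⟩ : ∃ ε' : ℝ, ε' = ε / p.nCh := ⟨_, rfl⟩
  have hε'0 : 0 < ε' := by
    rw [hε']
    positivity
  have hε'1 : ε' < 1 := by
    rw [hε', div_lt_one (by linarith)]
    linarith
  obtain ⟨A, hA⟩ : ∃ A : ℝ, A = G0 + p.K * p.X17 d G0 := ⟨_, rfl⟩
  have hA0 : 0 ≤ A := by
    rw [hA]
    positivity
  have hex : ∀ ch : Fin 4 × ℕ × (ℕ × ℕ) × ℕ, ∃ stops : Finset Cell, StopSet M.root stops ε' ∧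
      (M.isB ch.1 = true → ch.2.1 ≤ p.Js → ∀ I₀, Retained stops I₀ →
        (((M.tops p rep ch.1 ch.2.1 ch.2.2.1 ((2 * (p.Ds : ℝ))⁻¹ * 2 ^ ch.2.2.2)).filter
          fun t => I₀ ≤ t.2.1).card : ℝ)
          ≤ 40 * A / ((2 * (p.Ds : ℝ))⁻¹ * 2 ^ ch.2.2.2) ^ 2 / ε') := by
    intro ch
    by_cases hcc : M.isB ch.1 = true ∧ ch.2.1 ≤ p.Js
    · obtain ⟨stops, h1, h2⟩ := top_stops (l := ch.1) (h := ch.2.1) (ty := ch.2.2.1)
        (σ := (2 * (p.Ds : ℝ))⁻¹ * 2 ^ ch.2.2.2) hV hp h25 h27 h17 hX hcc.2 hcc.1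
        (le_mul_of_one_le_right (by positivity) (one_le_pow₀ (by norm_num))) ε' hε'0 hε'1
      rw [← hA] at h2
      exact ⟨stops, h1, fun _ _ => h2⟩
    · refine ⟨∅, ⟨fun S hS => absurd hS (Finset.notMem_empty S), ?_⟩,
        fun h1 h2 => absurd ⟨h1, h2⟩ hcc⟩
      rw [Finset.sum_empty]
      exact mul_nonneg hε'0.le (cell_len_nonneg _)
  choose st hst1 hst2 using hex
  refine ⟨cellMaxs (Ch.biUnion st), ⟨fun S hS => ?_, ?_⟩, ?_⟩
  · obtain ⟨ch, -, hS'⟩ := Finset.mem_biUnion.1 (cell_maxs_subset _ hS)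
    exact (hst1 ch).le S hS'
  · refine (cell_sum_len_maxs_biUnion_le Ch st).trans ?_
    refine (Finset.sum_le_sum fun ch _ => (hst1 ch).len).trans (le_of_eq ?_)
    rw [Finset.sum_const, hcard, nsmul_eq_mul, hε']
    field_simp
  intro I₀ hI₀ hret l hl h hh ty σ hσ
  have hhJ : h ≤ p.Js := by
    unfold S8Par.up S8cTower.s8cUp at hh
    have := (Finset.mem_filter.1 hh).1
    rw [Finset.mem_range] at this
    omega
  have hfin := (used_le_tops (l := l) (h := h) (ty := ty) hV hp h25 hhJ hσ.le le_rfl I₀).1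
  have hDs := used_le_Ds (l := l) (h := h) (ty := ty) (σ := σ) hV hp h25 hhJ I₀
  have hDs' : ((M.usedReps p rep l h ty σ I₀).ncard : ℝ) ≤ p.Ds := by exact_mod_cast hDs
  refine ⟨hfin, le_min hDs' ?_⟩
  have hX28 : p.X28 d G0 = 160 * (A + 1) * p.nCh := by
    unfold S8Par.X28
    rw [hA]
  rw [hX28]
  rcases Set.eq_empty_or_nonempty (M.usedReps p rep l h ty σ I₀) with hemp | hne
  · rw [hemp, Set.ncard_empty]
    push_cast
    positivity
  obtain ⟨⟨G, a⟩, I, hI, hu, hlv, m, hm, hgood, htyp, hσ1, -, hrep⟩ := hne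
  have hJ : s8Pre p.K M.root I ∈ M.pres p G := mem_pres.2 ⟨I, hu, hlv, rfl⟩
  have hσle : σ ≤ 2 * p.Ds :=
    le_of_pow_le_pow_left₀ two_ne_zero (by positivity) (hσ1.trans (sig2_le hV hp l hu hlv h m))
  have hty : ty.1 ≤ L ∧ ty.2 ≤ L := by
    have hE : ((M.tower p l G).E (s8Pre p.K M.root I) (h - 10) m).card ≤ p.Ds :=
      (Finset.card_le_card (Finset.filter_subset _ _)).trans (lstJ_card hV hK l hJ)
    have hP : ((M.tower p l G).piE (s8Pre p.K M.root I) (h - 10) m).card ≤ p.Ds := by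
      unfold S8cTower.piE
      exact le_trans (@Finset.card_image_le _ _ _ _ (fun a b => Classical.propDecidable (a = b))) hE
    rw [← htyp, hL]
    exact ⟨s8c_log_mono hP, s8c_log_mono hE⟩
  rcases lt_or_ge σ (2 * (p.Ds : ℝ))⁻¹ with hsm | hbig
  · refine hDs'.trans ?_
    have h1 : (2 * (p.Ds : ℝ)) ^ 2 ≤ (σ ^ 2)⁻¹ := by
      rw [← inv_inv ((2 * (p.Ds : ℝ)) ^ 2), ← inv_pow]
      exact inv_anti₀ (by positivity) (pow_le_pow_left₀ hσ.le hsm.le 2)
    have h2 : (1 : ℝ) ≤ 160 * (A + 1) * p.nCh / ε := by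
      rw [le_div_iff₀ hε]
      nlinarith
    calc (p.Ds : ℝ) ≤ 1 * (2 * (p.Ds : ℝ)) ^ 2 := by nlinarith
      _ ≤ 160 * (A + 1) * p.nCh / ε * (σ ^ 2)⁻¹ :=
          mul_le_mul h2 h1 (by positivity) (by positivity)
  · have hx1 : 1 ≤ σ * (2 * (p.Ds : ℝ)) := by
      have := mul_le_mul_of_nonneg_right hbig (by positivity : (0 : ℝ) ≤ 2 * (p.Ds : ℝ))
      rwa [inv_mul_cancel₀ (by positivity)] at this
    obtain ⟨i, hi1, hi2⟩ := exists_nat_pow_near hx1 (one_lt_two : (1 : ℝ) < 2)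
    obtain ⟨s, hs⟩ : ∃ s : ℝ, s = (2 * (p.Ds : ℝ))⁻¹ * 2 ^ i := ⟨_, rfl⟩
    have hs0 : 0 < s := by
      rw [hs]
      positivity
    have hsσ : s ≤ σ := by
      rw [hs, inv_mul_le_iff₀ (by positivity), mul_comm]
      exact hi1
    have hσs : σ ≤ 2 * s := by
      have h1 : σ * (2 * (p.Ds : ℝ)) ≤ 2 * s * (2 * (p.Ds : ℝ)) := by
        rw [hs]
        have e : 2 * ((2 * (p.Ds : ℝ))⁻¹ * 2 ^ i) * (2 * (p.Ds : ℝ)) = 2 ^ (i + 1) := by
          field_simp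
          ring
        rw [e]
        exact hi2.le
      exact le_of_mul_le_mul_right h1 (by positivity)
    have hi : i < 2 * c + 6 := by
      have hDc : (p.Ds : ℝ) ≤ 2 ^ c := by
        have := Nat.le_pow_clog (b := 2) (by norm_num) p.Ds
        rw [← hc] at this
        exact_mod_cast this
      have h1 : (2 : ℝ) ^ i ≤ 2 ^ (2 * c + 2) := by
        calc (2 : ℝ) ^ i ≤ σ * (2 * (p.Ds : ℝ)) := hi1
          _ ≤ 2 * (p.Ds : ℝ) * (2 * (p.Ds : ℝ)) :=
              mul_le_mul_of_nonneg_right hσle (by positivity)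
          _ ≤ 2 * 2 ^ c * (2 * 2 ^ c) := by
              have : 2 * (p.Ds : ℝ) ≤ 2 * 2 ^ c := by linarith
              exact mul_le_mul this this (by positivity) (by positivity)
          _ = 2 ^ (2 * c + 2) := by ring
      have := (pow_le_pow_iff_right₀ (one_lt_two : (1 : ℝ) < 2)).1 h1
      omega
    have hch : (l, h, ty, i) ∈ Ch := by
      rw [hCh]
      simp only [Finset.mem_product, Finset.mem_univ, Finset.mem_range, true_and]
      exact ⟨by omega, ⟨by omega, by omega⟩, hi⟩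
    have hr : Retained (st (l, h, ty, i)) I₀ :=
      (cell_retained_biUnion.1 (cell_retained_maxs.1 hret)) _ hch
    have h1 := hst2 (l, h, ty, i) hl hhJ I₀ hr
    simp only at h1
    rw [← hs] at h1
    have h2 := (used_le_tops (l := l) (h := h) (ty := ty) hV hp h25 hhJ hs0.le hsσ I₀).2
    have h2' : ((M.usedReps p rep l h ty σ I₀).ncard : ℝ)
        ≤ (((M.tops p rep l h ty s).filter fun t => I₀ ≤ t.2.1).card : ℝ) := by exact_mod_cast h2
    refine h2'.trans (h1.trans ?_)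
    have h3 : (s ^ 2)⁻¹ ≤ 4 * (σ ^ 2)⁻¹ := by
      have h4 : σ ^ 2 ≤ 4 * s ^ 2 := by
        have := pow_le_pow_left₀ hσ.le hσs 2
        linarith [this, (by ring : (2 * s) ^ 2 = 4 * s ^ 2)]
      have h5 := inv_anti₀ (by positivity) h4
      rw [mul_inv] at h5
      linarith
    have e1 : 40 * A / s ^ 2 / ε' = 40 * A * p.nCh / ε * (s ^ 2)⁻¹ := by
      rw [hε']
      field_simp
    rw [e1]
    calc 40 * A * p.nCh / ε * (s ^ 2)⁻¹ ≤ 40 * A * p.nCh / ε * (4 * (σ ^ 2)⁻¹) :=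
          mul_le_mul_of_nonneg_left h3 (by positivity)
      _ = 160 * A * p.nCh / ε * (σ ^ 2)⁻¹ := by ring
      _ ≤ 160 * (A + 1) * p.nCh / ε * (σ ^ 2)⁻¹ := by
          refine mul_le_mul_of_nonneg_right ?_ (by positivity)
          refine div_le_div_of_nonneg_right ?_ hε.le
          refine mul_le_mul_of_nonneg_right ?_ (by positivity)
          linarith

end ModeSys

end

end Claimed.Agent.R258
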